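import Vale.Agent.P042.H599.Level1
set_option autoImplicit false

/-!
P042 [D]: superadditivity of the relative entropy of the residue classes of a law on an interval
(packing), and its Bernoulli form (input MEI of block [B]).
-/

namespace Vale.Agent.P042.H599

open Finset

/-- relative entropy of `nu mod d` with respect to the uniform law -/
noncomputable def klu (nu : ℕ → ℝ) (A M d : ℕ) : ℝ :=
  ∑ a ∈ range d, cm nu A M d a * Real.log (d * cm nu A M d a)

/-- relative entropy of `nu` with respect to the uniform law on the interval -/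
noncomputable def kl0 (nu : ℕ → ℝ) (A M : ℕ) : ℝ :=
  ∑ i ∈ range M, nu (A + i) * Real.log (M * nu (A + i))

/-- a law on the interval `{A, ..., A+M-1}` -/
structure Law (nu : ℕ → ℝ) (A M : ℕ) : Prop where
  pos : 0 < M
  nonneg : ∀ i < M, 0 ≤ nu (A + i)
  sum : ∑ i ∈ range M, nu (A + i) = 1

theorem gibbs {x y : ℝ} (hx : 0 ≤ x) (hy : 0 ≤ y) (h : y = 0 → x = 0) :
    x - y ≤ x * (Real.log x - Real.log y) := by
  rcases hx.eq_or_lt with h0 | h0
  · rw [← h0]; simp [hy]
  · rcases hy.eq_or_lt with h1 | h1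
    · exact absurd (h h1.symm) h0.ne'
    · have h2 := Real.log_le_sub_one_of_pos (div_pos h1 h0)
      rw [Real.log_div h1.ne' h0.ne'] at h2
      have h3 : x * (Real.log y - Real.log x) ≤ x * (y / x - 1) :=
        mul_le_mul_of_nonneg_left h2 h0.le
      have h4 : x * (y / x - 1) = y - x := by field_simp
      nlinarith

variable {nu : ℕ → ℝ} {A M : ℕ}

theorem sum_cm_mod (_h : Law nu A M) {d d' : ℕ} (hd' : 0 < d') (hdd : d ∣ d') (hd : 0 < d)
    (f : ℕ → ℝ) :
    ∑ c ∈ range d', cm nu A M d' c * f (c % d) = ∑ a ∈ range d, cm nu A M d a * f a := by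
  rw [sum_cm_mul nu A M hd' (fun c => f (c % d)), sum_cm_mul nu A M hd]
  refine Finset.sum_congr rfl fun i _ => ?_
  rw [Nat.mod_mod_of_dvd _ hdd]

theorem cm_zero_of {d d' : ℕ} (h : Law nu A M) (hdd : d ∣ d') {c : ℕ}
    (h0 : cm nu A M d (c % d) = 0) : cm nu A M d' c = 0 := by
  refine le_antisymm ?_ (cm_nonneg h.nonneg _ _)
  rw [← h0]
  unfold cm
  refine Finset.sum_le_sum fun i hi => ?_
  by_cases h1 : (A + i) % d' = c
  · rw [if_pos h1, if_pos]
    rw [← h1, Nat.mod_mod_of_dvd _ hdd]
  · rw [if_neg h1]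
    split_ifs
    · exact h.nonneg i (mem_range.1 hi)
    · exact le_rfl

theorem klu_eq (h : Law nu A M) {d d' : ℕ} (hd' : 0 < d') (hdd : d ∣ d') (hd : 0 < d) :
    klu nu A M d =
      ∑ c ∈ range d', cm nu A M d' c * Real.log (d * cm nu A M d (c % d)) := by
  rw [klu, ← sum_cm_mod h hd' hdd hd (fun a => Real.log (d * cm nu A M d a))]

/-- data processing -/
theorem klu_mono (h : Law nu A M) {d d' : ℕ} (hd' : 0 < d') (hdd : d ∣ d') :
    klu nu A M d ≤ klu nu A M d' := by
  have hd : 0 < d := Nat.pos_of_dvd_of_pos hdd hd'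
  obtain ⟨q, rfl⟩ := hdd
  have hq : 0 < q := Nat.pos_of_ne_zero (by rintro rfl; simp at hd')
  have hdR : (0 : ℝ) < d := by exact_mod_cast hd
  have hqR : (0 : ℝ) < q := by exact_mod_cast hq
  rw [klu_eq h hd' (dvd_mul_right d q) hd, klu, ← sub_nonneg, ← Finset.sum_sub_distrib]
  have key : ∀ c ∈ range (d * q),
      cm nu A M (d * q) c - cm nu A M d (c % d) / q ≤
        cm nu A M (d * q) c * Real.log ((d * q : ℕ) * cm nu A M (d * q) c) -
        cm nu A M (d * q) c * Real.log (d * cm nu A M d (c % d)) := by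
    intro c _
    have hx := cm_nonneg h.nonneg (d * q) c (nu := nu) (A := A) (M := M)
    have hy := cm_nonneg h.nonneg d (c % d) (nu := nu) (A := A) (M := M)
    rcases hx.eq_or_lt with h0 | h0
    · rw [← h0]; simp; positivity
    · have hy' : 0 < cm nu A M d (c % d) := by
        rcases hy.eq_or_lt with h1 | h1
        · exact absurd (cm_zero_of h (dvd_mul_right d q) h1.symm) h0.ne'
        · exact h1
      have h2 := gibbs hx (div_nonneg hy hqR.le) (fun h3 => by
        rw [div_eq_zero_iff] at h3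
        rcases h3 with h3 | h3
        · exact absurd h3 hy'.ne'
        · exact absurd h3 hqR.ne')
      refine h2.trans (le_of_eq ?_)
      rw [Real.log_div hy'.ne' hqR.ne', Nat.cast_mul, mul_assoc, Real.log_mul hdR.ne'
        (by positivity), Real.log_mul hqR.ne' h0.ne', Real.log_mul hdR.ne' hy'.ne']
      ring
  refine le_trans (le_of_eq ?_) (Finset.sum_le_sum key)
  rw [Finset.sum_sub_distrib, sum_cm h.sum hd', ← Finset.sum_div,
    sum_mul_period (F := fun c => cm nu A M d (c % d)) (D := d) (by intro j; simp)]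
  have h5 : ∑ i ∈ range d, cm nu A M d (i % d) = 1 := by
    rw [← sum_cm h.sum hd]
    refine Finset.sum_congr rfl fun i hi => ?_
    rw [Nat.mod_eq_of_lt (mem_range.1 hi)]
  rw [h5]; field_simp; simp

/-- superadditivity, two coprime moduli -/
theorem klu_add (h : Law nu A M) {m n : ℕ} (hm : 0 < m) (hn : 0 < n) (hmn : m.Coprime n) :
    klu nu A M m + klu nu A M n ≤ klu nu A M (m * n) := by
  have hmR : (0 : ℝ) < m := by exact_mod_cast hm
  have hnR : (0 : ℝ) < n := by exact_mod_cast hn
  have hmn0 : 0 < m * n := Nat.mul_pos hm hn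
  rw [klu_eq h hmn0 (dvd_mul_right m n) hm, klu_eq h hmn0 (dvd_mul_left n m) hn, klu,
    ← sub_nonneg, ← Finset.sum_add_distrib, ← Finset.sum_sub_distrib]
  have key : ∀ c ∈ range (m * n),
      cm nu A M (m * n) c - cm nu A M m (c % m) * cm nu A M n (c % n) ≤
        cm nu A M (m * n) c * Real.log ((m * n : ℕ) * cm nu A M (m * n) c) -
        (cm nu A M (m * n) c * Real.log (m * cm nu A M m (c % m)) +
          cm nu A M (m * n) c * Real.log (n * cm nu A M n (c % n))) := by
    intro c _
    have hx := cm_nonneg h.nonneg (m * n) c (nu := nu) (A := A) (M := M)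
    have hy1 := cm_nonneg h.nonneg m (c % m) (nu := nu) (A := A) (M := M)
    have hy2 := cm_nonneg h.nonneg n (c % n) (nu := nu) (A := A) (M := M)
    rcases hx.eq_or_lt with h0 | h0
    · rw [← h0]; simp; positivity
    · have hy1' : 0 < cm nu A M m (c % m) := by
        rcases hy1.eq_or_lt with h1 | h1
        · exact absurd (cm_zero_of h (dvd_mul_right m n) h1.symm) h0.ne'
        · exact h1
      have hy2' : 0 < cm nu A M n (c % n) := by
        rcases hy2.eq_or_lt with h1 | h1
        · exact absurd (cm_zero_of h (dvd_mul_left n m) h1.symm) h0.ne'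
        · exact h1
      have h2 := gibbs hx (mul_nonneg hy1 hy2) (fun h3 => absurd h3 (mul_pos hy1' hy2').ne')
      refine h2.trans (le_of_eq ?_)
      rw [Real.log_mul hy1'.ne' hy2'.ne', Nat.cast_mul, mul_assoc, Real.log_mul hmR.ne'
        (by positivity), Real.log_mul hnR.ne' h0.ne', Real.log_mul hmR.ne' hy1'.ne',
        Real.log_mul hnR.ne' hy2'.ne']
      ring
  refine le_trans (le_of_eq ?_) (Finset.sum_le_sum key)
  rw [Finset.sum_sub_distrib, sum_cm h.sum hmn0,
    sum_coprime hm hn hmn (fun a => cm nu A M m a) (fun b => cm nu A M n b),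
    sum_cm h.sum hm, sum_cm h.sum hn]
  ring

theorem klu_one (h : Law nu A M) : klu nu A M 1 = 0 := by
  have h1 := sum_cm h.sum (p := 1) one_pos
  simp only [Finset.range_one, Finset.sum_singleton] at h1
  unfold klu
  simp [h1]

theorem klu_nonneg (h : Law nu A M) {d : ℕ} (hd : 0 < d) : 0 ≤ klu nu A M d := by
  rw [← klu_one h]
  exact klu_mono h hd (one_dvd d)

/-- superadditivity for a finite family of pairwise coprime moduli -/
theorem klu_sum (h : Law nu A M) {ι : Type*} (s : Finset ι) (d : ι → ℕ)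
    (hd : ∀ i ∈ s, 0 < d i) (hc : (s : Set ι).Pairwise (fun i j => (d i).Coprime (d j))) :
    ∑ i ∈ s, klu nu A M (d i) ≤ klu nu A M (∏ i ∈ s, d i) := by
  classical
  induction s using Finset.induction_on with
  | empty => simp [klu_one h]
  | insert j s hj ih =>
    rw [Finset.sum_insert hj, Finset.prod_insert hj]
    have hd' : ∀ i ∈ s, 0 < d i := fun i hi => hd i (mem_insert_of_mem hi)
    have h1 := ih hd' (hc.mono (by simp))
    have h2 := klu_add h (hd j (mem_insert_self _ _)) (Finset.prod_pos hd')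
      (Nat.Coprime.prod_right fun i hi =>
        hc (by simp) (by simp [hi]) (by rintro rfl; exact hj hi))
    linarith

theorem count_le {D : ℕ} (hD : 0 < D) (a : ℕ) :
    ∑ i ∈ range M, (if (A + i) % D = a then (1 : ℝ) else 0) ≤ M / D + 1 := by
  set F : ℕ → ℝ := fun j => if j % D = a then (1 : ℝ) else 0 with hF
  have hper : ∀ j, F (j + D) = F j := by intro j; simp [hF]
  have hG : ∀ j, (fun i => F (A + i)) (j + D) = (fun i => F (A + i)) j := by
    intro j; simp only [← add_assoc]; exact hper _
  have hS : ∑ i ∈ range D, F i ≤ 1 := by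
    have : ∑ i ∈ range D, F i = ∑ i ∈ range D, if i = a then (1 : ℝ) else 0 := by
      refine Finset.sum_congr rfl fun i hi => ?_
      simp only [hF, Nat.mod_eq_of_lt (mem_range.1 hi)]
    rw [this, Finset.sum_ite_eq']
    split_ifs <;> norm_num
  have hdm : D * (M / D) + M % D = M := Nat.div_add_mod M D
  have hsum : ∑ i ∈ range M, F (A + i) = (M / D : ℕ) * (∑ i ∈ range D, F i) +
      ∑ i ∈ range (M % D), F (A + (D * (M / D) + i)) := by
    conv_lhs => rw [← hdm]
    rw [Finset.sum_range_add, sum_mul_period hG, sum_shift hper]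
  have hR : ∑ i ∈ range (M % D), F (A + (D * (M / D) + i)) ≤ 1 := by
    have h1 : ∑ i ∈ range (M % D), F (A + (D * (M / D) + i)) ≤
        ∑ i ∈ range D, F ((A + D * (M / D)) + i) := by
      have h2 : ∑ i ∈ range (M % D), F (A + (D * (M / D) + i)) =
          ∑ i ∈ range (M % D), F ((A + D * (M / D)) + i) := by
        refine Finset.sum_congr rfl fun i _ => ?_
        rw [add_assoc]
      rw [h2]
      refine Finset.sum_le_sum_of_subset_of_nonneg ?_ fun i _ _ => ?_
      · intro i hi
        rw [mem_range] at hi ⊢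
        exact hi.trans (Nat.mod_lt _ hD)
      · simp only [hF]; split_ifs <;> norm_num
    rw [sum_shift hper] at h1
    exact h1.trans hS
  have hfl : ((M / D : ℕ) : ℝ) ≤ M / D := Nat.cast_div_le
  have h3 : ((M / D : ℕ) : ℝ) * (∑ i ∈ range D, F i) ≤ (M / D : ℕ) * 1 :=
    mul_le_mul_of_nonneg_left hS (by positivity)
  change ∑ i ∈ range M, F (A + i) ≤ _
  rw [hsum]
  linarith

/-- the residue classes see at most the relative entropy of the law -/
theorem klu_le (h : Law nu A M) {D : ℕ} (hD : 0 < D) :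
    klu nu A M D ≤ kl0 nu A M + Real.log (1 + D / M) := by
  have hMR : (0 : ℝ) < M := by exact_mod_cast h.pos
  have hDR : (0 : ℝ) < D := by exact_mod_cast hD
  have h1 : klu nu A M D = ∑ i ∈ range M, nu (A + i) *
      Real.log (D * cm nu A M D ((A + i) % D)) := by
    rw [klu, sum_cm_mul nu A M hD (fun a => Real.log (D * cm nu A M D a))]
  have h2 : Real.log (1 + D / M) = ∑ i ∈ range M, nu (A + i) * Real.log (1 + D / M) := by
    rw [← Finset.sum_mul, h.sum, one_mul]
  rw [h1, h2, kl0, ← Finset.sum_add_distrib, ← sub_nonneg, ← Finset.sum_sub_distrib]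
  have key : ∀ i ∈ range M,
      nu (A + i) - cm nu A M D ((A + i) % D) * (D / (M + D)) ≤
      nu (A + i) * Real.log (M * nu (A + i)) + nu (A + i) * Real.log (1 + D / M) -
        nu (A + i) * Real.log (D * cm nu A M D ((A + i) % D)) := by
    intro i hi
    have hx := h.nonneg i (mem_range.1 hi)
    have hy := cm_nonneg h.nonneg D ((A + i) % D) (nu := nu) (A := A) (M := M)
    rcases hx.eq_or_lt with h0 | h0
    · rw [← h0]; simp; positivity
    · have hle : nu (A + i) ≤ cm nu A M D ((A + i) % D) := by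
        unfold cm
        refine le_trans (le_of_eq ?_) (Finset.single_le_sum
          (f := fun j => if (A + j) % D = (A + i) % D then nu (A + j) else 0)
          (fun j hj => ?_) hi)
        · simp
        · split_ifs
          · exact h.nonneg j (mem_range.1 hj)
          · exact le_rfl
      have hy' : 0 < cm nu A M D ((A + i) % D) := lt_of_lt_of_le h0 hle
      have hz : 0 < (D : ℝ) / (M + D) := by positivity
      have h3 := gibbs hx (mul_nonneg hy hz.le) (fun h4 => absurd h4 (mul_pos hy' hz).ne')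
      refine h3.trans (le_of_eq ?_)
      have h5 : (1 : ℝ) + D / M = (M + D) / M := by field_simp
      rw [Real.log_mul hy'.ne' hz.ne', Real.log_div hDR.ne' (by positivity), h5,
        Real.log_div (by positivity) hMR.ne', Real.log_mul hMR.ne' h0.ne',
        Real.log_mul hDR.ne' hy'.ne']
      ring
  refine le_trans ?_ (Finset.sum_le_sum key)
  rw [Finset.sum_sub_distrib, h.sum, ← Finset.sum_mul]
  have h6 : ∑ i ∈ range M, cm nu A M D ((A + i) % D) ≤ M / D + 1 := by
    have h7 : ∑ i ∈ range M, cm nu A M D ((A + i) % D) =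
        ∑ a ∈ range D, cm nu A M D a *
          ∑ i ∈ range M, (if (A + i) % D = a then (1 : ℝ) else 0) := by
      simp only [Finset.mul_sum]
      rw [Finset.sum_comm]
      refine Finset.sum_congr rfl fun i _ => ?_
      simp only [mul_ite, mul_one, mul_zero]
      rw [Finset.sum_ite_eq, if_pos (mem_range.2 (Nat.mod_lt _ hD))]
    rw [h7]
    calc ∑ a ∈ range D, cm nu A M D a *
          ∑ i ∈ range M, (if (A + i) % D = a then (1 : ℝ) else 0)
        ≤ ∑ a ∈ range D, cm nu A M D a * ((M : ℝ) / D + 1) := by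
          refine Finset.sum_le_sum fun a _ => ?_
          exact mul_le_mul_of_nonneg_left (count_le hD a) (cm_nonneg h.nonneg _ _)
      _ = (M : ℝ) / D + 1 := by rw [← Finset.sum_mul, sum_cm h.sum hD, one_mul]
  have h8 : (∑ i ∈ range M, cm nu A M D ((A + i) % D)) * (D / (M + D)) ≤
      ((M : ℝ) / D + 1) * (D / (M + D)) :=
    mul_le_mul_of_nonneg_right h6 (by positivity)
  have h9 : ((M : ℝ) / D + 1) * (D / (M + D)) = 1 := by field_simp
  linarith

/-- **packing**: pairwise coprime moduli with product `D` -/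
theorem pack (h : Law nu A M) {ι : Type*} (s : Finset ι) (d : ι → ℕ)
    (hd : ∀ i ∈ s, 0 < d i) (hc : (s : Set ι).Pairwise (fun i j => (d i).Coprime (d j))) :
    ∑ i ∈ s, klu nu A M (d i) ≤ kl0 nu A M + Real.log (1 + (∏ i ∈ s, d i : ℕ) / M) :=
  (klu_sum h s d hd hc).trans (klu_le h (Finset.prod_pos hd))

/-- random colouring: a bound for `K` disjoint sets gives a bound for a Bernoulli set -/
theorem color {ι : Type*} [Fintype ι] [DecidableEq ι] (K : ℕ) (t : ι → ℝ)
    (ht0 : ∀ i, 0 ≤ t i) (htK : ∀ i, K * t i ≤ 1) (G : Finset ι → ℝ) (C : ℝ)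
    (hG : ∀ R : Fin K → Finset ι, (∀ l l', l ≠ l' → Disjoint (R l) (R l')) → ∑ l, G (R l) ≤ C) :
    K * ∑ R : Finset ι, ((∏ i ∈ R, t i) * ∏ i ∈ Rᶜ, (1 - t i)) * G R ≤ C := by
  set om : ι → Option (Fin K) → ℝ := fun i c => c.elim (1 - K * t i) (fun _ => t i) with hom
  have hom0 : ∀ i c, 0 ≤ om i c := by
    intro i c
    cases c with
    | none => simp only [hom, Option.elim_none]; linarith [htK i]
    | some l => simp only [hom, Option.elim_some]; exact ht0 i
  have hsum1 : ∀ i, ∑ c, om i c = 1 := by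
    intro i
    rw [Fintype.sum_option]
    simp only [hom, Option.elim_none, Option.elim_some, Finset.sum_const, Finset.card_univ,
      Fintype.card_fin, nsmul_eq_mul]
    ring
  have htot : ∑ χ : ι → Option (Fin K), ∏ i, om i (χ i) = 1 := by
    have := Finset.prod_univ_sum (fun _ : ι => (Finset.univ : Finset (Option (Fin K)))) om
    rw [Fintype.piFinset_univ] at this
    rw [← this]
    exact Finset.prod_eq_one fun i _ => hsum1 i
  set pre : (ι → Option (Fin K)) → Fin K → Finset ι :=
    fun χ l => Finset.univ.filter fun i => χ i = some l with hpre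
  have hone : ∀ l : Fin K, ∑ χ : ι → Option (Fin K), (∏ i, om i (χ i)) * G (pre χ l) =
      ∑ R : Finset ι, ((∏ i ∈ R, t i) * ∏ i ∈ Rᶜ, (1 - t i)) * G R := by
    intro l
    rw [← Finset.sum_fiberwise (s := Finset.univ) (g := fun χ => pre χ l)]
    refine Finset.sum_congr rfl fun R _ => ?_
    have h1 : ∑ χ ∈ Finset.univ.filter (fun χ => pre χ l = R),
        (∏ i, om i (χ i)) * G (pre χ l) =
        (∑ χ ∈ Finset.univ.filter (fun χ => pre χ l = R), ∏ i, om i (χ i)) * G R := by
      rw [Finset.sum_mul]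
      refine Finset.sum_congr rfl fun χ hχ => ?_
      rw [(Finset.mem_filter.1 hχ).2]
    rw [h1]
    congr 1
    have h2 : ∑ χ ∈ Finset.univ.filter (fun χ => pre χ l = R), ∏ i, om i (χ i) =
        ∑ χ : ι → Option (Fin K), ∏ i, (if (χ i = some l ↔ i ∈ R) then om i (χ i) else 0) := by
      rw [Finset.sum_filter]
      refine Finset.sum_congr rfl fun χ _ => ?_
      by_cases h3 : pre χ l = R
      · rw [if_pos h3]
        refine Finset.prod_congr rfl fun i _ => ?_
        rw [if_pos]
        rw [← h3]; simp [hpre]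
      · rw [if_neg h3]
        have h4 : ∃ i, ¬ (χ i = some l ↔ i ∈ R) := by
          by_contra hcon
          push Not at hcon
          apply h3
          ext i
          simp only [hpre, Finset.mem_filter, Finset.mem_univ, true_and]
          exact hcon i
        obtain ⟨i, hi⟩ := h4
        exact (Finset.prod_eq_zero (Finset.mem_univ i) (if_neg hi)).symm
    rw [h2]
    have h5 := Finset.prod_univ_sum (fun _ : ι => (Finset.univ : Finset (Option (Fin K))))
      (fun i c => if (c = some l ↔ i ∈ R) then om i c else 0)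
    rw [Fintype.piFinset_univ] at h5
    rw [← h5, ← Finset.prod_mul_prod_compl R]
    congr 1
    · refine Finset.prod_congr rfl fun i hi => ?_
      rw [Finset.sum_eq_single (some l)]
      · simp [hi, hom]
      · intro c _ hc
        rw [if_neg]; simp [hc, hi]
      · simp
    · refine Finset.prod_congr rfl fun i hi => ?_
      have hi' : i ∉ R := by simpa using hi
      have h6 : ∑ c, (if (c = some l ↔ i ∈ R) then om i c else 0) =
          ∑ c, om i c - om i (some l) := by
        rw [← Finset.sum_erase_eq_sub (Finset.mem_univ _), ← Finset.sum_filter]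
        refine Finset.sum_congr ?_ fun _ _ => rfl
        ext c
        simp [hi']
      rw [h6, hsum1]
      simp [hom]
  have hfin : ∑ χ : ι → Option (Fin K), (∏ i, om i (χ i)) * ∑ l, G (pre χ l) ≤ C := by
    calc ∑ χ : ι → Option (Fin K), (∏ i, om i (χ i)) * ∑ l, G (pre χ l)
        ≤ ∑ χ : ι → Option (Fin K), (∏ i, om i (χ i)) * C := by
          refine Finset.sum_le_sum fun χ _ => ?_
          refine mul_le_mul_of_nonneg_left (hG _ ?_) (Finset.prod_nonneg fun i _ => hom0 i _)
          intro l l' hll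
          rw [Finset.disjoint_left]
          intro i hi hi'
          simp only [hpre, Finset.mem_filter, Finset.mem_univ, true_and] at hi hi'
          rw [hi] at hi'
          exact hll (Option.some_injective _ hi')
      _ = C := by rw [← Finset.sum_mul, htot, one_mul]
  refine le_trans (le_of_eq ?_) hfin
  simp only [Finset.mul_sum]
  rw [Finset.sum_comm]
  simp only [← Finset.mul_sum]
  simp only [hone]
  rw [Finset.sum_const, Finset.card_univ, Fintype.card_fin, nsmul_eq_mul]

/-- **MEI** (input of block [B]): the mean relative entropy of the residue classes along a Bernoulli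
set of pairwise coprime moduli, with product at most `B`, is at most
`(kl0 + log (1 + B^K / M)) / K` when the rates are at most `1 / K`. -/
theorem mei (h : Law nu A M) {ι : Type*} [Fintype ι] [DecidableEq ι] (d : ι → ℕ)
    (hd : ∀ i, 0 < d i) (hc : Pairwise fun i j => (d i).Coprime (d j)) (K : ℕ) (t : ι → ℝ)
    (ht0 : ∀ i, 0 ≤ t i) (htK : ∀ i, K * t i ≤ 1) {B : ℕ} (hB : 0 < B) :
    K * ∑ R : Finset ι, ((∏ i ∈ R, t i) * ∏ i ∈ Rᶜ, (1 - t i)) *
        (if ∏ i ∈ R, d i ≤ B then klu nu A M (∏ i ∈ R, d i) else 0) ≤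
      kl0 nu A M + Real.log (1 + (B : ℝ) ^ K / M) := by
  have hMR : (0 : ℝ) < M := by exact_mod_cast h.pos
  refine color K t ht0 htK _ _ fun R hR => ?_
  set R' : Fin K → Finset ι := fun l => if ∏ i ∈ R l, d i ≤ B then R l else ∅ with hR'
  have h1 : ∀ l, (if ∏ i ∈ R l, d i ≤ B then klu nu A M (∏ i ∈ R l, d i) else 0) =
      klu nu A M (∏ i ∈ R' l, d i) := by
    intro l
    simp only [hR']
    split_ifs with h2
    · rfl
    · rw [Finset.prod_empty, klu_one h]
  have hpos : ∀ l, 0 < ∏ i ∈ R' l, d i := fun l => Finset.prod_pos fun i _ => hd i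
  have hle : ∀ l, ∏ i ∈ R' l, d i ≤ B := by
    intro l
    simp only [hR']
    split_ifs with h2
    · exact h2
    · rw [Finset.prod_empty]; exact hB
  have hsub : ∀ l, R' l ⊆ R l := by
    intro l
    simp only [hR']
    split_ifs
    · exact Finset.Subset.refl _
    · exact Finset.empty_subset _
  have hcop : ((Finset.univ : Finset (Fin K)) : Set (Fin K)).Pairwise
      fun l l' => (∏ i ∈ R' l, d i).Coprime (∏ i ∈ R' l', d i) := by
    intro l _ l' _ hll
    refine Nat.Coprime.prod_left fun i hi => Nat.Coprime.prod_right fun j hj => hc ?_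
    rintro rfl
    exact (Finset.disjoint_left.1 (hR l l' hll)) (hsub l hi) (hsub l' hj)
  have h3 := pack h Finset.univ (fun l => ∏ i ∈ R' l, d i) (fun l _ => hpos l) hcop
  have h4 : ((∏ l : Fin K, ∏ i ∈ R' l, d i : ℕ) : ℝ) ≤ (B : ℝ) ^ K := by
    have h5 : ∏ l : Fin K, ∏ i ∈ R' l, d i ≤ ∏ _l : Fin K, B :=
      Finset.prod_le_prod' fun l _ => hle l
    rw [Finset.prod_const, Finset.card_univ, Fintype.card_fin] at h5
    exact_mod_cast h5
  have h6 : Real.log (1 + (∏ l : Fin K, ∏ i ∈ R' l, d i : ℕ) / M) ≤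
      Real.log (1 + (B : ℝ) ^ K / M) := by
    refine Real.log_le_log (by positivity) ?_
    gcongr
  calc ∑ l, (if ∏ i ∈ R l, d i ≤ B then klu nu A M (∏ i ∈ R l, d i) else 0)
      = ∑ l, klu nu A M (∏ i ∈ R' l, d i) := Finset.sum_congr rfl fun l _ => h1 l
    _ ≤ _ := h3.trans (by linarith)

/-- **MEI** over a finite set `W` of pairwise coprime moduli (e.g. the odd primes of a window) -/
theorem mei_finset (h : Law nu A M) (W : Finset ℕ) (hW : ∀ p ∈ W, 0 < p)
    (hc : (W : Set ℕ).Pairwise Nat.Coprime) (K : ℕ) (t : ℕ → ℝ)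
    (ht0 : ∀ p ∈ W, 0 ≤ t p) (htK : ∀ p ∈ W, K * t p ≤ 1) {B : ℕ} (hB : 0 < B) :
    K * ∑ R ∈ W.powerset, ((∏ p ∈ R, t p) * ∏ p ∈ W \ R, (1 - t p)) *
        (if ∏ p ∈ R, p ≤ B then klu nu A M (∏ p ∈ R, p) else 0) ≤
      kl0 nu A M + Real.log (1 + (B : ℝ) ^ K / M) := by
  have h0 := mei h (ι := W) (fun p => (p : ℕ)) (fun p => hW _ p.2)
    (fun p q hpq => hc p.2 q.2 (fun h => hpq (Subtype.ext h))) K (fun p => t p)
    (fun p => ht0 _ p.2) (fun p => htK _ p.2) hB
  refine le_trans (le_of_eq ?_) h0
  congr 1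
  refine Finset.sum_bij' (fun R _ => R.subtype (· ∈ W)) (fun R _ => R.map (Function.Embedding.subtype _))
    ?_ ?_ ?_ ?_ ?_
  · intro R _; exact Finset.mem_univ _
  · intro R _
    rw [Finset.mem_powerset]
    intro x hx
    simp only [Finset.mem_map, Function.Embedding.coe_subtype] at hx
    obtain ⟨a, _, rfl⟩ := hx
    exact a.2
  · intro R hR
    rw [Finset.mem_powerset] at hR
    exact Finset.subtype_map_of_mem hR
  · intro R _
    ext x
    simp
  · intro R hR
    rw [Finset.mem_powerset] at hR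
    have e : (R.subtype (· ∈ W)).map (Function.Embedding.subtype _) = R :=
      Finset.subtype_map_of_mem hR
    have e2 : ((R.subtype (· ∈ W))ᶜ).map (Function.Embedding.subtype _) = W \ R := by
      ext x
      simp only [Finset.mem_map, Finset.mem_compl, Finset.mem_subtype,
        Function.Embedding.coe_subtype, Finset.mem_sdiff]
      constructor
      · rintro ⟨a, ha, rfl⟩
        exact ⟨a.2, ha⟩
      · rintro ⟨h1, h2⟩
        exact ⟨⟨x, h1⟩, h2, rfl⟩
    have f : ∀ g : ℕ → ℝ, ∏ p ∈ R, g p = ∏ p ∈ R.subtype (· ∈ W), g p := by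
      intro g
      conv_lhs => rw [← e]
      rw [Finset.prod_map]
      rfl
    have f' : ∏ p ∈ R, p = ∏ p ∈ R.subtype (· ∈ W), (p : ℕ) := by
      conv_lhs => rw [← e]
      rw [Finset.prod_map]
      rfl
    have f2 : ∏ p ∈ W \ R, (1 - t p) = ∏ p ∈ (R.subtype (· ∈ W))ᶜ, (1 - t p) := by
      rw [← e2, Finset.prod_map]
      rfl
    rw [f, f', f2]

end Vale.Agent.P042.H599
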