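import Vale.Agent.P042.H599.HBS
set_option autoImplicit false

/-!
P042 [D], power regime: the parameters with families of MEI terms, and (HB).
-/

namespace Vale.Agent.P042.H599

open Finset Vale.Agent.P042.H945

/-- families of MEI terms -/
structure Fam (κ : Type) where
  F : Finset κ
  W : κ → Finset ℕ
  t : κ → ℕ → ℝ
  K : κ → ℕ
  B : κ → ℕ
  ω : κ → ℝ

/-- hypotheses on the families -/
structure FamOk {κ : Type} (f : Fam κ) (Mm : ℕ) : Prop where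
  hω : ∀ k ∈ f.F, 0 ≤ f.ω k
  hω1 : ∑ k ∈ f.F, f.ω k ≤ 1 / 4
  hW : ∀ k ∈ f.F, ∀ p ∈ f.W k, 0 < p
  hc : ∀ k ∈ f.F, (f.W k : Set ℕ).Pairwise Nat.Coprime
  ht0 : ∀ k ∈ f.F, ∀ p ∈ f.W k, 0 ≤ f.t k p
  ht1 : ∀ k ∈ f.F, ∀ p ∈ f.W k, f.t k p ≤ 1
  htK : ∀ k ∈ f.F, ∀ p ∈ f.W k, f.K k * f.t k p ≤ 1
  hB : ∀ k ∈ f.F, 0 < f.B k
  hBM : ∀ k ∈ f.F, f.B k ^ f.K k ≤ Mm

/-- the indices of the MEI terms -/
def fI {κ : Type} (f : Fam κ) : Finset (Σ _ : κ, Finset ℕ) :=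
  f.F.sigma fun k => (f.W k).powerset.filter fun R => ∏ p ∈ R, p ≤ f.B k

/-- the weights of the MEI terms -/
noncomputable def fc {κ : Type} (f : Fam κ) (i : Σ _ : κ, Finset ℕ) : ℝ :=
  f.ω i.1 * f.K i.1 * bwt (f.t i.1) (f.W i.1) i.2

theorem mem_fI {κ : Type} {f : Fam κ} {i : Σ _ : κ, Finset ℕ} :
    i ∈ fI f ↔ i.1 ∈ f.F ∧ i.2 ⊆ f.W i.1 ∧ ∏ p ∈ i.2, p ≤ f.B i.1 := by
  unfold fI
  rw [Finset.mem_sigma, Finset.mem_filter, Finset.mem_powerset]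

theorem bwt_nonneg {t : ℕ → ℝ} {W R : Finset ℕ} (h0 : ∀ p ∈ W, 0 ≤ t p) (h1 : ∀ p ∈ W, t p ≤ 1)
    (hR : R ⊆ W) : 0 ≤ bwt t W R :=
  mul_nonneg (Finset.prod_nonneg fun p hp => h0 p (hR hp))
    (Finset.prod_nonneg fun p hp => by
      have := h1 p (Finset.mem_sdiff.1 hp).1; linarith)

theorem fc_nonneg {κ : Type} {f : Fam κ} {Mm : ℕ} (h : FamOk f Mm) {i : Σ _ : κ, Finset ℕ}
    (hi : i ∈ fI f) : 0 ≤ fc f i := by
  rw [mem_fI] at hi
  exact mul_nonneg (mul_nonneg (h.hω _ hi.1) (by positivity))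
    (bwt_nonneg (h.ht0 _ hi.1) (h.ht1 _ hi.1) hi.2.1)

/-- the sum over the indices -/
theorem sum_fI {κ : Type} (f : Fam κ) (g : κ → Finset ℕ → ℝ) :
    ∑ i ∈ fI f, fc f i * g i.1 i.2 =
      ∑ k ∈ f.F, f.ω k * f.K k * ∑ R ∈ (f.W k).powerset, bwt (f.t k) (f.W k) R *
        (if ∏ p ∈ R, p ≤ f.B k then g k R else 0) := by
  unfold fI
  rw [Finset.sum_sigma]
  refine Finset.sum_congr rfl fun k _ => ?_
  rw [Finset.sum_filter, Finset.mul_sum]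
  refine Finset.sum_congr rfl fun R _ => ?_
  unfold fc
  split_ifs
  · simp only; ring
  · ring

theorem sum_fI_klu {κ : Type} (f : Fam κ) (nu : ℕ → ℝ) (A M : ℕ) :
    ∑ i ∈ fI f, fc f i * klu nu A M (∏ p ∈ i.2, p) =
      ∑ k ∈ f.F, f.ω k * f.K k * binf nu A M (f.W k) (f.t k) (f.B k) :=
  sum_fI f fun _ R => klu nu A M (∏ p ∈ R, p)

/-- the parameters of the power regime -/
noncomputable def PP {κ : Type} (f : Fam κ) (W : Finset ℕ) (c : ℕ → ℝ)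
    (om : ℕ → ℕ → Finset ℕ → ℝ) (lam : ℕ → ℕ) (eta D0 E1 : ℝ) (Mm : ℕ) :
    Par (ℕ ⊕ (Σ _ : κ, Finset ℕ)) where
  I := W.disjSum (fI f)
  m := Sum.elim (fun p => p) (fun i => ∏ p ∈ i.2, p)
  c := Sum.elim c (fc f)
  W := W
  om := om
  lam := lam
  eta := eta
  D0 := D0
  E1 := E1
  Mm := Mm

/-- sums over the indices of `PP` -/
theorem sum_PP {κ : Type} (f : Fam κ) (W : Finset ℕ) (c : ℕ → ℝ)
    (om : ℕ → ℕ → Finset ℕ → ℝ) (lam : ℕ → ℕ) (eta D0 E1 : ℝ) (Mm : ℕ)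
    (g : ℕ ⊕ (Σ _ : κ, Finset ℕ) → ℝ) :
    ∑ i ∈ (PP f W c om lam eta D0 E1 Mm).I, (PP f W c om lam eta D0 E1 Mm).c i * g i =
      ∑ p ∈ W, c p * g (Sum.inl p) + ∑ i ∈ fI f, fc f i * g (Sum.inr i) := by
  unfold PP
  simp only [Finset.sum_disjSum, Sum.elim_inl, Sum.elim_inr]

/-- **the hypotheses on the parameters, power regime** -/
theorem ok_P {κ : Type} {f : Fam κ} {W : Finset ℕ} {c c' : ℕ → ℝ}
    {om : ℕ → ℕ → Finset ℕ → ℝ} {lam : ℕ → ℕ} {eta D0 E E1 : ℝ} {Mm : ℕ} (hf : FamOk f Mm)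
    (hW : ∀ p ∈ W, 0 < p) (hc0 : ∀ p ∈ W, 0 ≤ c p)
    (om0 : ∀ p ∈ W, ∀ d S, 0 ≤ om p d S)
    (omt : ∀ p ∈ W, ∀ d D b S S', 1 ≤ d → 1 ≤ D → Nat.Coprime p D →
      (∀ y ∈ S', (b + lam D * y) % p ∈ S) → om p d S ≤ om p (d * D) S')
    (omB : ∀ p ∈ W, ∀ (d M : ℕ) (x : ℕ → ℝ), 1 ≤ d → Law x 1 M →
      om p d (rs (sp x M) p) ≤ c' p * klu x 1 M p)
    (lam1 : lam 1 = 1) (lamm : ∀ d D, 1 ≤ d → 1 ≤ D → lam (d * D) = lam d * lam D)
    (lamd : ∀ d, 1 ≤ d → d ∣ lam d)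
    (lamc : ∀ d p, 1 ≤ d → Nat.Coprime p d → Nat.Coprime p (lam d))
    (lampos : ∀ d, 1 ≤ d → 0 < lam d) (he0 : 0 < eta) (he1 : eta ≤ 1) (hMm : 2 ≤ Mm)
    (hD0 : 0 < D0) (hE0 : 0 ≤ E)
    (hEI : HBd (fun nu A M => ∑ p ∈ W, (c p + c' p) * klu nu A M p) (2 * D0) Mm 0 E)
    (hE1 : E + 1 / 4 ≤ E1) :
    Ok (PP f W c om lam eta D0 E1 Mm) where
  hm := by
    intro i hi
    rcases Finset.mem_disjSum.1 hi with ⟨p, hp, rfl⟩ | ⟨j, hj, rfl⟩
    · exact hW p hp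
    · rw [mem_fI] at hj
      exact Finset.prod_pos fun p hp => hf.hW _ hj.1 p (hj.2.1 hp)
  hc := by
    intro i hi
    rcases Finset.mem_disjSum.1 hi with ⟨p, hp, rfl⟩ | ⟨j, hj, rfl⟩
    · exact hc0 p hp
    · exact fc_nonneg hf hj
  hW := hW
  om0 := om0
  omt := omt
  lam1 := lam1
  lamm := lamm
  lamd := lamd
  lamc := lamc
  lam0 := lampos
  eta0 := he0
  eta1 := he1
  Mm1 := hMm
  D00 := hD0
  E10 := by have : (PP f W c om lam eta D0 E1 Mm).E1 = E1 := rfl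
            rw [this]; linarith
  HB := by
    intro d M x hd hMM hx hb
    have h1 := sum_PP f W c om lam eta D0 E1 Mm
      (fun i => klu x 1 M ((PP f W c om lam eta D0 E1 Mm).m i))
    rw [h1]
    have h2 : ∑ i ∈ fI f, fc f i * klu x 1 M ((PP f W c om lam eta D0 E1 Mm).m (Sum.inr i)) =
        ∑ k ∈ f.F, f.ω k * f.K k * binf x 1 M (f.W k) (f.t k) (f.B k) := sum_fI_klu f x 1 M
    rw [h2]
    have h3 := HBd_mei f.F f.W f.t f.K f.B f.ω hf.hω hf.hω1 hf.hW hf.hc hf.ht0 hf.htK hf.hB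
      hf.hBM (2 * D0) x 1 M hx hMM hb
    have h4 := hEI x 1 M hx hMM hb
    have h5 : Om (PP f W c om lam eta D0 E1 Mm) d (sp x M) ≤ ∑ p ∈ W, c' p * klu x 1 M p :=
      Finset.sum_le_sum fun p hp => omB p hp d M x hd hx
    have h6 : ∑ p ∈ W, c p * klu x 1 M ((PP f W c om lam eta D0 E1 Mm).m (Sum.inl p)) +
        ∑ p ∈ W, c' p * klu x 1 M p = ∑ p ∈ W, (c p + c' p) * klu x 1 M p := by
      rw [← Finset.sum_add_distrib]
      exact Finset.sum_congr rfl fun p _ => by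
        show c p * klu x 1 M p + _ = _
        ring
    simp only at h3 h4
    have h7 := kl0_nonneg hx
    have h8 : (PP f W c om lam eta D0 E1 Mm).E1 = E1 := rfl
    rw [h8]
    linarith

/-! ### numerics -/

theorem ev_lin {a : ℝ} (ha : 0 < a) (A B : ℝ) : ∃ l0 : ℝ, ∀ l ≥ l0, A + B * l ≤ Real.exp (a * l) := by
  refine ⟨max 1 (2 * (|A| + |B|) / a ^ 2), fun l hl => ?_⟩
  have h1 : 1 ≤ l := (le_max_left _ _).trans hl
  have h2 : 2 * (|A| + |B|) / a ^ 2 ≤ l := (le_max_right _ _).trans hl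
  rw [div_le_iff₀ (by positivity)] at h2
  have h3 : 1 + a * l + (a * l) ^ 2 / 2 ≤ Real.exp (a * l) :=
    Real.quadratic_le_exp_of_nonneg (by positivity)
  have h4 : A ≤ |A| * l := (le_abs_self A).trans (le_mul_of_one_le_right (abs_nonneg A) h1)
  have h5 : B * l ≤ |B| * l := mul_le_mul_of_nonneg_right (le_abs_self B) (by linarith)
  have h6 : (|A| + |B|) * l ≤ a ^ 2 * l ^ 2 / 2 := by nlinarith
  have h7 : 0 < a * l := by positivity
  nlinarith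

theorem mom_le {n Y m : ℕ} {a T : ℝ} (ha : 1 ≤ a) (hn : (n : ℝ) ≤ Real.exp a)
    (hY : (Y : ℝ) ≤ Real.exp a) (hT : 1 + 2 * m * (5 * a) ≤ T) :
    2 * (8 * (n : ℝ) * Y) ^ (2 * m) ≤ Real.exp T := by
  have h8 : (8 : ℝ) ≤ Real.exp 3 := by
    have := Real.add_one_le_exp (1 : ℝ)
    have h3 : Real.exp 3 = Real.exp 1 ^ 3 := by rw [← Real.exp_nat_mul]; norm_num
    rw [h3]
    nlinarith [pow_le_pow_left₀ (by norm_num) (by linarith : (2 : ℝ) ≤ Real.exp 1) 3]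
  have hbase : 8 * (n : ℝ) * Y ≤ Real.exp (5 * a) := by
    calc 8 * (n : ℝ) * Y ≤ Real.exp 3 * Real.exp a * Real.exp a := by gcongr
      _ = Real.exp (3 + a + a) := by rw [Real.exp_add, Real.exp_add]
      _ ≤ Real.exp (5 * a) := Real.exp_le_exp.2 (by linarith)
  have h2 : (2 : ℝ) ≤ Real.exp 1 := by linarith [Real.add_one_le_exp (1 : ℝ)]
  calc 2 * (8 * (n : ℝ) * Y) ^ (2 * m)
      ≤ Real.exp 1 * Real.exp (5 * a) ^ (2 * m) := by gcongr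
    _ = Real.exp (1 + (2 * m : ℕ) * (5 * a)) := by rw [Real.exp_add, ← Real.exp_nat_mul]
    _ ≤ Real.exp T := by
        refine Real.exp_le_exp.2 ?_
        push_cast
        exact hT

theorem card_le_of {W : Finset ℕ} {x : ℝ} (hW : ∀ p ∈ W, 0 < p) (h : ∀ p ∈ W, (p : ℝ) ≤ x)
    (hx : 0 ≤ x) : (W.card : ℝ) ≤ x := by
  have h1 : W ⊆ Finset.Icc 1 ⌊x⌋₊ := fun p hp =>
    Finset.mem_Icc.2 ⟨hW p hp, Nat.le_floor (h p hp)⟩
  have h2 := Finset.card_le_card h1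
  rw [Nat.card_Icc] at h2
  have h3 : (W.card : ℝ) ≤ (⌊x⌋₊ : ℝ) := by exact_mod_cast (by omega : W.card ≤ ⌊x⌋₊)
  exact h3.trans (Nat.floor_le hx)

/-- the part of the small primes -/
theorem first_le {g1 C l : ℝ} (hg1 : g1 ≤ 1) (hC : 0 ≤ C) (hl : 1 ≤ l)
    (e3 : 0 + C * l ≤ Real.exp (3 / 10 * l)) (W1 : Finset ℕ) (c : ℕ → ℝ)
    (hW : ∀ p ∈ W1, 0 < p) (hc1 : ∀ p ∈ W1, c p ≤ C)
    (hZ : ∀ p ∈ W1, (p : ℝ) ≤ Real.exp (l / 2)) :
    ∑ p ∈ W1, c p * Real.log p ≤ 1 / 2 * Real.exp ((1 - g1 / 5) * l) := by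
  have hcard1 := card_le_of hW hZ (Real.exp_pos _).le
  calc ∑ p ∈ W1, c p * Real.log p ≤ ∑ _p ∈ W1, C * (l / 2) := by
        refine Finset.sum_le_sum fun p hp => ?_
        have hp0 : (0 : ℝ) < p := by exact_mod_cast hW p hp
        have h4 : Real.log p ≤ l / 2 := by
          rw [Real.log_le_iff_le_exp hp0]
          exact hZ p hp
        exact mul_le_mul (hc1 p hp) h4 (Real.log_natCast_nonneg p) hC
    _ = W1.card * (C * (l / 2)) := by rw [Finset.sum_const, nsmul_eq_mul]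
    _ ≤ Real.exp (l / 2) * (C * (l / 2)) := mul_le_mul_of_nonneg_right hcard1 (by positivity)
    _ = 1 / 2 * (Real.exp (l / 2) * (0 + C * l)) := by ring
    _ ≤ 1 / 2 * (Real.exp (l / 2) * Real.exp (3 / 10 * l)) := by gcongr
    _ = 1 / 2 * Real.exp (l / 2 + 3 / 10 * l) := by rw [Real.exp_add]
    _ ≤ 1 / 2 * Real.exp ((1 - g1 / 5) * l) := by
        refine mul_le_mul_of_nonneg_left (Real.exp_le_exp.2 ?_) (by norm_num)
        nlinarith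

/-- the part of the large primes -/
theorem second_le {g1 C1 C l E m lY : ℝ} (hC : 0 ≤ C) (e2 : 256 * C + 256 * C * C1 * l ≤ Real.exp (g1 / 4 * l)) (hm0 : 0 ≤ m)
    (hE0 : 0 ≤ E) (hE : E ≤ Real.exp (g1 * l / 20)) (hmE : m ≤ Real.exp l) (hlog0 : 0 ≤ lY)
    (hlogY : lY ≤ C1 * l) :
    C * Real.exp (-(g1 * l / 2)) * ((1 + lY) * (128 * m * E))
      ≤ 1 / 2 * Real.exp ((1 - g1 / 5) * l) := by
  have h0 : (1 + lY) * (128 * m * E) ≤
      (1 + C1 * l) * (128 * Real.exp l * Real.exp (g1 * l / 20)) := by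
    have h1 : m * E ≤ Real.exp l * Real.exp (g1 * l / 20) :=
      mul_le_mul hmE hE hE0 (Real.exp_pos _).le
    refine mul_le_mul (by linarith) (by linarith) (by positivity) (by nlinarith)
  calc C * Real.exp (-(g1 * l / 2)) * ((1 + lY) * (128 * m * E))
      ≤ C * Real.exp (-(g1 * l / 2)) *
        ((1 + C1 * l) * (128 * Real.exp l * Real.exp (g1 * l / 20))) :=
        mul_le_mul_of_nonneg_left h0 (by positivity)
    _ = 1 / 2 * ((256 * C + 256 * C * C1 * l) *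
        (Real.exp (-(g1 * l / 2)) * Real.exp l * Real.exp (g1 * l / 20))) := by ring
    _ ≤ 1 / 2 * (Real.exp (g1 / 4 * l) *
        (Real.exp (-(g1 * l / 2)) * Real.exp l * Real.exp (g1 * l / 20))) := by
        refine mul_le_mul_of_nonneg_left ?_ (by norm_num)
        exact mul_le_mul_of_nonneg_right e2 (by positivity)
    _ = 1 / 2 * Real.exp (g1 / 4 * l + (-(g1 * l / 2) + l + g1 * l / 20)) := by
        rw [Real.exp_add, Real.exp_add, Real.exp_add]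
    _ ≤ 1 / 2 * Real.exp ((1 - g1 / 5) * l) := by
        refine mul_le_mul_of_nonneg_left (Real.exp_le_exp.2 ?_) (by norm_num)
        nlinarith

/-- choice of the moment -/
theorem exists_mom {g1 C1 l D0 : ℝ} (hg : 0 < g1) (hC1 : 1 ≤ C1) (hl : 1 ≤ l)
    (e1 : 32 / 3 * 1 + 32 / 3 * 10 * C1 * l ≤ Real.exp l) (hD1 : D0 ≤ g1 / (2560 * C1) * Real.exp l) :
    ∃ m : ℕ, 1 ≤ m ∧ 1 + 2 * m * (5 * (C1 * l)) ≤ Real.exp l / 4 ∧ (m : ℝ) ≤ Real.exp l ∧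
      Real.exp (2 * D0 / m) ≤ Real.exp (g1 * l / 20) := by
  have hC0 : 0 < C1 := by linarith
  have hl0 : 0 < l := by linarith
  have hx0 : 0 < Real.exp l / (64 * C1 * l) := by positivity
  obtain ⟨m, hm⟩ : ∃ m : ℕ, m = ⌈Real.exp l / (64 * C1 * l)⌉₊ := ⟨_, rfl⟩
  have hm1 : 1 ≤ m := by rw [hm]; exact Nat.one_le_ceil_iff.2 hx0
  have hmlow : Real.exp l / (64 * C1 * l) ≤ m := by rw [hm]; exact Nat.le_ceil _
  have hmup : (m : ℝ) ≤ Real.exp l / (64 * C1 * l) + 1 := by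
    rw [hm]; exact (Nat.ceil_lt_add_one hx0.le).le
  have hm0 : (0 : ℝ) < m := by exact_mod_cast hm1
  refine ⟨m, hm1, ?_, ?_, ?_⟩
  · have h5 : (2 * (m : ℝ)) * (5 * (C1 * l)) ≤
        (2 * (Real.exp l / (64 * C1 * l) + 1)) * (5 * (C1 * l)) :=
      mul_le_mul_of_nonneg_right (by linarith) (by positivity)
    have h6 : (2 * (Real.exp l / (64 * C1 * l) + 1)) * (5 * (C1 * l)) =
        10 / 64 * Real.exp l + 10 * (C1 * l) := by
      field_simp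
      ring
    rw [h6] at h5
    linarith
  · have h5 : Real.exp l / (64 * C1 * l) ≤ Real.exp l / 64 := by
      refine div_le_div_of_nonneg_left (Real.exp_pos _).le (by norm_num) ?_
      nlinarith
    have h6 : 1 + l ≤ Real.exp l := by linarith [Real.add_one_le_exp l]
    linarith
  · refine Real.exp_le_exp.2 ?_
    rw [div_le_iff₀ hm0]
    calc 2 * D0 ≤ 2 * (g1 / (2560 * C1) * Real.exp l) := by linarith
      _ = g1 * l / 20 * (Real.exp l / (64 * C1 * l)) := by field_simp; ring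
      _ ≤ g1 * l / 20 * m := mul_le_mul_of_nonneg_left hmlow (by positivity)

/-- **the EI part of (HB), power regime** (`l = log P`): weights at most `C p^{-g1}`, primes at
most `P^{C1}`, densities at most `exp (2 c1 P)`, lengths at least `exp (P/4)`: bounded by
`P^{1 - g1/5}` -/
theorem HBd_ei_power {g1 C1 C : ℝ} (hg : 0 < g1) (hg1 : g1 ≤ 1) (hC1 : 1 ≤ C1) (hC : 0 ≤ C) :
    ∃ l0 : ℝ, ∀ l ≥ l0, ∀ (W : Finset ℕ) (c : ℕ → ℝ) (Mm : ℕ), (∀ p ∈ W, 0 < p) →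
      (W : Set ℕ).Pairwise Nat.Coprime → (∀ p ∈ W, (p : ℝ) ≤ Real.exp (C1 * l)) →
      (∀ p ∈ W, 0 ≤ c p) → (∀ p ∈ W, c p ≤ C * Real.exp (-(g1 * Real.log p))) →
      Real.exp (Real.exp l / 4) ≤ Mm → ∀ D0 : ℝ, 0 ≤ D0 → D0 ≤ g1 / (2560 * C1) * Real.exp l →
      HBd (fun nu A M => ∑ p ∈ W, c p * klu nu A M p) (2 * D0) Mm 0
        (Real.exp ((1 - g1 / 5) * l)) := by
  classical
  obtain ⟨l1, h1⟩ := ev_lin (show (0 : ℝ) < 1 by norm_num) (32 / 3 * 1) (32 / 3 * 10 * C1)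
  obtain ⟨l2, h2⟩ := ev_lin (show (0 : ℝ) < g1 / 4 by positivity) (256 * C) (256 * C * C1)
  obtain ⟨l3, h3⟩ := ev_lin (show (0 : ℝ) < 3 / 10 by norm_num) 0 C
  refine ⟨max (max l1 l2) (max l3 1), fun l hl W c Mm hW hc hY hc0 hcC hMm D0 hD0 hD1 => ?_⟩
  have hl0 : 1 ≤ l := (le_max_right _ _).trans ((le_max_right _ _).trans hl)
  have e1 := h1 l ((le_max_left _ _).trans ((le_max_left _ _).trans hl))
  have e2 := h2 l ((le_max_right _ _).trans ((le_max_left _ _).trans hl))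
  have e3 := h3 l ((le_max_left _ _).trans ((le_max_right _ _).trans hl))
  rw [one_mul] at e1
  have hCl : 1 ≤ C1 * l := by nlinarith
  obtain ⟨m, hm1, hmT, hmE, hexp⟩ := exists_mom hg hC1 hl0 e1 hD1
  obtain ⟨Y, hYd⟩ : ∃ Y : ℕ, Y = ⌊Real.exp (C1 * l)⌋₊ := ⟨_, rfl⟩
  have hYle : (Y : ℝ) ≤ Real.exp (C1 * l) := by rw [hYd]; exact Nat.floor_le (Real.exp_pos _).le
  have hY1 : 1 ≤ Y := by
    rw [hYd, Nat.one_le_floor_iff]
    exact Real.one_le_exp (by linarith)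
  have hYp : ∀ p ∈ W, p ≤ Y := fun p hp => by rw [hYd]; exact Nat.le_floor (hY p hp)
  obtain ⟨W1, hW1⟩ : ∃ W1, W1 = W.filter (fun p : ℕ => (p : ℝ) ≤ Real.exp (l / 2)) := ⟨_, rfl⟩
  obtain ⟨W2, hW2⟩ : ∃ W2, W2 = W.filter (fun p : ℕ => ¬ (p : ℝ) ≤ Real.exp (l / 2)) := ⟨_, rfl⟩
  have hW1s : W1 ⊆ W := by rw [hW1]; exact Finset.filter_subset _ _
  have hW2s : W2 ⊆ W := by rw [hW2]; exact Finset.filter_subset _ _
  have hM2 : 2 * (8 * (W2.card : ℝ) * Y) ^ (2 * m) ≤ Mm :=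
    (mom_le hCl (card_le_of (fun p hp => hW p (hW2s hp)) (fun p hp => hY p (hW2s hp))
      (Real.exp_pos _).le) hYle hmT).trans hMm
  have hc2 : ∀ p ∈ W2, c p ≤ C * Real.exp (-(g1 * l / 2)) := by
    intro p hp
    refine (hcC p (hW2s hp)).trans (mul_le_mul_of_nonneg_left (Real.exp_le_exp.2 ?_) hC)
    have h' := hp
    rw [hW2, Finset.mem_filter, not_le] at h'
    have h4 : l / 2 ≤ Real.log p := by
      rw [Real.le_log_iff_exp_le (by exact_mod_cast hW p (hW2s hp))]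
      exact h'.2.le
    nlinarith
  have hc1 : ∀ p ∈ W1, c p ≤ C := by
    intro p hp
    refine (hcC p (hW1s hp)).trans (mul_le_of_le_one_right hC ?_)
    rw [Real.exp_le_one_iff]
    have : 0 ≤ Real.log p := Real.log_natCast_nonneg p
    nlinarith
  have key := HBd_ei W1 W2 (fun p hp => hW p (hW1s hp)) (fun p hp => hW p (hW2s hp))
    (hc.mono (by intro p hp; exact hW2s hp)) hY1 (fun p hp => hYp p (hW2s hp)) hm1
    (by positivity : (0 : ℝ) ≤ 2 * D0) hM2 c (fun p hp => hc0 p (hW1s hp)) hc2 (by positivity)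
  have hlogY : Real.log Y ≤ C1 * l := by
    rw [Real.log_le_iff_le_exp (by exact_mod_cast hY1)]; exact hYle
  have hfirst := first_le hg1 hC hl0 e3 W1 c (fun p hp => hW p (hW1s hp)) hc1 (fun p hp => by
    have h' := hp
    rw [hW1, Finset.mem_filter] at h'
    exact h'.2)
  have hsecond := second_le hC e2 (Nat.cast_nonneg m) (Real.exp_pos _).le hexp hmE
    (Real.log_nonneg (by exact_mod_cast hY1)) hlogY
  intro nu A M hL hMM hb
  have h5 := key nu A M hL hMM hb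
  simp only at h5 ⊢
  have h6 : ∑ p ∈ W1, c p * klu nu A M p + ∑ p ∈ W2, c p * klu nu A M p =
      ∑ p ∈ W, c p * klu nu A M p := by
    rw [hW1, hW2]; exact Finset.sum_filter_add_sum_filter_not _ _ _
  rw [h6] at h5
  linarith

end Vale.Agent.P042.H599
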