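import Vale.Agent.P042.H860.Glue
import Vale.Agent.P042.H945.PLawB

set_option autoImplicit false

/-!
# P042, power regime: the two cells of one instance are window cells of the state
-/

namespace Vale.Agent.P042.H599

open Finset Vale.Agent.P042.H739 Vale.Agent.P042.H359 Vale.Agent.P042.H860
open Vale.Agent.P042.H945 (cl ms WCell)
open Vale.Agent.P042.H438 (Rs)

section

variable {I : Inst} {κ : ℝ}

/-! ### the modulus of the cells -/

theorem ok_q0_le (h : H860.Ok I κ) : I.q0 ≤ Q0s I.k I.R I.K0 :=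
  H758.qnul_le h.R1 h.tiny fun _ hp => (mem_Tst.1 hp).2

theorem ok_q0_prime (h : H860.Ok I κ) {p : ℕ} (hp : p.Prime) (hd : p ∣ I.q0) : p ≤ I.K0 :=
  (mem_Tst.1 (h.tiny.mem_of_dvd_qnul hp hd)).2

/-- a number without prime factors up to `K0` is coprime to the modulus -/
theorem ok_cop_of (h : H860.Ok I κ) {m : ℕ} (hm : ∀ p ∈ Tst I.K0, ¬ p ∣ m) :
    m.Coprime I.q0 := by
  refine Nat.Coprime.symm (Nat.coprime_of_dvd' fun p hp h1 h2 => ?_)
  exact absurd h2 (hm p (mem_Tst.2 ⟨hp, ok_q0_prime h hp h1⟩))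

theorem ok_cop_site (h : H860.Ok I κ) {p : ℕ} (hp : p ∈ Typ I.K0 I.C1 I.P) :
    p.Coprime I.q0 := by
  have h1 := mem_Typ.1 hp
  rw [h1.2.1.coprime_iff_not_dvd]
  intro hd
  have h2 := ok_q0_prime h h1.2.1 hd
  omega

theorem ok_W_q0 (h : H860.Ok I κ) {p : ℕ} (hp : p ∈ Typ I.K0 I.C1 I.P) : ¬ p ∣ I.q0 := by
  have h1 := mem_Typ.1 hp
  rw [← h1.2.1.coprime_iff_not_dvd]
  exact ok_cop_site h hp

/-! ### residues -/

variable {K0 : ℕ} {C1 P : ℝ}

theorem si_prime (i : Si K0 C1 P) : (i.1).Prime := (mem_Typ.1 i.2).2.1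

theorem si_gt (i : Si K0 C1 P) : K0 < i.1 := (mem_Typ.1 i.2).2.2

theorem si_cop {i j : Si K0 C1 P} (hij : i ≠ j) : (i.1).Coprime j.1 := by
  rw [Nat.coprime_primes (si_prime i) (si_prime j)]
  exact fun h => hij (Subtype.ext h)

/-- the residues at the sites -/
theorem rs_si : Rs (fun i : Si K0 C1 P => i.1) (rn fun i : Si K0 C1 P => i.1) where
  two := fun i => (si_prime i).two_le
  cop := fun _ _ hij => si_cop hij
  r_iff := fun i n m => by
    unfold rn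
    exact ZMod.natCast_eq_natCast_iff n m i.1
  card := fun i => ZMod.card i.1

/-- the residues at the sites and at one super-modulus -/
theorem rs_mo {m : ℕ} [NeZero m] (hm : 2 ≤ m) (hc : ∀ i : Si K0 C1 P, m.Coprime i.1) :
    Rs (mo (fun i : Si K0 C1 P => i.1) m) (rn (mo (fun i : Si K0 C1 P => i.1) m)) where
  two := fun o => by
    cases o with
    | none => exact hm
    | some i => exact (si_prime i).two_le
  cop := fun o o' hoo => by
    cases o with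
    | none =>
      cases o' with
      | none => exact absurd rfl hoo
      | some j => exact hc j
    | some i =>
      cases o' with
      | none => exact (hc i).symm
      | some j => exact si_cop fun h => hoo (congrArg some h)
  r_iff := fun o n n' => by
    unfold rn
    exact ZMod.natCast_eq_natCast_iff n n' _
  card := fun o => ZMod.card _

/-- a number which no site divides is coprime to the sites -/
theorem cop_si_of {m : ℕ} (hm : ∀ i : Si K0 C1 P, ¬ i.1 ∣ m) (i : Si K0 C1 P) :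
    m.Coprime i.1 :=
  ((si_prime i).coprime_iff_not_dvd.2 (hm i)).symm

/-! ### the window -/

theorem win_len (z h0 : ℕ) : z + h0 + 1 - (z + 1) = h0 := by omega

theorem ok_big (h : H860.Ok I κ) (z : ℕ) :
    (I.N : ℝ) ≤ 100 * ((z + I.h0 + 1 - (z + 1) : ℕ) : ℝ) := by
  rw [win_len]
  exact_mod_cast h.hN

theorem ok_h0 (h : H860.Ok I κ) : 1 ≤ I.h0 := by
  have h1 : (0 : ℝ) < I.N := lt_of_lt_of_le (Real.exp_pos _) h.base.lo
  have h2 : 0 < I.N := by exact_mod_cast h1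
  have := h.hN
  omega

/-- the mass of a cell -/
theorem cell_dens (hG : ∀ n : ℤ, I.G n = if 1 ≤ n then (I.N : ℝ) * I.mu n.toNat else 0)
    {q : ℕ} [NeZero q] (w : ZMod q) {z V : ℕ} (hz : z + V ≤ I.N)
    (hm : (V : ℝ) / 2 ≤ q * cmass I.G q w z V) :
    ((z + V + 1 - (z + 1) : ℕ) : ℝ) / 2 ≤
      q * ms I.mu I.N (cl q w.val (z + 1) (z + V)) * I.N := by
  rw [win_len]
  rw [cmass_eq hG w hz] at hm
  linarith

variable (I)

theorem wcell_core (h : H860.Ok I κ) {ι : Type} [Fintype ι] [DecidableEq ι] {V : ι → Type}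
    [∀ i, Fintype (V i)] [∀ i, DecidableEq (V i)] {q : ι → ℕ} {r : ∀ i, ℕ → V i}
    {S : Finset ι} (hr : Rs q r) (hS : ∀ i ∈ S, q i ∈ Typ I.K0 I.C1 I.P)
    (hS' : ∀ i, i ∉ S → ∀ p ∈ Typ I.K0 I.C1 I.P, ¬ p ∣ q i)
    (hc : ∀ i, (q i).Coprime I.q0) (w : ZMod I.q0) {z : ℕ} (hz : z + I.h0 ≤ I.N)
    (hm : (I.h0 : ℝ) / 2 ≤ I.q0 * cmass I.G I.q0 w z I.h0) :
    WCell S q r (Typ I.K0 I.C1 I.P) I.mu I.N I.q0 w.val (z + 1) (z + I.h0) where
  rs := hr
  prime := fun _ hp => (mem_Typ.1 hp).2.1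
  inS := hS
  outS := hS'
  cop := hc
  copW := fun _ hp => ok_W_q0 h hp
  D1 := h.q0_pos
  w := by
    have : NeZero I.q0 := ⟨by have := h.q0_pos; omega⟩
    exact ZMod.val_lt w
  u1 := by omega
  vM := hz
  big := ok_big h z
  dens := by
    have : NeZero I.q0 := ⟨by have := h.q0_pos; omega⟩
    exact cell_dens h.hG w hz hm

variable {I}

/-- **the first cell, any sites** -/
theorem wcell_g1 (h : H860.Ok I κ) {ι : Type} [Fintype ι] [DecidableEq ι] {V : ι → Type}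
    [∀ i, Fintype (V i)] [∀ i, DecidableEq (V i)] {q : ι → ℕ} {r : ∀ i, ℕ → V i}
    {S : Finset ι} (hr : Rs q r) (hS : ∀ i ∈ S, q i ∈ Typ I.K0 I.C1 I.P)
    (hS' : ∀ i, i ∉ S → ∀ p ∈ Typ I.K0 I.C1 I.P, ¬ p ∣ q i) (hc : ∀ i, (q i).Coprime I.q0) :
    WCell S q r (Typ I.K0 I.C1 I.P) I.mu I.N I.q0 I.w.val (I.z1 + 1) (I.z1 + I.h0) :=
  wcell_core I h hr hS hS' hc I.w h.z1N h.ma1

/-- **the second cell, any sites** -/
theorem wcell_g2 (h : H860.Ok I κ) {ι : Type} [Fintype ι] [DecidableEq ι] {V : ι → Type}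
    [∀ i, Fintype (V i)] [∀ i, DecidableEq (V i)] {q : ι → ℕ} {r : ∀ i, ℕ → V i}
    {S : Finset ι} (hr : Rs q r) (hS : ∀ i ∈ S, q i ∈ Typ I.K0 I.C1 I.P)
    (hS' : ∀ i, i ∉ S → ∀ p ∈ Typ I.K0 I.C1 I.P, ¬ p ∣ q i) (hc : ∀ i, (q i).Coprime I.q0) :
    WCell S q r (Typ I.K0 I.C1 I.P) I.mu I.N I.q0 I.w'.val (I.z2 + 1) (I.z2 + I.h0) :=
  wcell_core I h hr hS hS' hc I.w' h.z2N h.ma2

/-- **the first cell, sites only** -/
theorem wcell_1 (h : H860.Ok I κ) :
    WCell (univ : Finset (Si I.K0 I.C1 I.P)) (fun i => i.1) (rn fun i => i.1)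
      (Typ I.K0 I.C1 I.P) I.mu I.N I.q0 I.w.val (I.z1 + 1) (I.z1 + I.h0) :=
  wcell_core I h rs_si (fun i _ => i.2) (fun i hi => absurd (mem_univ i) hi)
    (fun i => ok_cop_site h i.2) I.w h.z1N h.ma1

/-- **the second cell, sites only** -/
theorem wcell_2 (h : H860.Ok I κ) :
    WCell (univ : Finset (Si I.K0 I.C1 I.P)) (fun i => i.1) (rn fun i => i.1)
      (Typ I.K0 I.C1 I.P) I.mu I.N I.q0 I.w'.val (I.z2 + 1) (I.z2 + I.h0) :=
  wcell_core I h rs_si (fun i _ => i.2) (fun i hi => absurd (mem_univ i) hi)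
    (fun i => ok_cop_site h i.2) I.w' h.z2N h.ma2

theorem wcell_o (h : H860.Ok I κ) {m : ℕ} [NeZero m] (hm : 2 ≤ m) (hc : m.Coprime I.q0)
    (hs : ∀ i : Si I.K0 I.C1 I.P, m.Coprime i.1) (w : ZMod I.q0) {z : ℕ}
    (hz : z + I.h0 ≤ I.N) (hd : (I.h0 : ℝ) / 2 ≤ I.q0 * cmass I.G I.q0 w z I.h0) :
    WCell ((univ : Finset (Option (Si I.K0 I.C1 I.P))).erase none)
      (mo (fun i : Si I.K0 I.C1 I.P => i.1) m) (rn (mo (fun i : Si I.K0 I.C1 I.P => i.1) m))
      (Typ I.K0 I.C1 I.P) I.mu I.N I.q0 w.val (z + 1) (z + I.h0) := by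
  refine wcell_core I h (rs_mo hm hs) (fun o ho => ?_) (fun o ho p hp hd => ?_) (fun o => ?_)
    w hz hd
  · cases o with
    | none => exact absurd rfl (mem_erase.1 ho).1
    | some i => exact i.2
  · cases o with
    | none =>
      have h1 := mem_Typ.1 hp
      exact (h1.2.1.coprime_iff_not_dvd.1 (hs ⟨p, hp⟩).symm) hd
    | some i => exact ho (mem_erase.2 ⟨by simp, mem_univ _⟩)
  · cases o with
    | none => exact hc
    | some i => exact ok_cop_site h i.2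

/-- **the first cell, sites and one super-modulus** -/
theorem wcell_o1 (h : H860.Ok I κ) {m : ℕ} [NeZero m] (hm : 2 ≤ m) (hc : m.Coprime I.q0)
    (hs : ∀ i : Si I.K0 I.C1 I.P, m.Coprime i.1) :
    WCell ((univ : Finset (Option (Si I.K0 I.C1 I.P))).erase none)
      (mo (fun i : Si I.K0 I.C1 I.P => i.1) m) (rn (mo (fun i : Si I.K0 I.C1 I.P => i.1) m))
      (Typ I.K0 I.C1 I.P) I.mu I.N I.q0 I.w.val (I.z1 + 1) (I.z1 + I.h0) :=
  wcell_o h hm hc hs I.w h.z1N h.ma1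

/-- **the second cell, sites and one super-modulus** -/
theorem wcell_o2 (h : H860.Ok I κ) {m : ℕ} [NeZero m] (hm : 2 ≤ m) (hc : m.Coprime I.q0)
    (hs : ∀ i : Si I.K0 I.C1 I.P, m.Coprime i.1) :
    WCell ((univ : Finset (Option (Si I.K0 I.C1 I.P))).erase none)
      (mo (fun i : Si I.K0 I.C1 I.P => i.1) m) (rn (mo (fun i : Si I.K0 I.C1 I.P => i.1) m))
      (Typ I.K0 I.C1 I.P) I.mu I.N I.q0 I.w'.val (I.z2 + 1) (I.z2 + I.h0) :=
  wcell_o h hm hc hs I.w' h.z2N h.ma2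

end

end Vale.Agent.P042.H599
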