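import Vale.Agent.P042.H362.CoreF

/-!
# P042 [D], power regime: cells of any modulus

The master inequality for the core law in cells of any modulus: the moduli of the functional are
bounded, not the modulus of the cell (`cellG`, `mfG`), and the form with the prime terms only,
without any loss depending on the density of the cell (`stL`).
-/

set_option autoImplicit false
set_option linter.unusedSectionVars false

namespace Vale.Agent.P042.H599

open Finset Vale.Agent.P042.H945 Vale.Agent.P042.H362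

variable {ι : Type} {Q : Par ι} {N d M : ℕ} {A0 : Finset ℤ} {a : ℤ} {x y : ℕ → ℝ} {L : ℝ}
  {OB Qm t2 : ℝ} {om1 al : ℕ → ℝ}

/-- bound of the correction term -/
theorem GF_leG (hm : Mx Q N A0 d a M x L) (hsq : SqF Q) (h : DN Q d M L OB Qm t2 om1 al)
    (hmQ : ∀ i ∈ Q.I, (Q.m i : ℝ) ≤ Qm) {D : ℕ} (w : ℕ) :
    GF Q D M w x ≤ 3 / 8 * ∑ p ∈ Q.W with p ∣ D, al p := by
  obtain ⟨ht2, hom0, hal0⟩ := h.pos hm
  have hx := hm.mx.1.law
  refine le_trans ?_ (sum_gcd_le hm h (D := D) (Q.W.filter (fun p => p ∣ D))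
    (Finset.filter_subset _ _))
  unfold GF
  refine Finset.sum_le_sum fun i hi => ?_
  obtain ⟨hi1, hi2⟩ := Finset.mem_filter.1 hi
  refine mul_le_mul_of_nonneg_left ?_ (hm.ok.hc i hi1)
  have hmi := hm.ok.hm i hi1
  have hgD : Nat.gcd (Q.m i) D ∣ D := Nat.gcd_dvd_right _ _
  have hgm : Nat.gcd (Q.m i) D ∣ Q.m i := Nat.gcd_dvd_left _ _
  have hpf : (Nat.gcd (Q.m i) D).primeFactors =
      (Q.W.filter (fun p => p ∣ D)).filter (fun p => p ∣ Q.m i) := by
    ext p
    rw [Finset.mem_filter, Finset.mem_filter, Nat.mem_primeFactors]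
    constructor
    · rintro ⟨h1, h2, _⟩
      exact ⟨⟨hsq.sub i hi1 p h1 (h2.trans hgm), h2.trans hgD⟩, h2.trans hgm⟩
    · rintro ⟨⟨h1, h2⟩, h3⟩
      exact ⟨hsq.pr p h1, Nat.dvd_gcd h3 h2, (Nat.gcd_pos_of_pos_left _ hmi).ne'⟩
  have h5 := dens hm hsq h (Nat.gcd (Q.m i) D) ((hsq.sq i hi1).squarefree_of_dvd hgm)
    (le_trans (by exact_mod_cast Nat.le_of_dvd hmi hgm) (hmQ i hi1))
    (fun p hp hpg => hsq.sub i hi1 p hp (hpg.trans hgm)) (w % Nat.gcd (Q.m i) D)
  rw [hpf] at h5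
  have h6 : 0 ≤ ∑ p ∈ (Q.W.filter (fun p => p ∣ D)).filter (fun p => p ∣ Q.m i), al p :=
    Finset.sum_nonneg fun p hp =>
      hal0 p (Finset.mem_filter.1 (Finset.mem_filter.1 hp).1).1
  have h7 : 0 ≤ (Nat.gcd (Q.m i) D : ℝ) * cm x 1 M (Nat.gcd (Q.m i) D)
      (w % Nat.gcd (Q.m i) D) := mul_nonneg (Nat.cast_nonneg _) (cm_nonneg hx.nonneg _ _)
  rcases h7.eq_or_lt with h8 | h8
  · rw [← h8, Real.log_zero]; exact h6
  · rw [Real.log_le_iff_le_exp h8]; exact h5

/-- **the master inequality**, all laws of bounded density relative to a cell of the core law -/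
theorem cellG (hm : Mx Q N A0 d a M x L) (hsq : SqF Q) (h : DN Q d M L OB Qm t2 om1 al)
    (hmQ : ∀ i ∈ Q.I, (Q.m i : ℝ) ≤ Qm) {D w u v : ℕ} (hD : 1 ≤ D) (hu : 1 ≤ u) (hv : v ≤ M)
    (huv : 2 * Q.Mm * Q.lam D ≤ v + 1 - u) {Dm : ℝ} (hDm : 0 ≤ Dm) (hDm8 : 8 * Dm + 4 ≤ Q.D0)
    (hm0 : 0 < ms (core x M Q.D0) M (cl D w u v))
    (hthick : Real.exp (-Dm) * ((v + 1 - u : ℕ) : ℝ) ≤
      D * ms (core x M Q.D0) M (cl D w u v) * M)
    (hy : Law y 1 M) (hy0 : ∀ n, 0 ≤ y n)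
    (hyK : ∀ n, y n ≤ Real.exp Dm * rst (core x M Q.D0) M (cl D w u v) n) {K0 : ℝ}
    (hK0 : 2 * Real.exp Dm / ms (core x M Q.D0) M (cl D w u v) ≤ K0) :
    Real.log (D * ms (core x M Q.D0) M (cl D w u v) * M / ((v + 1 - u : ℕ) : ℝ)) +
      KF Q D M y x ≤
    kl2 y (rst (core x M Q.D0) M (cl D w u v)) M +
      Q.eta * (Real.log (Q.lam D) + (Real.log M - Real.log ((v + 1 - u : ℕ) : ℝ))) +
      ∑ p ∈ Q.W with p ∣ D, (3 / 8 * al p + om1 p) +
      (Err Q M L OB K0 (Q.lam D / ((v + 1 - u : ℕ) : ℝ)) + 2 * Real.exp (-(Q.D0 / 4))) ∧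
      (∀ n, y n ≤ Real.exp Dm / ms (core x M Q.D0) M (cl D w u v) * core x M Q.D0 n) ∧
      (∀ n, y n ≤ K0 * x n) := by
  classical
  have hx := hm.mx.1.law
  have hxn := law_nonneg hm.mx.1
  have hQ := hm.ok
  obtain ⟨hb1, hb2, hb3⟩ := be_bound hm
  have hb0 : 0 < be x M Q.D0 := by linarith
  obtain ⟨β, hβ⟩ : ∃ β, β = be x M Q.D0 := ⟨_, rfl⟩
  obtain ⟨m, hmdef⟩ : ∃ m, m = ms (core x M Q.D0) M (cl D w u v) := ⟨_, rfl⟩
  obtain ⟨V, hVdef⟩ : ∃ V : ℝ, V = ((v + 1 - u : ℕ) : ℝ) := ⟨_, rfl⟩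
  have hMp : (0 : ℝ) < M := by exact_mod_cast hx.pos
  have hD' : (0 : ℝ) < D := by exact_mod_cast hD
  have hVn : 0 < v + 1 - u := by
    have h1 := hQ.lam0 D hD
    have h2 := hQ.Mm1
    have : 0 < 2 * Q.Mm * Q.lam D := by positivity
    omega
  have hV0 : 0 < V := by rw [hVdef]; exact_mod_cast hVn
  have hcl := core_lawF hm
  have hcn := core_nonneg hm
  have hm1 : m ≤ 1 := by rw [hmdef]; exact ms_le_one hcl _
  rw [← hmdef] at hm0 hthick hK0
  rw [← hVdef] at hthick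
  have hK00 : 0 < K0 := lt_of_lt_of_le (by positivity) hK0
  -- values of the cell law
  have hr : ∀ n, rst (core x M Q.D0) M (cl D w u v) n ≤ core x M Q.D0 n / m := by
    intro n
    by_cases h1 : cl D w u v n
    · rw [rst_val h1, ← hmdef]
    · rw [rst_val0 h1]
      have := hcn n
      positivity
  have hyn : ∀ n, y n ≠ 0 → cl D w u v n ∧ M * x n ≤ Real.exp (Q.D0 / 2) ∧ x n ≠ 0 := by
    intro n hn
    have hyr : ¬ rst (core x M Q.D0) M (cl D w u v) n = 0 := by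
      intro h0
      have h1 := hyK n
      rw [h0, mul_zero] at h1
      exact hn (le_antisymm h1 (hy0 n))
    obtain ⟨h1, h2⟩ := rst_ne hyr
    refine ⟨h1, ?_, ?_⟩
    · by_contra h3
      exact h2 ((core_def x M Q.D0 n).2 h3)
    · intro h3
      by_cases h4 : M * x n ≤ Real.exp (Q.D0 / 2)
      · exact h2 (by rw [(core_def x M Q.D0 n).1 h4, h3, zero_div])
      · exact h2 ((core_def x M Q.D0 n).2 h4)
  have hcore2 : ∀ n, core x M Q.D0 n ≤ 2 * x n := by
    intro n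
    have h0 := hxn n
    by_cases h4 : M * x n ≤ Real.exp (Q.D0 / 2)
    · rw [(core_def x M Q.D0 n).1 h4, div_le_iff₀ hb0]
      nlinarith
    · rw [(core_def x M Q.D0 n).2 h4]
      linarith
  have hcoreM : ∀ n, M * core x M Q.D0 n ≤ 2 * Real.exp (Q.D0 / 2) := by
    intro n
    by_cases h4 : M * x n ≤ Real.exp (Q.D0 / 2)
    · have h5 := hcore2 n
      have h6 := mul_le_mul_of_nonneg_left h5 hMp.le
      linarith
    · rw [(core_def x M Q.D0 n).2 h4, mul_zero]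
      positivity
  have hyK1 : ∀ n, y n ≤ Real.exp Dm / m * core x M Q.D0 n := by
    intro n
    refine (hyK n).trans ?_
    rw [div_mul_eq_mul_div, mul_div_assoc]
    exact mul_le_mul_of_nonneg_left (hr n) (Real.exp_pos _).le
  have hK1 : Real.exp Dm / m ≤ K0 := by
    refine le_trans ?_ hK0
    rw [mul_div_assoc]
    have : 0 < Real.exp Dm / m := by positivity
    linarith
  have hyK2 : ∀ n, y n ≤ K0 * x n := by
    intro n
    refine (hyK1 n).trans ?_
    have h1 : Real.exp Dm / m * core x M Q.D0 n ≤ Real.exp Dm / m * (2 * x n) :=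
      mul_le_mul_of_nonneg_left (hcore2 n) (by positivity)
    have h2 : Real.exp Dm / m * (2 * x n) = 2 * Real.exp Dm / m * x n := by ring
    rw [h2] at h1
    exact h1.trans (mul_le_mul_of_nonneg_right hK0 (hxn n))
  have hK01 : 1 ≤ K0 := by
    refine le_trans ?_ hK1
    rw [le_div_iff₀ hm0]
    have := Real.one_le_exp hDm
    linarith
  -- the competitor
  have hcomp : Comp Q M x D w u v y := by
    refine ⟨hD, hu, hv, huv, hy, fun n hn => ?_, fun n => ?_⟩
    · obtain ⟨h1, _, h3⟩ := hyn n hn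
      exact ⟨h3, h1.1, h1.2.1, h1.2.2⟩
    · rw [← hVdef, le_div_iff₀ hV0]
      have h1 : y n * V ≤ Real.exp Dm / m * core x M Q.D0 n * V :=
        mul_le_mul_of_nonneg_right (hyK1 n) hV0.le
      have h2 : V ≤ Real.exp Dm * (D * m * M) := by
        have h3 := mul_le_mul_of_nonneg_left hthick (Real.exp_pos Dm).le
        rw [← mul_assoc, ← Real.exp_add, add_neg_cancel, Real.exp_zero, one_mul] at h3
        exact h3
      have h3 : Real.exp Dm / m * core x M Q.D0 n * V ≤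
          Real.exp Dm / m * core x M Q.D0 n * (Real.exp Dm * (D * m * M)) :=
        mul_le_mul_of_nonneg_left h2 (by have := hcn n; positivity)
      have h4 : Real.exp Dm / m * core x M Q.D0 n * (Real.exp Dm * (D * m * M)) =
          (Real.exp Dm * Real.exp Dm) * (M * core x M Q.D0 n) * D := by
        field_simp
      have h5 : (Real.exp Dm * Real.exp Dm) * (M * core x M Q.D0 n) * D ≤
          (Real.exp Dm * Real.exp Dm) * (2 * Real.exp (Q.D0 / 2)) * D :=
        mul_le_mul_of_nonneg_right (mul_le_mul_of_nonneg_left (hcoreM n) (by positivity)) hD'.le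
      have h6 : (Real.exp Dm * Real.exp Dm) * (2 * Real.exp (Q.D0 / 2)) ≤
          Real.exp (3 / 4 * Q.D0) := by
        have h7 : (2 : ℝ) ≤ Real.exp 1 := by
          have := Real.add_one_le_exp (1 : ℝ); linarith
        calc (Real.exp Dm * Real.exp Dm) * (2 * Real.exp (Q.D0 / 2))
            ≤ (Real.exp Dm * Real.exp Dm) * (Real.exp 1 * Real.exp (Q.D0 / 2)) := by gcongr
          _ = Real.exp (Dm + Dm + (1 + Q.D0 / 2)) := by rw [Real.exp_add, Real.exp_add, Real.exp_add]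
          _ ≤ Real.exp (3 / 4 * Q.D0) := Real.exp_le_exp.2 (by linarith)
      have h7 := mul_le_mul_of_nonneg_right h6 hD'.le
      linarith
  have hcell := cellF hm hsq hcomp hK01 hyK2 h.hOB
  rw [← hVdef] at hcell
  have hkl := kl2_cell hb0 (S := cl D w u v) (by rw [← hmdef]; exact hm0) hy hyn
  rw [← hmdef] at hkl
  have hGF := GF_leG (D := D) hm hsq h hmQ w
  have hOm := om_loss (y := y) hm hsq h (D := D) (fun n hn => (hyn n hn).2.2)
  have hlogβ : -(2 * Real.exp (-(Q.D0 / 4))) ≤ Real.log (be x M Q.D0) :=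
    log_low (Real.exp_pos _).le hm.hD2 hb1
  have hlog : Real.log (D * m * M / V) = Real.log D + Real.log m + Real.log M - Real.log V := by
    rw [Real.log_div (by positivity) hV0.ne', Real.log_mul (by positivity) hMp.ne',
      Real.log_mul hD'.ne' hm0.ne']
  rw [← hmdef, ← hVdef, hlog]
  have hsum : ∑ p ∈ Q.W with p ∣ D, (3 / 8 * al p + om1 p) =
      3 / 8 * ∑ p ∈ Q.W with p ∣ D, al p + ∑ p ∈ Q.W with p ∣ D, om1 p := by
    rw [Finset.sum_add_distrib, Finset.mul_sum]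
  rw [hsum]
  exact ⟨by linarith, hyK1, hyK2⟩


/-- **the master inequality for the core**, cells of any modulus -/
theorem mfG (hm : Mx Q N A0 d a M x L) (hsq : SqF Q) (h : DN Q d M L OB Qm t2 om1 al)
    (hmQ : ∀ i ∈ Q.I, (Q.m i : ℝ) ≤ Qm) {D w u v : ℕ} (hD : 1 ≤ D) (hu : 1 ≤ u) (hv : v ≤ M)
    (huv : 2 * Q.Mm * Q.lam D ≤ v + 1 - u) {Dm : ℝ} (hDm : 0 ≤ Dm) (hDm8 : 8 * Dm + 4 ≤ Q.D0)
    (hm0 : 0 < ms (core x M Q.D0) M (cl D w u v))
    (hthick : Real.exp (-Dm) * ((v + 1 - u : ℕ) : ℝ) ≤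
      D * ms (core x M Q.D0) M (cl D w u v) * M)
    (hy : Law y 1 M) (hy0 : ∀ n, 0 ≤ y n)
    (hyK : ∀ n, y n ≤ Real.exp Dm * rst (core x M Q.D0) M (cl D w u v) n) {K0 : ℝ}
    (hK0 : 2 * Real.exp Dm / ms (core x M Q.D0) M (cl D w u v) ≤ K0) :
    Real.log (D * ms (core x M Q.D0) M (cl D w u v) * M / ((v + 1 - u : ℕ) : ℝ)) +
      KF Q D M y (core x M Q.D0) ≤
    kl2 y (rst (core x M Q.D0) M (cl D w u v)) M +
      Q.eta * (Real.log (Q.lam D) + (Real.log M - Real.log ((v + 1 - u : ℕ) : ℝ))) +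
      ∑ p ∈ Q.W with p ∣ D, (3 / 8 * al p + om1 p) +
      (Err Q M L OB K0 (Q.lam D / ((v + 1 - u : ℕ) : ℝ)) + 2 * Real.exp (-(Q.D0 / 4)) +
        C1 Q * (K0 * Real.exp (-(Q.D0 / 4)))) := by
  obtain ⟨h1, h2, _⟩ := cellG hm hsq h hmQ hD hu hv huv hDm hDm8 hm0 hthick hy hy0 hyK hK0
  have hQ := hm.ok
  have hK1 : Real.exp Dm / ms (core x M Q.D0) M (cl D w u v) ≤ K0 := by
    refine le_trans ?_ hK0
    rw [mul_div_assoc]
    have : 0 < Real.exp Dm / ms (core x M Q.D0) M (cl D w u v) := by positivity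
    linarith
  have hKF : KF Q D M y (core x M Q.D0) ≤ KF Q D M y x +
      C1 Q * (K0 * Real.exp (-(Q.D0 / 4))) := by
    unfold KF C1
    have h1 : ∀ i ∈ Q.I.filter (fun i => Nat.Coprime (Q.m i) D),
        Q.c i * klc y (core x M Q.D0) M (Q.m i) ≤ Q.c i * klc y x M (Q.m i) +
          Q.c i * (K0 * Real.exp (-(Q.D0 / 4))) := by
      intro i hi
      obtain ⟨hi1, _⟩ := Finset.mem_filter.1 hi
      rw [← mul_add]
      refine mul_le_mul_of_nonneg_left ?_ (hQ.hc i hi1)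
      refine (klc_coreF hm hy (K := Real.exp Dm / ms (core x M Q.D0) M (cl D w u v))
        (by positivity) h2 (hQ.hm i hi1)).trans ?_
      have := mul_le_mul_of_nonneg_right hK1 (Real.exp_pos (-(Q.D0 / 4))).le
      linarith
    refine (Finset.sum_le_sum h1).trans ?_
    rw [Finset.sum_add_distrib, ← Finset.sum_mul]
    have h2 : ∑ i ∈ Q.I with Nat.Coprime (Q.m i) D, Q.c i ≤ ∑ i ∈ Q.I, Q.c i :=
      Finset.sum_le_sum_of_subset_of_nonneg (Finset.filter_subset _ _) fun i hi _ => hQ.hc i hi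
    have hK00 : 0 ≤ K0 := le_trans (by positivity) hK1
    have h3 := mul_le_mul_of_nonneg_right h2
      (show 0 ≤ K0 * Real.exp (-(Q.D0 / 4)) by positivity)
    linarith
  linarith

/-- comparison of the entropies relative to the core and to the law, from the atoms of the core -/
theorem klc_coreA (hm : Mx Q N A0 d a M x L) (hy : Law y 1 M) {K : ℝ}
    (hyK : ∀ n, y n ≤ K * core x M Q.D0 n) {m : ℕ} (hm0 : 0 < m) {kp : ℝ} (hkp : 0 < kp)
    (hat : ∀ b < m, cm (core x M Q.D0) 1 M m b ≠ 0 → kp ≤ m * cm (core x M Q.D0) 1 M m b) :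
    klc y (core x M Q.D0) M m ≤ klc y x M m + m / kp * Real.exp (-(Q.D0 / 4)) := by
  obtain ⟨_, hb1, hb2⟩ := be_bound hm
  have hb0 : 0 < be x M Q.D0 := by linarith
  have hxn := law_nonneg hm.mx.1
  have hc := core_lawF hm
  have hm' : (0 : ℝ) < m := by exact_mod_cast hm0
  have h1 : ∀ b ∈ range m, cm y 1 M m b *
      (Real.log (cm y 1 M m b) - Real.log (cm (core x M Q.D0) 1 M m b)) ≤
      cm y 1 M m b * (Real.log (cm y 1 M m b) - Real.log (cm x 1 M m b)) +
        m / kp * cm (bd x M Q.D0) 1 M m b := by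
    intro b hb
    have hb' := mem_range.1 hb
    have hbn := cm_bd_nonneg (Q := Q) (M := M) hxn m b
    have hyn : 0 ≤ cm y 1 M m b := cm_nonneg hy.nonneg _ _
    have hle : cm y 1 M m b ≤ K * cm (core x M Q.D0) 1 M m b := by
      unfold cm
      rw [Finset.mul_sum]
      refine Finset.sum_le_sum fun i _ => ?_
      split_ifs
      · exact hyK _
      · simp
    rcases hyn.eq_or_lt with h0 | h0
    · rw [← h0]; simp; positivity
    · have hcn : 0 ≤ cm (core x M Q.D0) 1 M m b := cm_nonneg hc.nonneg _ _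
      have hcp : 0 < cm (core x M Q.D0) 1 M m b := by
        rcases hcn.eq_or_lt with h2 | h2
        · rw [← h2, mul_zero] at hle; linarith
        · exact h2
      have hatb := hat b hb' hcp.ne'
      have hs := cm_split (x := x) (M := M) (Q := Q) hb0 m b
      have hxp : 0 < cm x 1 M m b := by rw [hs]; positivity
      have hy1 : cm y 1 M m b ≤ 1 := by
        rw [← ms_class]
        exact ms_le_one hy _
      have h2 := Real.log_le_sub_one_of_pos (div_pos hxp hcp)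
      rw [Real.log_div hxp.ne' hcp.ne'] at h2
      have h3 : cm x 1 M m b / cm (core x M Q.D0) 1 M m b - 1 ≤
          cm (bd x M Q.D0) 1 M m b / cm (core x M Q.D0) 1 M m b := by
        rw [hs, add_div, mul_div_assoc, div_self hcp.ne']
        linarith
      have h4 : cm (bd x M Q.D0) 1 M m b / cm (core x M Q.D0) 1 M m b ≤
          m / kp * cm (bd x M Q.D0) 1 M m b := by
        rw [div_le_iff₀ hcp]
        have h6 : 1 ≤ m / kp * cm (core x M Q.D0) 1 M m b := by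
          rw [div_mul_eq_mul_div, le_div_iff₀ hkp, one_mul]
          exact hatb
        nlinarith
      have h7 : cm y 1 M m b * (cm (bd x M Q.D0) 1 M m b / cm (core x M Q.D0) 1 M m b) ≤
          m / kp * cm (bd x M Q.D0) 1 M m b := by
        have h8 : 0 ≤ cm (bd x M Q.D0) 1 M m b / cm (core x M Q.D0) 1 M m b := by positivity
        have h9 := mul_le_mul_of_nonneg_right hy1 h8
        linarith
      have h5 := mul_le_mul_of_nonneg_left (h2.trans h3) h0.le
      linarith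
  unfold klc
  refine (Finset.sum_le_sum h1).trans ?_
  rw [Finset.sum_add_distrib, ← Finset.mul_sum]
  have h2 := mul_le_mul_of_nonneg_left (sum_bd hm hm0) (show 0 ≤ (m : ℝ) / kp by positivity)
  linarith

/-- **large cells, prime terms only**: no loss depending on the density of the cell except its
logarithm inside `Err` -/
theorem stL (hm : Mx Q N A0 d a M x L) (hsq : SqF Q) (h : DN Q d M L OB Qm t2 om1 al)
    (hmQ : ∀ i ∈ Q.I, (Q.m i : ℝ) ≤ Qm) {D w u v : ℕ} (hD : 1 ≤ D) (hu : 1 ≤ u) (hv : v ≤ M)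
    (huv : 2 * Q.Mm * Q.lam D ≤ v + 1 - u) {Dm : ℝ} (hDm : 0 ≤ Dm) (hDm8 : 8 * Dm + 4 ≤ Q.D0)
    (hm0 : 0 < ms (core x M Q.D0) M (cl D w u v))
    (hthick : Real.exp (-Dm) * ((v + 1 - u : ℕ) : ℝ) ≤
      D * ms (core x M Q.D0) M (cl D w u v) * M)
    (hy : Law y 1 M) (hy0 : ∀ n, 0 ≤ y n)
    (hyK : ∀ n, y n ≤ Real.exp Dm * rst (core x M Q.D0) M (cl D w u v) n) {K0 : ℝ}
    (hK0 : 2 * Real.exp Dm / ms (core x M Q.D0) M (cl D w u v) ≤ K0)
    {I0 : Finset ι} (hI0 : I0 ⊆ Q.I) {kp : ι → ℝ} (hkp : ∀ i ∈ I0, 0 < kp i)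
    (hat : ∀ i ∈ I0, ∀ b < Q.m i, cm (core x M Q.D0) 1 M (Q.m i) b ≠ 0 →
      kp i ≤ Q.m i * cm (core x M Q.D0) 1 M (Q.m i) b) :
    Real.log (D * ms (core x M Q.D0) M (cl D w u v) * M / ((v + 1 - u : ℕ) : ℝ)) +
      ∑ i ∈ I0 with Nat.Coprime (Q.m i) D, Q.c i * klc y (core x M Q.D0) M (Q.m i) ≤
    kl2 y (rst (core x M Q.D0) M (cl D w u v)) M +
      Q.eta * (Real.log (Q.lam D) + (Real.log M - Real.log ((v + 1 - u : ℕ) : ℝ))) +
      ∑ p ∈ Q.W with p ∣ D, (3 / 8 * al p + om1 p) +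
      (Err Q M L OB K0 (Q.lam D / ((v + 1 - u : ℕ) : ℝ)) + 2 * Real.exp (-(Q.D0 / 4)) +
        (∑ i ∈ I0, Q.c i * (Q.m i / kp i)) * Real.exp (-(Q.D0 / 4))) := by
  classical
  obtain ⟨h1, h2, h3⟩ := cellG hm hsq h hmQ hD hu hv huv hDm hDm8 hm0 hthick hy hy0 hyK hK0
  have hQ := hm.ok
  have hac : AC y x M := by
    intro i _ h0
    have h4 := h3 (1 + i)
    rw [h0, mul_zero] at h4
    exact le_antisymm h4 (hy0 _)
  have h5 : ∑ i ∈ I0 with Nat.Coprime (Q.m i) D, Q.c i * klc y x M (Q.m i) ≤ KF Q D M y x := by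
    unfold KF
    refine Finset.sum_le_sum_of_subset_of_nonneg (Finset.filter_subset_filter _ hI0)
      fun i hi _ => ?_
    have hi1 := (Finset.mem_filter.1 hi).1
    exact mul_nonneg (hQ.hc i hi1) (klc_nonneg hy hm.mx.1.law hac (hQ.hm i hi1))
  have h6 : ∑ i ∈ I0 with Nat.Coprime (Q.m i) D, Q.c i * klc y (core x M Q.D0) M (Q.m i) ≤
      ∑ i ∈ I0 with Nat.Coprime (Q.m i) D, Q.c i * klc y x M (Q.m i) +
        (∑ i ∈ I0, Q.c i * (Q.m i / kp i)) * Real.exp (-(Q.D0 / 4)) := by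
    have h7 : (∑ i ∈ I0 with Nat.Coprime (Q.m i) D, Q.c i * (Q.m i / kp i)) *
        Real.exp (-(Q.D0 / 4)) ≤
        (∑ i ∈ I0, Q.c i * (Q.m i / kp i)) * Real.exp (-(Q.D0 / 4)) := by
      refine mul_le_mul_of_nonneg_right ?_ (Real.exp_pos _).le
      refine Finset.sum_le_sum_of_subset_of_nonneg (Finset.filter_subset _ _) fun i hi _ => ?_
      have h8 := hkp i hi
      have h9 := hQ.hc i (hI0 hi)
      positivity
    refine le_trans ?_ (add_le_add le_rfl h7)
    rw [Finset.sum_mul, ← Finset.sum_add_distrib]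
    refine Finset.sum_le_sum fun i hi => ?_
    obtain ⟨hi0, _⟩ := Finset.mem_filter.1 hi
    have h8 := mul_le_mul_of_nonneg_left (klc_coreA hm hy h2 (hQ.hm i (hI0 hi0)) (hkp i hi0)
      (hat i hi0)) (hQ.hc i (hI0 hi0))
    linarith
  linarith

end Vale.Agent.P042.H599
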