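import Vale.Agent.P042.H599.Pack
set_option autoImplicit false

/-!
P042 [D]: the hypothesis (HB) of the variational state: the entropy terms of the functional are
bounded for all competitors.
-/

namespace Vale.Agent.P042.H599

open Finset

variable {nu : ℕ → ℝ} {A M : ℕ}

theorem klu_eq_av {p : ℕ} (h : Law nu A M) (hp : 0 < p) :
    klu nu A M p = av (fun a => phi (p * cm nu A M p a)) p := by
  have hpR : (0 : ℝ) < p := by exact_mod_cast hp
  have hs := sum_cm h.sum hp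
  unfold av phi klu
  rw [eq_div_iff hpR.ne', Finset.sum_add_distrib, Finset.sum_sub_distrib, ← Finset.mul_sum, hs,
    Finset.sum_const, Finset.card_range, nsmul_eq_mul, Finset.sum_mul]
  have : ∀ a ∈ range p, cm nu A M p a * Real.log (p * cm nu A M p a) * p =
      p * cm nu A M p a * Real.log (p * cm nu A M p a) := fun a _ => by ring
  rw [Finset.sum_congr rfl this]
  ring

/-- **level one**, in the vocabulary `klu` -/
theorem level1_klu (h : Law nu A M) (W : Finset ℕ) (hW : ∀ p ∈ W, 0 < p)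
    (hc : (W : Set ℕ).Pairwise Nat.Coprime) {Y : ℕ} (hY1 : 1 ≤ Y) (hY : ∀ p ∈ W, p ≤ Y)
    {m : ℕ} (hm : 1 ≤ m) {D : ℝ} (hD : 0 ≤ D) (hb : ∀ i < M, nu (A + i) ≤ Real.exp D / M)
    (hM : 2 * (8 * (W.card : ℝ) * Y) ^ (2 * m) ≤ M) :
    ∑ p ∈ W, klu nu A M p ≤ (1 + Real.log Y) * (128 * m * Real.exp (D / m)) := by
  refine le_trans (le_of_eq ?_)
    (level1_kl W hW hc Y hY1 hY A M m h.pos hm D hD nu h.nonneg h.sum hb hM)
  exact Finset.sum_congr rfl fun p hp => klu_eq_av h (hW p hp)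

theorem cm_le_one' (h : Law nu A M) {p : ℕ} (hp : 0 < p) (a : ℕ) : cm nu A M p a ≤ 1 := by
  by_cases ha : a < p
  · rw [← sum_cm h.sum hp]
    exact Finset.single_le_sum (f := fun a => cm nu A M p a)
      (fun b _ => cm_nonneg h.nonneg p b) (mem_range.2 ha)
  · have : cm nu A M p a = 0 := by
      unfold cm
      refine Finset.sum_eq_zero fun i _ => if_neg ?_
      have := Nat.mod_lt (A + i) hp
      omega
    rw [this]; norm_num

/-- the trivial bound -/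
theorem klu_le_log (h : Law nu A M) {p : ℕ} (hp : 0 < p) : klu nu A M p ≤ Real.log p := by
  have hpR : (0 : ℝ) < p := by exact_mod_cast hp
  calc klu nu A M p ≤ ∑ a ∈ range p, cm nu A M p a * Real.log p := by
        refine Finset.sum_le_sum fun a _ => ?_
        have h0 := cm_nonneg h.nonneg p a (nu := nu) (A := A) (M := M)
        rcases h0.eq_or_lt with h1 | h1
        · rw [← h1]; simp
        · refine mul_le_mul_of_nonneg_left (Real.log_le_log (by positivity) ?_) h0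
          have := cm_le_one' h hp a
          nlinarith
    _ = Real.log p := by rw [← Finset.sum_mul, sum_cm h.sum hp, one_mul]

/-- weighted level one: trivial bound on `W1`, level one on `W2` -/
theorem level1_weighted (h : Law nu A M) (W1 W2 : Finset ℕ) (hW1 : ∀ p ∈ W1, 0 < p)
    (hW : ∀ p ∈ W2, 0 < p)
    (hc : (W2 : Set ℕ).Pairwise Nat.Coprime) {Y : ℕ} (hY1 : 1 ≤ Y) (hY : ∀ p ∈ W2, p ≤ Y)
    {m : ℕ} (hm : 1 ≤ m) {D : ℝ} (hD : 0 ≤ D) (hb : ∀ i < M, nu (A + i) ≤ Real.exp D / M)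
    (hM : 2 * (8 * (W2.card : ℝ) * Y) ^ (2 * m) ≤ M) (c : ℕ → ℝ) (hc1 : ∀ p ∈ W1, 0 ≤ c p)
    {c2 : ℝ} (hc2 : ∀ p ∈ W2, c p ≤ c2) (hc0 : 0 ≤ c2) :
    ∑ p ∈ W1, c p * klu nu A M p + ∑ p ∈ W2, c p * klu nu A M p ≤
      ∑ p ∈ W1, c p * Real.log p +
        c2 * ((1 + Real.log Y) * (128 * m * Real.exp (D / m))) := by
  refine add_le_add (Finset.sum_le_sum fun p hp =>
    mul_le_mul_of_nonneg_left (klu_le_log h (hW1 p hp)) (hc1 p hp)) ?_
  refine le_trans ?_ (mul_le_mul_of_nonneg_left (level1_klu h W2 hW hc hY1 hY hm hD hb hM) hc0)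
  rw [Finset.mul_sum]
  exact Finset.sum_le_sum fun p hp =>
    mul_le_mul_of_nonneg_right (hc2 p hp) (klu_nonneg h (hW p hp))

theorem kl0_nonneg (h : Law nu A M) : 0 ≤ kl0 nu A M := by
  have hMR : (0 : ℝ) < M := by exact_mod_cast h.pos
  have key : ∀ i ∈ range M, nu (A + i) - 1 / M ≤ nu (A + i) * Real.log (M * nu (A + i)) := by
    intro i hi
    have hx := h.nonneg i (mem_range.1 hi)
    rcases hx.eq_or_lt with h0 | h0
    · rw [← h0]; simp
    · refine (gibbs hx (by positivity) (fun h1 => absurd h1 (by positivity))).trans (le_of_eq ?_)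
      rw [one_div, Real.log_inv, Real.log_mul hMR.ne' h0.ne']; ring
  have h2 := Finset.sum_le_sum key
  rw [Finset.sum_sub_distrib, h.sum, Finset.sum_const, Finset.card_range, nsmul_eq_mul,
    mul_one_div_cancel hMR.ne', sub_self] at h2
  exact h2

/-- Bernoulli weight of `R` in `W` -/
noncomputable def bwt (t : ℕ → ℝ) (W R : Finset ℕ) : ℝ :=
  (∏ p ∈ R, t p) * ∏ p ∈ W \ R, (1 - t p)

/-- the truncated Bernoulli information at rates `t` -/
noncomputable def binf (nu : ℕ → ℝ) (A M : ℕ) (W : Finset ℕ) (t : ℕ → ℝ) (B : ℕ) : ℝ :=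
  ∑ R ∈ W.powerset, bwt t W R * (if ∏ p ∈ R, p ≤ B then klu nu A M (∏ p ∈ R, p) else 0)

theorem mei_binf (h : Law nu A M) (W : Finset ℕ) (hW : ∀ p ∈ W, 0 < p)
    (hc : (W : Set ℕ).Pairwise Nat.Coprime) (K : ℕ) (t : ℕ → ℝ)
    (ht0 : ∀ p ∈ W, 0 ≤ t p) (htK : ∀ p ∈ W, K * t p ≤ 1) {B : ℕ} (hB : 0 < B) (hBM : B ^ K ≤ M) :
    K * binf nu A M W t B ≤ kl0 nu A M + Real.log 2 := by
  have hMR : (0 : ℝ) < M := by exact_mod_cast h.pos
  refine (mei_finset h W hW hc K t ht0 htK hB).trans ?_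
  have h1 : Real.log (1 + (B : ℝ) ^ K / M) ≤ Real.log 2 := by
    refine Real.log_le_log (by positivity) ?_
    have h2 : (B : ℝ) ^ K / M ≤ 1 := by
      rw [div_le_one hMR]; exact_mod_cast hBM
    linarith
  linarith

/-- **finitely many MEI families at once**, total weight `∑ ω` -/
theorem mei_families (h : Law nu A M) {ι : Type*} (s : Finset ι) (W : ι → Finset ℕ)
    (t : ι → ℕ → ℝ) (K B : ι → ℕ) (ω : ι → ℝ) (hω : ∀ f ∈ s, 0 ≤ ω f)
    (hW : ∀ f ∈ s, ∀ p ∈ W f, 0 < p)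
    (hc : ∀ f ∈ s, (W f : Set ℕ).Pairwise Nat.Coprime)
    (ht0 : ∀ f ∈ s, ∀ p ∈ W f, 0 ≤ t f p) (htK : ∀ f ∈ s, ∀ p ∈ W f, K f * t f p ≤ 1)
    (hB : ∀ f ∈ s, 0 < B f) (hBM : ∀ f ∈ s, B f ^ K f ≤ M) :
    ∑ f ∈ s, ω f * K f * binf nu A M (W f) (t f) (B f) ≤
      (∑ f ∈ s, ω f) * (kl0 nu A M + Real.log 2) := by
  rw [Finset.sum_mul]
  refine Finset.sum_le_sum fun f hf => ?_
  rw [mul_assoc]
  exact mul_le_mul_of_nonneg_left
    (mei_binf h (W f) (hW f hf) (hc f hf) (K f) (t f) (ht0 f hf) (htK f hf) (hB f hf) (hBM f hf))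
    (hω f hf)

/-- a term `T` of the functional is bounded for all competitors:
`T nu ≤ a * kl0 nu + E` for all laws with density at most `e^D` on intervals of length
at least `Mmin` -/
def HBd (T : (ℕ → ℝ) → ℕ → ℕ → ℝ) (D : ℝ) (Mmin : ℕ) (a E : ℝ) : Prop :=
  ∀ (nu : ℕ → ℝ) (A M : ℕ), Law nu A M → Mmin ≤ M → (∀ i < M, nu (A + i) ≤ Real.exp D / M) →
    T nu A M ≤ a * kl0 nu A M + E

theorem HBd.add {T T' : (ℕ → ℝ) → ℕ → ℕ → ℝ} {D : ℝ} {Mmin : ℕ} {a E a' E' : ℝ}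
    (h : HBd T D Mmin a E) (h' : HBd T' D Mmin a' E') :
    HBd (fun nu A M => T nu A M + T' nu A M) D Mmin (a + a') (E + E') := by
  intro nu A M hL hM hb
  have h1 := h nu A M hL hM hb
  have h2 := h' nu A M hL hM hb
  simp only
  linarith

/-- the MEI part of `(HB)` -/
theorem HBd_mei {ι : Type*} (s : Finset ι) (W : ι → Finset ℕ)
    (t : ι → ℕ → ℝ) (K B : ι → ℕ) (ω : ι → ℝ) (hω : ∀ f ∈ s, 0 ≤ ω f)
    (hω1 : ∑ f ∈ s, ω f ≤ 1 / 4) (hW : ∀ f ∈ s, ∀ p ∈ W f, 0 < p)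
    (hc : ∀ f ∈ s, (W f : Set ℕ).Pairwise Nat.Coprime)
    (ht0 : ∀ f ∈ s, ∀ p ∈ W f, 0 ≤ t f p) (htK : ∀ f ∈ s, ∀ p ∈ W f, K f * t f p ≤ 1)
    (hB : ∀ f ∈ s, 0 < B f) {Mmin : ℕ} (hBM : ∀ f ∈ s, B f ^ K f ≤ Mmin) (D : ℝ) :
    HBd (fun nu A M => ∑ f ∈ s, ω f * K f * binf nu A M (W f) (t f) (B f)) D Mmin
      (1 / 4) (1 / 4) := by
  intro nu A M hL hM _
  have h1 := mei_families hL s W t K B ω hω hW hc ht0 htK hB fun f hf => (hBM f hf).trans hM
  have h2 : 0 ≤ kl0 nu A M + Real.log 2 :=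
    add_nonneg (kl0_nonneg hL) (Real.log_nonneg (by norm_num))
  have h3 := mul_le_mul_of_nonneg_right hω1 h2
  have h4 : Real.log 2 ≤ 1 := by
    have := Real.log_le_sub_one_of_pos (show (0 : ℝ) < 2 by norm_num); linarith
  simp only
  linarith

/-- the EI part of `(HB)` -/
theorem HBd_ei (W1 W2 : Finset ℕ) (hW1 : ∀ p ∈ W1, 0 < p) (hW : ∀ p ∈ W2, 0 < p)
    (hc : (W2 : Set ℕ).Pairwise Nat.Coprime) {Y : ℕ} (hY1 : 1 ≤ Y) (hY : ∀ p ∈ W2, p ≤ Y)
    {m : ℕ} (hm : 1 ≤ m) {D : ℝ} (hD : 0 ≤ D) {Mmin : ℕ}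
    (hM : 2 * (8 * (W2.card : ℝ) * Y) ^ (2 * m) ≤ Mmin) (c : ℕ → ℝ) (hc1 : ∀ p ∈ W1, 0 ≤ c p)
    {c2 : ℝ} (hc2 : ∀ p ∈ W2, c p ≤ c2) (hc0 : 0 ≤ c2) :
    HBd (fun nu A M => ∑ p ∈ W1, c p * klu nu A M p + ∑ p ∈ W2, c p * klu nu A M p) D Mmin 0
      (∑ p ∈ W1, c p * Real.log p + c2 * ((1 + Real.log Y) * (128 * m * Real.exp (D / m)))) := by
  intro nu A M hL hMM hb
  have hM' : 2 * (8 * (W2.card : ℝ) * Y) ^ (2 * m) ≤ (M : ℝ) :=
    hM.trans (by exact_mod_cast hMM)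
  have := level1_weighted hL W1 W2 hW1 hW hc hY1 hY hm hD hb hM' c hc1 hc2 hc0
  simp only
  linarith

/-- **numerics of (HB), safe regime**: `l = log P`, primes at most `e^{2 l}`, all weights equal to
`lam0 / l`, competitors of density at most `e^D`, `20 l (D + 2) + 1 ≤ log Mmin` -/
theorem HBd_ei_safe {l D lam0 : ℝ} (hl : 1 ≤ l) (hD : 1 ≤ D) (hlam : 0 ≤ lam0) (W : Finset ℕ)
    (hW : ∀ p ∈ W, 0 < p) (hc : (W : Set ℕ).Pairwise Nat.Coprime)
    (hY : ∀ p ∈ W, (p : ℝ) ≤ Real.exp (2 * l)) {Mmin : ℕ}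
    (hM : Real.exp (20 * l * (D + 2) + 1) ≤ Mmin) :
    HBd (fun nu A M => ∑ p ∈ W, lam0 / l * klu nu A M p) D Mmin 0 (3200 * lam0 * D) := by
  set m : ℕ := ⌈D⌉₊ with hmdef
  have hm1 : 1 ≤ m := Nat.one_le_ceil_iff.2 (by linarith)
  have hmD : D ≤ m := Nat.le_ceil D
  have hmD' : (m : ℝ) ≤ D + 1 := (Nat.ceil_lt_add_one (by linarith)).le
  set Y : ℕ := ⌊Real.exp (2 * l)⌋₊ with hYdef
  have hYle : (Y : ℝ) ≤ Real.exp (2 * l) := Nat.floor_le (Real.exp_pos _).le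
  have hY1 : 1 ≤ Y := by
    rw [Nat.one_le_floor_iff]
    exact Real.one_le_exp (by linarith)
  have hYp : ∀ p ∈ W, p ≤ Y := fun p hp => Nat.le_floor (hY p hp)
  have hcard : (W.card : ℝ) ≤ Real.exp (2 * l) := by
    refine le_trans ?_ hYle
    have : W ⊆ Finset.Icc 1 Y := fun p hp => Finset.mem_Icc.2 ⟨hW p hp, hYp p hp⟩
    have h2 := Finset.card_le_card this
    rw [Nat.card_Icc] at h2
    exact_mod_cast (by omega : W.card ≤ Y)
  have h8 : (8 : ℝ) ≤ Real.exp 3 := by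
    have := Real.add_one_le_exp (1 : ℝ)
    have h3 : Real.exp 3 = Real.exp 1 ^ 3 := by rw [← Real.exp_nat_mul]; norm_num
    rw [h3]
    nlinarith [pow_le_pow_left₀ (by norm_num) (by linarith : (2 : ℝ) ≤ Real.exp 1) 3]
  have hbase : 8 * (W.card : ℝ) * Y ≤ Real.exp (7 * l) := by
    calc 8 * (W.card : ℝ) * Y ≤ Real.exp 3 * Real.exp (2 * l) * Real.exp (2 * l) := by
          gcongr
      _ = Real.exp (3 + 2 * l + 2 * l) := by rw [Real.exp_add, Real.exp_add]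
      _ ≤ Real.exp (7 * l) := Real.exp_le_exp.2 (by linarith)
  have hM2 : 2 * (8 * (W.card : ℝ) * Y) ^ (2 * m) ≤ Mmin := by
    refine le_trans ?_ hM
    have h2 : (2 : ℝ) ≤ Real.exp 1 := by linarith [Real.add_one_le_exp (1 : ℝ)]
    calc 2 * (8 * (W.card : ℝ) * Y) ^ (2 * m)
        ≤ Real.exp 1 * Real.exp (7 * l) ^ (2 * m) := by gcongr
      _ = Real.exp (1 + (2 * m : ℕ) * (7 * l)) := by rw [Real.exp_add, ← Real.exp_nat_mul]
      _ ≤ Real.exp (20 * l * (D + 2) + 1) := by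
          refine Real.exp_le_exp.2 ?_
          push_cast
          nlinarith
  have key := HBd_ei ∅ W (by simp) hW hc hY1 hYp hm1 (by linarith : (0 : ℝ) ≤ D) hM2
    (fun _ => lam0 / l) (by simp) (c2 := lam0 / l) (fun _ _ => le_rfl) (by positivity)
  intro nu A M hL hMM hb
  have h1 := key nu A M hL hMM hb
  simp only [Finset.sum_empty, zero_add] at h1
  refine h1.trans ?_
  have hlogY : Real.log Y ≤ 2 * l := by
    rw [Real.log_le_iff_le_exp (by exact_mod_cast hY1)]; exact hYle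
  have hexp : Real.exp (D / m) ≤ 2.7182818286 := by
    refine le_trans (Real.exp_le_exp.2 ?_) Real.exp_one_lt_d9.le
    rw [div_le_one (by exact_mod_cast hm1)]; exact hmD
  have hlog0 : 0 ≤ Real.log Y := Real.log_nonneg (by exact_mod_cast hY1)
  have h2 : (1 + Real.log Y) * (128 * m * Real.exp (D / m)) ≤
      (3 * l) * (128 * (2 * D) * 2.7182818286) := by
    gcongr
    · linarith
    · linarith
  have h3 : lam0 / l * ((3 * l) * (128 * (2 * D) * 2.7182818286)) =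
      lam0 * D * (3 * 128 * 2 * 2.7182818286) := by
    field_simp
  have h4 : 0 ≤ lam0 * D := by positivity
  calc 0 * kl0 nu A M + lam0 / l * ((1 + Real.log Y) * (128 * m * Real.exp (D / m)))
      ≤ lam0 / l * ((3 * l) * (128 * (2 * D) * 2.7182818286)) := by
        rw [zero_mul, zero_add]
        exact mul_le_mul_of_nonneg_left h2 (by positivity)
    _ = lam0 * D * (3 * 128 * 2 * 2.7182818286) := h3
    _ ≤ 0 * kl0 nu A M + 3200 * lam0 * D := by nlinarith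

end Vale.Agent.P042.H599
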