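import Vale.Agent.P042.H599.Cell
import Vale.Agent.P042.H945.State2
set_option autoImplicit false

/-!
P042 [S]: the hypothesis (HB) of 945's state, safe regime, and the parameters of the safe regime.
-/

namespace Vale.Agent.P042.H599

open Finset Vale.Agent.P042.H945

/-- proportion of missing classes, weight `xi` -/
noncomputable def omS (xi : ℝ) (p _d : ℕ) (S : Finset ℕ) : ℝ :=
  xi * (((range p \ S).card : ℝ) / p)

theorem omS_nonneg {xi : ℝ} (hxi : 0 ≤ xi) (p d : ℕ) (S : Finset ℕ) : 0 ≤ omS xi p d S := by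
  unfold omS; positivity

/-- transport -/
theorem omS_transport {xi : ℝ} (hxi : 0 ≤ xi) {p Λ b : ℕ} (hp : 0 < p) (hc : p.Coprime Λ)
    {S S' : Finset ℕ} (h : ∀ y ∈ S', (b + Λ * y) % p ∈ S) (d d' : ℕ) :
    omS xi p d S ≤ omS xi p d' S' := by
  have hinj : Set.InjOn (fun y => (b + Λ * y) % p) ((range p ∩ S' : Finset ℕ) : Set ℕ) := by
    intro u hu v hv huv
    have hu' : u < p := by
      have := Finset.mem_coe.1 hu; rw [Finset.mem_inter, mem_range] at this; exact this.1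
    have hv' : v < p := by
      have := Finset.mem_coe.1 hv; rw [Finset.mem_inter, mem_range] at this; exact this.1
    have := (mod_lin (n0 := b) (j := u) hp hc hv').1 huv
    rwa [Nat.mod_eq_of_lt hu'] at this
  have h1 : (range p ∩ S').card ≤ (range p ∩ S).card := by
    rw [← Finset.card_image_of_injOn hinj]
    refine Finset.card_le_card fun z hz => ?_
    obtain ⟨y, hy, rfl⟩ := Finset.mem_image.1 hz
    rw [Finset.mem_inter] at hy
    exact Finset.mem_inter.2 ⟨mem_range.2 (Nat.mod_lt _ hp), h y hy.2⟩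
  have h2 : (range p \ S).card ≤ (range p \ S').card := by
    have e1 := Finset.card_sdiff_add_card_inter (range p) S
    have e2 := Finset.card_sdiff_add_card_inter (range p) S'
    omega
  unfold omS
  have h3 : ((range p \ S).card : ℝ) ≤ ((range p \ S').card : ℝ) := by exact_mod_cast h2
  gcongr

/-- the missing classes are the classes of mass `0` -/
theorem sdiff_rs {x : ℕ → ℝ} {M p : ℕ} (h : Law x 1 M) (_hp : 0 < p) :
    range p \ rs (sp x M) p = (range p).filter fun a => cm x 1 M p a = 0 := by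
  classical
  ext a
  rw [Finset.mem_sdiff, Finset.mem_filter, mem_range]
  refine and_congr_right fun ha => ?_
  unfold rs sp cm
  rw [Finset.sum_eq_zero_iff_of_nonneg (fun i hi => by
    split_ifs
    · exact h.nonneg i (mem_range.1 hi)
    · exact le_rfl)]
  constructor
  · intro h1 i hi
    split_ifs with h2
    · by_contra h3
      refine h1 (Finset.mem_image.2 ⟨1 + i, ?_, h2⟩)
      rw [mem_range] at hi
      rw [Finset.mem_filter, Finset.mem_Icc]
      exact ⟨⟨by omega, by omega⟩, h3⟩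
    · rfl
  · intro h1 h2
    obtain ⟨n, hn, hn2⟩ := Finset.mem_image.1 h2
    rw [Finset.mem_filter, Finset.mem_Icc] at hn
    have h3 := h1 (n - 1) (mem_range.2 (by omega))
    rw [show 1 + (n - 1) = n by omega, if_pos hn2] at h3
    exact hn.2 h3

/-- level one for the missing classes, safe regime (no loss of a logarithm) -/
theorem missing_safe {x : ℕ → ℝ} {M : ℕ} (h : Law x 1 M) {l D : ℝ} (hl : 1 ≤ l) (hD : 1 ≤ D)
    (W : Finset ℕ) (hW : ∀ p ∈ W, 0 < p) (hc : (W : Set ℕ).Pairwise Nat.Coprime)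
    (hY : ∀ p ∈ W, (p : ℝ) ≤ Real.exp (2 * l)) (hM : Real.exp (20 * l * (D + 2) + 1) ≤ M)
    (hb : ∀ i < M, x (1 + i) ≤ Real.exp D / M) :
    ∑ p ∈ W, ((range p \ rs (sp x M) p).card : ℝ) / p ≤ 800 * D := by
  set m : ℕ := ⌈D⌉₊ with hmdef
  have hm1 : 1 ≤ m := Nat.one_le_ceil_iff.2 (by linarith)
  have hmD : D ≤ m := Nat.le_ceil D
  have hmD' : (m : ℝ) ≤ D + 1 := (Nat.ceil_lt_add_one (by linarith)).le
  set Y : ℕ := ⌊Real.exp (2 * l)⌋₊ with hYdef
  have hYle : (Y : ℝ) ≤ Real.exp (2 * l) := Nat.floor_le (Real.exp_pos _).le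
  have hY1 : 1 ≤ Y := by
    rw [Nat.one_le_floor_iff]
    exact Real.one_le_exp (by linarith)
  have hYp : ∀ p ∈ W, p ≤ Y := fun p hp => Nat.le_floor (hY p hp)
  have hcard : (W.card : ℝ) ≤ Real.exp (2 * l) := by
    refine le_trans ?_ hYle
    have : W ⊆ Finset.Icc 1 Y := fun p hp => Finset.mem_Icc.2 ⟨hW p hp, hYp p hp⟩
    have h2 := Finset.card_le_card this
    rw [Nat.card_Icc] at h2
    exact_mod_cast (by omega : W.card ≤ Y)
  have h8 : (8 : ℝ) ≤ Real.exp 3 := by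
    have := Real.add_one_le_exp (1 : ℝ)
    have h3 : Real.exp 3 = Real.exp 1 ^ 3 := by rw [← Real.exp_nat_mul]; norm_num
    rw [h3]
    nlinarith [pow_le_pow_left₀ (by norm_num) (by linarith : (2 : ℝ) ≤ Real.exp 1) 3]
  have hbase : 8 * (W.card : ℝ) * Y ≤ Real.exp (7 * l) := by
    calc 8 * (W.card : ℝ) * Y ≤ Real.exp 3 * Real.exp (2 * l) * Real.exp (2 * l) := by
          gcongr
      _ = Real.exp (3 + 2 * l + 2 * l) := by rw [Real.exp_add, Real.exp_add]
      _ ≤ Real.exp (7 * l) := Real.exp_le_exp.2 (by linarith)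
  have hM2 : 2 * (8 * (W.card : ℝ) * Y) ^ (2 * m) ≤ M := by
    refine le_trans ?_ hM
    have h2 : (2 : ℝ) ≤ Real.exp 1 := by linarith [Real.add_one_le_exp (1 : ℝ)]
    calc 2 * (8 * (W.card : ℝ) * Y) ^ (2 * m)
        ≤ Real.exp 1 * Real.exp (7 * l) ^ (2 * m) := by gcongr
      _ = Real.exp (1 + (2 * m : ℕ) * (7 * l)) := by rw [Real.exp_add, ← Real.exp_nat_mul]
      _ ≤ Real.exp (20 * l * (D + 2) + 1) := by
          refine Real.exp_le_exp.2 ?_
          push_cast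
          nlinarith
  have h1 := level1_zero W hW hc Y hY1 hYp 1 M m h.pos hm1 D (by linarith) x h.nonneg h.sum hb hM2
  have h2 : ∑ p ∈ W, ((range p \ rs (sp x M) p).card : ℝ) / p =
      ∑ p ∈ W, (((range p).filter fun a => cm x 1 M p a = 0).card : ℝ) / p :=
    Finset.sum_congr rfl fun p hp => by rw [sdiff_rs h (hW p hp)]
  rw [h2]
  refine h1.trans ?_
  have hexp : Real.exp (D / m) ≤ 2.7182818286 := by
    refine le_trans (Real.exp_le_exp.2 ?_) Real.exp_one_lt_d9.le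
    rw [div_le_one (by exact_mod_cast hm1)]; exact hmD
  calc 128 * (m : ℝ) * Real.exp (D / m) ≤ 128 * (2 * D) * 2.7182818286 := by
        gcongr
        linarith
    _ ≤ 800 * D := by nlinarith

/-- **(HB), safe regime**, literal form of 945's `Ok.HB` with `D0 = 100 L`, `E1 = 2 L` -/
theorem HB_S {l L lam0 xi : ℝ} (hl : 1 ≤ l) (hL : 1 ≤ L) (h0 : 0 ≤ lam0)
    (h1 : lam0 ≤ 1 / 640000) (h2 : 0 ≤ xi) (h3 : xi ≤ 1 / 160000) (W : Finset ℕ)
    (hW : ∀ p ∈ W, 0 < p) (hc : (W : Set ℕ).Pairwise Nat.Coprime)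
    (hY : ∀ p ∈ W, (p : ℝ) ≤ Real.exp (2 * l)) {Mm : ℕ}
    (hM : Real.exp (20 * l * (200 * L + 2) + 1) ≤ Mm) (d M : ℕ) (x : ℕ → ℝ) (hMM : Mm ≤ M)
    (hx : Law x 1 M) (hb : ∀ i < M, x (1 + i) ≤ Real.exp (2 * (100 * L)) / M) :
    ∑ p ∈ W, lam0 / l * klu x 1 M p + ∑ p ∈ W, omS xi p d (rs (sp x M) p) ≤
      kl0 x 1 M / 2 + 2 * L := by
  have hb' : ∀ i < M, x (1 + i) ≤ Real.exp (200 * L) / M := by
    intro i hi
    have := hb i hi
    rwa [show 2 * (100 * L) = 200 * L by ring] at this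
  have hM' : Real.exp (20 * l * (200 * L + 2) + 1) ≤ M := hM.trans (by exact_mod_cast hMM)
  have e1 := HBd_ei_safe hl (by linarith : (1 : ℝ) ≤ 200 * L) h0 W hW hc hY hM x 1 M hx hMM hb'
  simp only [zero_mul, zero_add] at e1
  have e2 := missing_safe hx hl (by linarith : (1 : ℝ) ≤ 200 * L) W hW hc hY hM' hb'
  have e3 : ∑ p ∈ W, omS xi p d (rs (sp x M) p) =
      xi * ∑ p ∈ W, ((range p \ rs (sp x M) p).card : ℝ) / p := by
    rw [Finset.mul_sum]; rfl
  rw [e3]
  have e4 := mul_le_mul_of_nonneg_left e2 h2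
  have e5 := kl0_nonneg hx
  have e6 : 3200 * lam0 * (200 * L) ≤ L := by nlinarith
  have e7 : xi * (800 * (200 * L)) ≤ L := by nlinarith
  linarith

/-- the parameters of the safe regime -/
noncomputable def PS (W : Finset ℕ) (lam : ℕ → ℕ) (l L lam0 xi eta : ℝ) (Mm : ℕ) : Par ℕ where
  I := W
  m := fun p => p
  c := fun _ => lam0 / l
  W := W
  om := omS xi
  lam := lam
  eta := eta
  D0 := 100 * L
  E1 := 2 * L
  Mm := Mm

/-- **all hypotheses on the parameters hold in the safe regime** -/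
theorem ok_S {l L lam0 xi eta : ℝ} (hl : 1 ≤ l) (hL : 1 ≤ L) (h0 : 0 ≤ lam0)
    (h1 : lam0 ≤ 1 / 640000) (h2 : 0 ≤ xi) (h3 : xi ≤ 1 / 160000) (he0 : 0 < eta) (he1 : eta ≤ 1)
    (W : Finset ℕ) (hW : ∀ p ∈ W, 0 < p) (hc : (W : Set ℕ).Pairwise Nat.Coprime)
    (hY : ∀ p ∈ W, (p : ℝ) ≤ Real.exp (2 * l)) {lam : ℕ → ℕ} (lam1 : lam 1 = 1)
    (lamm : ∀ d D, 1 ≤ d → 1 ≤ D → lam (d * D) = lam d * lam D)
    (lamd : ∀ d, 1 ≤ d → d ∣ lam d)
    (lamc : ∀ d p, 1 ≤ d → Nat.Coprime p d → Nat.Coprime p (lam d))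
    (lampos : ∀ d, 1 ≤ d → 0 < lam d) {Mm : ℕ}
    (hM : Real.exp (20 * l * (200 * L + 2) + 1) ≤ Mm) : Ok (PS W lam l L lam0 xi eta Mm) where
  hm := hW
  hc := fun _ _ => by unfold PS; positivity
  hW := hW
  om0 := fun p _ d S => omS_nonneg h2 p d S
  omt := fun p hp d D b S S' _ hD hpD h => omS_transport h2 (hW p hp) (lamc D p hD hpD) h d (d * D)
  lam1 := lam1
  lamm := lamm
  lamd := lamd
  lamc := lamc
  lam0 := lampos
  eta0 := he0
  eta1 := he1
  Mm1 := by
    have h4 : (1 : ℝ) < Real.exp (20 * l * (200 * L + 2) + 1) := by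
      have : 0 < 20 * l * (200 * L + 2) + 1 := by positivity
      exact Real.one_lt_exp_iff.2 this
    have h5 : (1 : ℝ) < (Mm : ℝ) := h4.trans_le hM
    have h6 : 1 < Mm := by exact_mod_cast h5
    exact h6
  D00 := by unfold PS; positivity
  E10 := by unfold PS; positivity
  HB := fun d M x _ hMM hx hb => HB_S hl hL h0 h1 h2 h3 W hW hc hY hM d M x hMM hx hb

end Vale.Agent.P042.H599
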