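import Vale.Agent.P042.H599.HB
set_option autoImplicit false

/-!
P042 [D]: level one for a law carried by one class modulo `D` (pull-back to an interval), and the
comparison of `KL (f || g)` with the two entropies relative to the uniform law.
-/

namespace Vale.Agent.P042.H599

open Finset

variable {nu : ℕ → ℝ} {A M : ℕ}

/-- pull-back of a law on `{A, ..., A+M-1}` to the progression `n0 + D j` -/
noncomputable def apl (nu : ℕ → ℝ) (A M n0 D j : ℕ) : ℝ :=
  if A ≤ n0 + D * j ∧ n0 + D * j < A + M then nu (n0 + D * j) else 0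

theorem sum_apl {n0 D V : ℕ} (hD : 0 < D)
    (hs : ∀ i < M, nu (A + i) ≠ 0 → ∃ j < V, A + i = n0 + D * j) (f : ℕ → ℝ) :
    ∑ j ∈ range V, apl nu A M n0 D j * f (n0 + D * j) =
      ∑ i ∈ range M, nu (A + i) * f (A + i) := by
  classical
  set g : ℕ → ℝ := fun n => if A ≤ n ∧ n < A + M then nu n * f n else 0 with hg
  have h1 : ∑ j ∈ range V, apl nu A M n0 D j * f (n0 + D * j) =
      ∑ j ∈ range V, g (n0 + D * j) := by
    refine Finset.sum_congr rfl fun j _ => ?_
    simp only [apl, hg, ite_mul, zero_mul]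
  have h2 : ∑ i ∈ range M, nu (A + i) * f (A + i) = ∑ n ∈ Ico A (A + M), g n := by
    rw [Finset.sum_Ico_eq_sum_range, Nat.add_sub_cancel_left]
    refine Finset.sum_congr rfl fun i hi => ?_
    rw [mem_range] at hi
    simp only [hg]
    rw [if_pos ⟨by omega, by omega⟩]
  have hinj : Set.InjOn (fun j => n0 + D * j) (range V : Set ℕ) := by
    intro a _ b _ hab
    have : D * a = D * b := by simpa using hab
    exact Nat.eq_of_mul_eq_mul_left hD this
  rw [h1, h2, ← Finset.sum_image (g := fun j => n0 + D * j) (f := g) hinj]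
  have h3 : ∀ n, n ∉ (range V).image (fun j => n0 + D * j) → g n = 0 := by
    intro n hn
    simp only [hg]
    split_ifs with h4
    · by_cases h5 : nu n = 0
      · rw [h5, zero_mul]
      · exfalso
        obtain ⟨i, rfl⟩ := Nat.exists_eq_add_of_le h4.1
        obtain ⟨j, hj, hj'⟩ := hs i (by omega) h5
        exact hn (Finset.mem_image.2 ⟨j, mem_range.2 hj, hj'.symm⟩)
    · rfl
  have h4 : ∀ n, n ∉ Ico A (A + M) → g n = 0 := by
    intro n hn
    simp only [hg]
    rw [if_neg]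
    intro h5
    exact hn (Finset.mem_Ico.2 h5)
  have e1 : ∑ n ∈ (range V).image (fun j => n0 + D * j), g n =
      ∑ n ∈ (range V).image (fun j => n0 + D * j) ∪ Ico A (A + M), g n :=
    Finset.sum_subset Finset.subset_union_left fun n _ hn => h3 n hn
  have e2 : ∑ n ∈ Ico A (A + M), g n =
      ∑ n ∈ (range V).image (fun j => n0 + D * j) ∪ Ico A (A + M), g n :=
    Finset.sum_subset Finset.subset_union_right fun n _ hn => h4 n hn
  rw [e1, e2]

theorem law_apl (h : Law nu A M) {n0 D V : ℕ} (hD : 0 < D) (hV : 0 < V)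
    (hs : ∀ i < M, nu (A + i) ≠ 0 → ∃ j < V, A + i = n0 + D * j) :
    Law (apl nu A M n0 D) 0 V where
  pos := hV
  nonneg := by
    intro i _
    rw [zero_add]
    unfold apl
    split_ifs with h1
    · obtain ⟨k, hk⟩ := Nat.exists_eq_add_of_le h1.1
      rw [hk]
      exact h.nonneg k (by omega)
    · exact le_rfl
  sum := by
    have := sum_apl hD hs (fun _ => 1)
    simp only [mul_one] at this
    simp only [zero_add]
    rw [this, h.sum]

theorem mod_lin {p D n0 a j : ℕ} (_hp : 0 < p) (hpD : p.Coprime D) (ha : a < p) :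
    (n0 + D * j) % p = (n0 + D * a) % p ↔ j % p = a := by
  constructor
  · intro h
    have h1 : n0 + D * j ≡ n0 + D * a [MOD p] := h
    have h2 : D * j ≡ D * a [MOD p] := Nat.ModEq.add_left_cancel' n0 h1
    have h3 : j ≡ a [MOD p] := Nat.ModEq.cancel_left_of_coprime hpD h2
    rw [Nat.ModEq, Nat.mod_eq_of_lt ha] at h3
    exact h3
  · intro h
    have h3 : j ≡ a [MOD p] := by rw [Nat.ModEq, Nat.mod_eq_of_lt ha]; exact h
    exact (h3.mul_left D).add_left n0

theorem cm_apl {n0 D V p a : ℕ} (hD : 0 < D) (hp : 0 < p) (hpD : p.Coprime D) (ha : a < p)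
    (hs : ∀ i < M, nu (A + i) ≠ 0 → ∃ j < V, A + i = n0 + D * j) :
    cm (apl nu A M n0 D) 0 V p a = cm nu A M p ((n0 + D * a) % p) := by
  have h1 := sum_apl hD hs (fun n => if n % p = (n0 + D * a) % p then (1 : ℝ) else 0)
  unfold cm
  have h2 : ∑ i ∈ range M, (if (A + i) % p = (n0 + D * a) % p then nu (A + i) else 0) =
      ∑ i ∈ range M, nu (A + i) * (if (A + i) % p = (n0 + D * a) % p then (1 : ℝ) else 0) :=
    Finset.sum_congr rfl fun i _ => by split_ifs <;> simp
  rw [h2, ← h1]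
  refine Finset.sum_congr rfl fun j _ => ?_
  rw [zero_add]
  by_cases h3 : j % p = a
  · rw [if_pos h3, if_pos ((mod_lin hp hpD ha).2 h3), mul_one]
  · rw [if_neg h3, if_neg (fun h4 => h3 ((mod_lin hp hpD ha).1 h4)), mul_zero]

theorem sum_affine {p D n0 : ℕ} (hp : 0 < p) (hpD : p.Coprime D) (f : ℕ → ℝ) :
    ∑ a ∈ range p, f ((n0 + D * a) % p) = ∑ a ∈ range p, f a := by
  have hinj : Set.InjOn (fun a => (n0 + D * a) % p) (range p : Set ℕ) := by
    intro a ha b hb hab
    have ha' : a < p := by simpa using ha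
    have hb' : b < p := by simpa using hb
    have := (mod_lin (n0 := n0) (j := a) hp hpD hb').1 hab
    rwa [Nat.mod_eq_of_lt ha'] at this
  rw [← Finset.sum_image (g := fun a => (n0 + D * a) % p) (f := f) hinj]
  congr 1
  refine Finset.eq_of_subset_of_card_le ?_ ?_
  · intro x hx
    obtain ⟨a, _, rfl⟩ := Finset.mem_image.1 hx
    exact mem_range.2 (Nat.mod_lt _ hp)
  · rw [Finset.card_image_of_injOn hinj]

theorem klu_apl {n0 D V p : ℕ} (hD : 0 < D) (hp : 0 < p) (hpD : p.Coprime D)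
    (hs : ∀ i < M, nu (A + i) ≠ 0 → ∃ j < V, A + i = n0 + D * j) :
    klu (apl nu A M n0 D) 0 V p = klu nu A M p := by
  unfold klu
  rw [← sum_affine (n0 := n0) hp hpD (fun a => cm nu A M p a * Real.log (p * cm nu A M p a))]
  refine Finset.sum_congr rfl fun a ha => ?_
  rw [cm_apl hD hp hpD (mem_range.1 ha) hs]

/-- **level one in a cell**: law carried by the progression `n0 + D j`, `j < V` -/
theorem level1_ap (h : Law nu A M) {n0 D V : ℕ} (hD : 0 < D) (hV : 0 < V)
    (hs : ∀ i < M, nu (A + i) ≠ 0 → ∃ j < V, A + i = n0 + D * j)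
    (W : Finset ℕ) (hW : ∀ p ∈ W, 0 < p) (hWD : ∀ p ∈ W, p.Coprime D)
    (hc : (W : Set ℕ).Pairwise Nat.Coprime) {Y : ℕ} (hY1 : 1 ≤ Y) (hY : ∀ p ∈ W, p ≤ Y)
    {m : ℕ} (hm : 1 ≤ m) {D' : ℝ} (hD' : 0 ≤ D') (hb : ∀ i < M, nu (A + i) ≤ Real.exp D' / V)
    (hM : 2 * (8 * (W.card : ℝ) * Y) ^ (2 * m) ≤ V) :
    ∑ p ∈ W, klu nu A M p ≤ (1 + Real.log Y) * (128 * m * Real.exp (D' / m)) := by
  have hb' : ∀ i < V, apl nu A M n0 D (0 + i) ≤ Real.exp D' / V := by
    intro i _
    rw [zero_add]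
    unfold apl
    split_ifs with h1
    · obtain ⟨k, hk⟩ := Nat.exists_eq_add_of_le h1.1
      rw [hk]
      exact hb k (by omega)
    · positivity
  have := level1_klu (law_apl h hD hV hs) W hW hc hY1 hY hm hD' hb' hM
  refine le_trans (le_of_eq ?_) this
  exact Finset.sum_congr rfl fun p hp => (klu_apl hD (hW p hp) (hWD p hp) hs).symm

/-! ### comparison of relative entropies -/

theorem phi_nonneg' {y : ℝ} (hy : 0 ≤ y) : 0 ≤ phi y := by
  unfold phi
  rcases hy.eq_or_lt with h | h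
  · rw [← h]; norm_num
  · have h1 := Real.log_le_sub_one_of_pos (inv_pos.2 h)
    rw [Real.log_inv] at h1
    have h2 : y * (-Real.log y) ≤ y * (y⁻¹ - 1) := mul_le_mul_of_nonneg_left h1 hy
    have h3 : y * (y⁻¹ - 1) = 1 - y := by rw [mul_sub, mul_inv_cancel₀ h.ne', mul_one]
    linarith

/-- Fenchel: `F x ≤ phi F + e^x - 1` -/
theorem fenchel {F : ℝ} (hF : 0 ≤ F) (x : ℝ) : F * x ≤ phi F + Real.exp x - 1 := by
  unfold phi
  rcases hF.eq_or_lt with h | h
  · rw [← h]; simp; positivity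
  · have h1 := Real.add_one_le_exp (x - Real.log F)
    have h2 : Real.exp (x - Real.log F) = Real.exp x / F := by
      rw [Real.exp_sub, Real.exp_log h]
    rw [h2, le_div_iff₀ h] at h1
    linarith

theorem phi_ge_one {G : ℝ} (hG : 1 ≤ G) : (G - 1) ^ 2 / G ≤ 2 * phi G := by
  have hG0 : 0 < G := by linarith
  have key := Real.le_log_one_add_of_nonneg (show (0 : ℝ) ≤ G - 1 by linarith)
  rw [show 1 + (G - 1) = G by ring, show G - 1 + 2 = G + 1 by ring,
    div_le_iff₀ (by linarith)] at key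
  unfold phi
  rw [div_le_iff₀ hG0]
  have h2 : 0 ≤ G - 1 := by linarith
  -- `2 G (G log G - G + 1) ≥ (G-1)^2`
  have h3 : (G - 1) ^ 2 ≤ (G + 1) * (G * Real.log G - G + 1) := by nlinarith
  have h4 : 0 ≤ G * Real.log G - G + 1 := phi_nonneg' hG0.le
  nlinarith

theorem exp_sq {x : ℝ} (h0 : 0 ≤ x) (h1 : x ≤ 1) : Real.exp x ≤ 1 + x + x ^ 2 := by
  have := Real.abs_exp_sub_one_sub_id_le (x := x) (by rw [abs_of_nonneg h0]; exact h1)
  have := abs_le.1 this
  linarith [this.2]

theorem exp_neg_sq {x : ℝ} (h0 : 0 ≤ x) (h1 : x ≤ 1) : Real.exp (-x) ≤ 1 - x + x ^ 2 := by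
  have := Real.abs_exp_sub_one_sub_id_le (x := -x) (by rw [abs_neg, abs_of_nonneg h0]; exact h1)
  have := abs_le.1 this
  nlinarith [this.2]

/-- the scalar inequality behind the comparison -/
theorem scalar {F G κ : ℝ} (hF : 0 ≤ F) (hκ : 0 < κ) (hκ1 : κ ≤ 1) (hG : κ ≤ G) :
    F * Real.log (F / G) - F + G ≤ (12 + 7 * Real.log (1 / κ)) * (phi F + phi G) := by
  have hG0 : 0 < G := by linarith
  have hL : 0 ≤ Real.log (1 / κ) := Real.log_nonneg (by rw [le_div_iff₀ hκ]; linarith)
  have hpF := phi_nonneg' hF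
  have hpG := phi_nonneg' hG0.le
  have heq : F * Real.log (F / G) - F + G = phi F + (F * (-Real.log G) + G - 1) := by
    unfold phi
    rcases hF.eq_or_lt with h | h
    · rw [← h]; simp
    · rw [Real.log_div h.ne' hG0.ne']; ring
  rw [heq]
  rcases le_total 1 G with h1 | h1
  · have h2 := fenchel hF (-Real.log G)
    rw [Real.exp_neg, Real.exp_log hG0] at h2
    have h3 := phi_ge_one h1
    have h4 : (G - 1) ^ 2 / G = G + G⁻¹ - 2 := by field_simp; ring
    rw [h4] at h3
    nlinarith [mul_nonneg hL (add_nonneg hpF hpG)]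
  · set x := -Real.log G with hx
    have hGx : G = Real.exp (-x) := by rw [hx, neg_neg, Real.exp_log hG0]
    have hx0 : 0 ≤ x := by
      have := Real.log_nonpos hG0.le h1
      linarith
    have hphiG : phi G = 1 - (1 + x) * G := by
      unfold phi; rw [hx]; ring
    rcases le_total x 1 with h5 | h5
    · have h2 := fenchel hF x
      have h6 := exp_sq hx0 h5
      have h7 := exp_neg_sq hx0 h5
      rw [← hGx] at h7
      -- `phi G ≥ x^2 / 6`
      have h8 : x ^ 2 ≤ 5.5 * phi G := by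
        have h9 : 1 + x + x ^ 2 / 2 ≤ Real.exp x := Real.quadratic_le_exp_of_nonneg hx0
        have h10 : phi G = G * (Real.exp x - 1 - x) := by
          rw [hphiG]
          have : G * Real.exp x = 1 := by rw [hGx, ← Real.exp_add]; simp
          linarith [this]
        have h11 : 1 / 2.75 ≤ G := by
          rw [hGx]
          have h12 : Real.exp 1 ≤ 2.75 := by linarith [Real.exp_one_lt_d9]
          have h13 : Real.exp (-1) ≤ Real.exp (-x) := Real.exp_le_exp.2 (by linarith)
          refine le_trans ?_ h13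
          rw [Real.exp_neg, one_div]
          exact inv_anti₀ (Real.exp_pos _) h12
        have h14 : 1 / 2.75 * (x ^ 2 / 2) ≤ phi G := by
          rw [h10]
          exact mul_le_mul h11 (by linarith) (by positivity) hG0.le
        linarith
      nlinarith [mul_nonneg hL (add_nonneg hpF hpG)]
    · have hxL : x ≤ Real.log (1 / κ) := by
        rw [one_div, Real.log_inv, hx]
        linarith [Real.log_le_log hκ hG]
      have h2 := fenchel hF 1
      rw [mul_one] at h2
      have h6 : 0.26 ≤ phi G := by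
        rw [hphiG, hGx]
        have h7 : (1 + x) / 2 ≤ Real.exp (x - 1) := by
          linarith [Real.add_one_le_exp (x - 1)]
        have h8 : Real.exp (-x) * Real.exp (x - 1) = Real.exp (-1) := by
          rw [← Real.exp_add]; congr 1; ring
        have h9 : Real.exp (-1) ≤ 0.37 := by
          rw [Real.exp_neg]
          have : (2.7182818283 : ℝ) ≤ Real.exp 1 := Real.exp_one_gt_d9.le
          calc (Real.exp 1)⁻¹ ≤ (2.7182818283 : ℝ)⁻¹ := inv_anti₀ (by norm_num) this
            _ ≤ 0.37 := by norm_num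
        have h10 := mul_le_mul_of_nonneg_left h7 (Real.exp_pos (-x)).le
        rw [h8] at h10
        linarith
      have h3 : Real.exp 1 ≤ 2.72 := by linarith [Real.exp_one_lt_d9]
      have h4 : F ≤ phi F + 7 * phi G := by linarith
      have h5' : F * x ≤ Real.log (1 / κ) * (phi F + 7 * phi G) := by
        calc F * x ≤ F * Real.log (1 / κ) := mul_le_mul_of_nonneg_left hxL hF
          _ = Real.log (1 / κ) * F := mul_comm _ _
          _ ≤ _ := mul_le_mul_of_nonneg_left h4 hL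
      nlinarith [mul_nonneg hL hpF, mul_nonneg hL hpG]

/-- **comparison of relative entropies** on `p` points -/
theorem kl_compare {p : ℕ} (hp : 0 < p) (f g : ℕ → ℝ) (hf : ∀ a < p, 0 ≤ f a)
    (hf1 : ∑ a ∈ range p, f a = 1) (hg1 : ∑ a ∈ range p, g a = 1) {κ : ℝ} (hκ : 0 < κ)
    (hκ1 : κ ≤ 1) (hg : ∀ a < p, (g a = 0 ∧ f a = 0) ∨ κ / p ≤ g a) :
    ∑ a ∈ range p, f a * Real.log (f a / g a) ≤
      (12 + 7 * Real.log (1 / κ)) * (av (fun a => phi (p * f a)) p + av (fun a => phi (p * g a)) p) := by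
  have hpR : (0 : ℝ) < p := by exact_mod_cast hp
  have hL : 0 ≤ Real.log (1 / κ) := Real.log_nonneg (by rw [le_div_iff₀ hκ]; linarith)
  have key : ∀ a ∈ range p, p * (f a * Real.log (f a / g a)) - p * f a + p * g a ≤
      (12 + 7 * Real.log (1 / κ)) * (phi (p * f a) + phi (p * g a)) := by
    intro a ha
    rcases hg a (mem_range.1 ha) with h | h
    · rw [h.1, h.2]
      simp only [zero_mul, mul_zero, sub_zero, add_zero]
      have := phi_nonneg' (le_refl (0 : ℝ))
      positivity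
    · have h1 : κ ≤ p * g a := by
        rwa [div_le_iff₀ hpR, mul_comm] at h
      have := scalar (mul_nonneg hpR.le (hf a (mem_range.1 ha))) hκ hκ1 h1
      rw [mul_div_mul_left _ _ hpR.ne'] at this
      linarith
  have h2 := Finset.sum_le_sum key
  rw [Finset.sum_add_distrib, Finset.sum_sub_distrib, ← Finset.mul_sum, ← Finset.mul_sum,
    ← Finset.mul_sum, hf1, hg1, ← Finset.mul_sum, Finset.sum_add_distrib] at h2
  unfold av
  rw [← add_div, ← mul_div_assoc, le_div_iff₀ hpR]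
  linarith

/-- **thin cells**: relative entropy of the cell law to the global law, for residues modulo `p` -/
theorem kl_cell {nu' : ℕ → ℝ} {A' M' : ℕ} (h : Law nu A M) (h' : Law nu' A' M') {p : ℕ}
    (hp : 0 < p) {κ : ℝ} (hκ : 0 < κ) (hκ1 : κ ≤ 1)
    (hg : ∀ a < p, (cm nu A M p a = 0 ∧ cm nu' A' M' p a = 0) ∨ κ / p ≤ cm nu A M p a) :
    ∑ a ∈ range p, cm nu' A' M' p a * Real.log (cm nu' A' M' p a / cm nu A M p a) ≤
      (12 + 7 * Real.log (1 / κ)) * (klu nu' A' M' p + klu nu A M p) := by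
  rw [klu_eq_av h hp, klu_eq_av h' hp]
  exact kl_compare hp _ _ (fun a _ => cm_nonneg h'.nonneg p a) (sum_cm h'.sum hp) (sum_cm h.sum hp)
    hκ hκ1 hg

/-! ### numerics of the safe regime -/

/-- level one, `l = log P`, primes at most `e^{2l}` -/
theorem level1_safe (h : Law nu A M) {l D : ℝ} (hl : 1 ≤ l) (hD : 1 ≤ D) (W : Finset ℕ)
    (hW : ∀ p ∈ W, 0 < p) (hc : (W : Set ℕ).Pairwise Nat.Coprime)
    (hY : ∀ p ∈ W, (p : ℝ) ≤ Real.exp (2 * l)) (hM : Real.exp (20 * l * (D + 2) + 1) ≤ M)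
    (hb : ∀ i < M, nu (A + i) ≤ Real.exp D / M) :
    ∑ p ∈ W, klu nu A M p ≤ 3200 * l * D := by
  have h1 := HBd_ei_safe hl hD (by linarith : (0 : ℝ) ≤ l) W hW hc hY hM nu A M h le_rfl hb
  simp only [div_self (by linarith : l ≠ 0), one_mul, zero_mul, zero_add] at h1
  exact h1

/-- level one in a progression, safe regime -/
theorem level1_ap_safe (h : Law nu A M) {n0 D V : ℕ} (hD : 0 < D) (hV : 0 < V)
    (hs : ∀ i < M, nu (A + i) ≠ 0 → ∃ j < V, A + i = n0 + D * j)
    {l D' : ℝ} (hl : 1 ≤ l) (hD' : 1 ≤ D') (W : Finset ℕ)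
    (hW : ∀ p ∈ W, 0 < p) (hWD : ∀ p ∈ W, p.Coprime D) (hc : (W : Set ℕ).Pairwise Nat.Coprime)
    (hY : ∀ p ∈ W, (p : ℝ) ≤ Real.exp (2 * l)) (hM : Real.exp (20 * l * (D' + 2) + 1) ≤ V)
    (hb : ∀ i < M, nu (A + i) ≤ Real.exp D' / V) :
    ∑ p ∈ W, klu nu A M p ≤ 3200 * l * D' := by
  have hb' : ∀ i < V, apl nu A M n0 D (0 + i) ≤ Real.exp D' / V := by
    intro i _
    rw [zero_add]
    unfold apl
    split_ifs with h1
    · obtain ⟨k, hk⟩ := Nat.exists_eq_add_of_le h1.1
      rw [hk]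
      exact hb k (by omega)
    · positivity
  have := level1_safe (law_apl h hD hV hs) hl hD' W hW hc hY hM hb'
  refine le_trans (le_of_eq ?_) this
  exact Finset.sum_congr rfl fun p hp => (klu_apl hD (hW p hp) (hWD p hp) hs).symm

/-- **thin cells, safe regime.** `nu` a law of density at most `e^{D1}`; `nu'` a law on the
progression `n0 + D j`, `j < V`, with `nu' ≤ nu / m` (e.g. `nu` conditioned to the cell, `m` its
mass) and `e^{-s} V ≤ M m`; atoms of `nu` modulo `p` are `0` or at least `κ / p`.  Then the total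
relative entropy of the residues modulo the primes of `W` (prime to `D`, at most `e^{2l}`) is at
most `(12 + 7 log (1/κ)) 3200 l (2 D1 + s)`. -/
theorem thin_cell (h : Law nu A M) {nu' : ℕ → ℝ} (h' : Law nu' A M) {n0 D V : ℕ} (hD : 0 < D)
    (hV : 0 < V) (hs : ∀ i < M, nu' (A + i) ≠ 0 → ∃ j < V, A + i = n0 + D * j)
    {l D1 s m κ : ℝ} (hl : 1 ≤ l) (hD1 : 1 ≤ D1) (hs0 : 0 ≤ s) (hm : 0 < m)
    (hle : ∀ i < M, nu' (A + i) ≤ nu (A + i) / m) (hVm : Real.exp (-s) * V ≤ M * m)
    (hb : ∀ i < M, nu (A + i) ≤ Real.exp D1 / M)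
    (hM : Real.exp (20 * l * (D1 + 2) + 1) ≤ M) (hVl : Real.exp (20 * l * (D1 + s + 2) + 1) ≤ V)
    (W : Finset ℕ) (hW : ∀ p ∈ W, 0 < p) (hWD : ∀ p ∈ W, p.Coprime D)
    (hc : (W : Set ℕ).Pairwise Nat.Coprime) (hY : ∀ p ∈ W, (p : ℝ) ≤ Real.exp (2 * l))
    (hκ : 0 < κ) (hκ1 : κ ≤ 1)
    (hg : ∀ p ∈ W, ∀ a < p, cm nu A M p a = 0 ∨ κ / p ≤ cm nu A M p a) :
    ∑ p ∈ W, ∑ a ∈ range p, cm nu' A M p a * Real.log (cm nu' A M p a / cm nu A M p a) ≤
      (12 + 7 * Real.log (1 / κ)) * (3200 * l * (2 * D1 + s)) := by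
  have hMR : (0 : ℝ) < M := by exact_mod_cast h.pos
  have hVR : (0 : ℝ) < V := by exact_mod_cast hV
  have hL : 0 ≤ Real.log (1 / κ) := Real.log_nonneg (by rw [le_div_iff₀ hκ]; linarith)
  have hb' : ∀ i < M, nu' (A + i) ≤ Real.exp (D1 + s) / V := by
    intro i hi
    refine (hle i hi).trans ?_
    rw [div_le_iff₀ hm]
    refine (hb i hi).trans ?_
    rw [div_le_iff₀ hMR, Real.exp_add]
    have h1 : Real.exp (-s) * V * (Real.exp s) ≤ M * m * Real.exp s :=
      mul_le_mul_of_nonneg_right hVm (Real.exp_pos _).le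
    have h2 : Real.exp (-s) * V * (Real.exp s) = V := by
      rw [mul_right_comm, ← Real.exp_add, neg_add_cancel, Real.exp_zero, one_mul]
    rw [h2] at h1
    have h3 : 1 ≤ M * m * Real.exp s / V := by rwa [le_div_iff₀ hVR, one_mul]
    calc Real.exp D1 = Real.exp D1 * 1 := (mul_one _).symm
      _ ≤ Real.exp D1 * (M * m * Real.exp s / V) :=
          mul_le_mul_of_nonneg_left h3 (Real.exp_pos _).le
      _ = Real.exp D1 * Real.exp s / V * m * M := by ring
  have habs : ∀ p ∈ W, ∀ a < p, (cm nu A M p a = 0 ∧ cm nu' A M p a = 0) ∨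
      κ / p ≤ cm nu A M p a := by
    intro p hp a ha
    rcases hg p hp a ha with h0 | h0
    · refine Or.inl ⟨h0, le_antisymm ?_ (cm_nonneg h'.nonneg p a)⟩
      have h1 : cm nu' A M p a ≤ cm nu A M p a / m := by
        unfold cm
        rw [Finset.sum_div]
        refine Finset.sum_le_sum fun i hi => ?_
        split_ifs
        · exact hle i (mem_range.1 hi)
        · simp
      rw [h0, zero_div] at h1
      exact h1
    · exact Or.inr h0
  have e1 := level1_ap_safe h' hD hV hs hl (by linarith : (1 : ℝ) ≤ D1 + s) W hW hWD hc hY hVl hb'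
  have e2 := level1_safe h hl hD1 W hW hc hY hM hb
  have e3 := Finset.sum_le_sum fun p hp => kl_cell h h' (hW p hp) hκ hκ1 (habs p hp)
  refine e3.trans ?_
  rw [← Finset.mul_sum, Finset.sum_add_distrib]
  refine mul_le_mul_of_nonneg_left ?_ (by positivity)
  nlinarith

end Vale.Agent.P042.H599
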