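import Vale.Agent.P042.H599.DenP
set_option autoImplicit false

/-!
P042 [D], power regime: (Q) for all cells which are not thin, with families of MEI terms.
-/

namespace Vale.Agent.P042.H599

open Finset Vale.Agent.P042.H945 Vale.Agent.P042.H305

variable {x y : ℕ → ℝ} {M : ℕ}
  {κ : Type} {f : Fam κ} {W : Finset ℕ} {c : ℕ → ℝ} {om : ℕ → ℕ → Finset ℕ → ℝ}
  {lam : ℕ → ℕ} {eta D0 E1 : ℝ} {Mm : ℕ} {N d : ℕ} {A0 : Finset ℤ} {a : ℤ}

theorem not_coprime_mem {D p : ℕ} (hD : 1 ≤ D) (hp : p.Prime) (h : ¬ Nat.Coprime p D) :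
    p ∈ D.primeFactors := by
  rw [Nat.mem_primeFactors]
  refine ⟨hp, ?_, by omega⟩
  have := (Nat.Prime.coprime_iff_not_dvd hp).not.1 h
  rwa [not_not] at this

theorem qR_eq {D : ℕ} (hD : 1 ≤ D) {R : Finset ℕ} (hR : ∀ p ∈ R, p.Prime) :
    qR D R = ∏ p ∈ D.primeFactors with p ∈ R, p := by
  unfold qR
  refine Finset.prod_congr ?_ fun _ _ => rfl
  ext p
  rw [Finset.mem_filter, Finset.mem_filter]
  constructor
  · rintro ⟨h1, h2⟩
    exact ⟨not_coprime_mem hD (hR p h1) h2, h1⟩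
  · rintro ⟨h1, h2⟩
    refine ⟨h2, ?_⟩
    rw [Nat.Prime.coprime_iff_not_dvd (Nat.prime_of_mem_primeFactors h1), not_not]
    exact Nat.dvd_of_mem_primeFactors h1

theorem prod_sub_dvd {D : ℕ} {T : Finset ℕ} (hT : T ⊆ D.primeFactors) : ∏ p ∈ T, p ∣ D :=
  Finset.prod_primes_dvd D (fun _ hp => (Nat.prime_of_mem_primeFactors (hT hp)).prime)
    fun _ hp => Nat.dvd_of_mem_primeFactors (hT hp)

theorem lam_dvd_le (hlamm : ∀ d D, 1 ≤ d → 1 ≤ D → lam (d * D) = lam d * lam D)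
    (hlampos : ∀ d, 1 ≤ d → 0 < lam d) {D q : ℕ} (hD : 1 ≤ D) (h : q ∣ D) : lam q ≤ lam D := by
  obtain ⟨k, rfl⟩ := h
  have hq : 1 ≤ q := Nat.pos_of_ne_zero (by rintro rfl; simp at hD)
  have hk : 1 ≤ k := Nat.pos_of_ne_zero (by rintro rfl; simp at hD)
  rw [hlamm _ _ hq hk]
  exact Nat.le_mul_of_pos_right _ (hlampos _ hk)

/-- **(Q), power regime, cells which are not thin** -/
theorem cell_P {L : ℝ} (hm : Mx (PP f W c om lam eta D0 E1 Mm) N A0 d a M x L)
    (hW : ∀ p ∈ W, p.Prime) (hf : ∀ k ∈ f.F, ∀ p ∈ f.W k, p.Prime) (hfo : FamOk f Mm)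
    (hc0 : ∀ p ∈ W, 0 ≤ c p) (hc1 : ∀ p ∈ W, c p ≤ 1 / 4) {OB : ℝ}
    (hOB : ∀ S, Om (PP f W c om lam eta D0 E1 Mm) d S ≤ OB) {omx : ℕ → ℝ}
    (homx : ∀ p ∈ W, ∀ S, om p d S ≤ omx p) (homx0 : ∀ p, 0 ≤ omx p) (hD16 : 16 ≤ D0)
    {Er : ℝ} (hEr : Ers (PP f W c om lam eta D0 E1 Mm) M L OB ≤ Er) {D w u v : ℕ} (hD : 1 ≤ D)
    (hu : 1 ≤ u) (hv : v ≤ M) (huv : 2 * Mm * lam D ≤ v + 1 - u)
    (hDe : (D : ℝ) ≤ Real.exp (D0 / 16)) {S : ℕ → Prop}
    (hS : ∀ n, S n → Gd (PP f W c om lam eta D0 E1 Mm) M x n ∧ u ≤ n ∧ n ≤ v ∧ n % D = w)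
    (hmS : Real.exp (-(D0 / 4)) * ((v + 1 - u : ℕ) : ℝ) ≤ D * (ms x M S * M)) :
    0 < ms x M S ∧
    Real.log (D * ms x M S * M / ((v + 1 - u : ℕ) : ℝ)) +
      ∑ p ∈ W with Nat.Coprime p D, c p * klc (rst x M S) x M p ≤
      eta * (Real.log M - Real.log ((v + 1 - u : ℕ) : ℝ)) + eta * Real.log (lam D) +
        ∑ p ∈ D.primeFactors, alp lam eta D0 Er omx p + Er := by
  classical
  have hok := hm.ok
  have hx := hm.mx.1.law
  have hM0 : 0 < M := hx.pos
  have hM1 : (1 : ℝ) ≤ M := by exact_mod_cast hM0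
  have hDR : (1 : ℝ) ≤ D := by exact_mod_cast hD
  have hlampos : ∀ d, 1 ≤ d → 0 < lam d := hok.lam0
  have hlamm : ∀ d D, 1 ≤ d → 1 ≤ D → lam (d * D) = lam d * lam D := hok.lamm
  have heta : 0 < eta := hok.eta0
  have hMm : 2 ≤ Mm := hok.Mm1
  have hlamR : ∀ d : ℕ, 1 ≤ d → (1 : ℝ) ≤ lam d := fun d hd => by exact_mod_cast hlampos d hd
  have h3 : (PP f W c om lam eta D0 E1 Mm).D0 = D0 := rfl
  have hEr0 : 0 ≤ Er := by
    refine le_trans ?_ hEr
    unfold Ers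
    refine Err_nonneg hok hM0 hm.L0 (OB_nonneg hm hOB) ?_ (by positivity)
    have : 1 ≤ Real.exp D0 := Real.one_le_exp (by linarith)
    show 1 ≤ Real.exp D0 * M
    nlinarith
  have hα : ∀ p ∈ D.primeFactors, 0 ≤ alp lam eta D0 Er omx p := fun p hp => by
    have h1 := Real.log_nonneg (hlamR p (Nat.prime_of_mem_primeFactors hp).one_lt.le)
    have h2 := homx0 p
    unfold alp
    positivity
  have hV : 0 < v + 1 - u := by
    have h1 := hlampos D hD
    have : 0 < 2 * Mm * lam D := by positivity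
    omega
  have hV' : (1 : ℝ) ≤ ((v + 1 - u : ℕ) : ℝ) := by exact_mod_cast hV
  have hpos : 0 < ms x M S := by
    have h1 : 0 < (D : ℝ) * (ms x M S * M) := lt_of_lt_of_le (by positivity) hmS
    have h2 : 0 ≤ ms x M S := ms_nonneg hx S
    rcases h2.eq_or_lt with h3 | h3
    · rw [← h3] at h1; simp at h1
    · exact h3
  have key := eventF hm hD hu hv huv hS hmS hW hf hfo hOB homx
  -- densities
  have hdens : ∀ T : Finset ℕ, T ⊆ D.primeFactors → ∀ b,
      Real.log (((∏ p ∈ T, p : ℕ) : ℝ) * cm x 1 M (∏ p ∈ T, p) b) ≤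
        ∑ p ∈ T, alp lam eta D0 Er omx p := by
    intro T hT b
    have hdvd := prod_sub_dvd hT
    refine log_le_of_exp (mul_nonneg (Nat.cast_nonneg _) (cm_nonneg hx.nonneg _ _))
      (Finset.sum_nonneg fun p hp => hα p (hT hp)) ?_
    refine dens hm hW hf hfo hc0 hc1 hOB homx homx0 hD16 hEr T
      (fun p hp => Nat.prime_of_mem_primeFactors (hT hp)) ?_ ?_ b
    · refine le_trans ?_ hDe
      exact_mod_cast Nat.le_of_dvd hD hdvd
    · have h1 := lam_dvd_le hlamm hlampos hD hdvd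
      have h2 := Nat.mul_le_mul_left (2 * Mm) h1
      omega
  have hsub : W.filter (fun p => ¬ Nat.Coprime p D) ⊆ D.primeFactors := fun p hp => by
    obtain ⟨h1, h2⟩ := Finset.mem_filter.1 hp
    exact not_coprime_mem hD (hW p h1) h2
  have hB1 : ∑ p ∈ W with ¬ Nat.Coprime p D, c p * Real.log (p * cm x 1 M p (w % p)) ≤
      1 / 4 * ∑ p ∈ D.primeFactors, alp lam eta D0 Er omx p := by
    rw [Finset.mul_sum]
    refine le_trans (Finset.sum_le_sum fun p hp => ?_)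
      (Finset.sum_le_sum_of_subset_of_nonneg hsub fun p hp _ =>
        mul_nonneg (by norm_num) (hα p hp))
    have hpD := hsub hp
    have hpW := (Finset.mem_filter.1 hp).1
    have h1 := hdens {p} (Finset.singleton_subset_iff.2 hpD) (w % p)
    rw [Finset.prod_singleton, Finset.sum_singleton] at h1
    have h2 := mul_le_mul_of_nonneg_left h1 (hc0 p hpW)
    have h4 := mul_le_mul_of_nonneg_right (hc1 p hpW) (hα p hpD)
    linarith
  have hB2 : ∑ i ∈ fI f, fc f i * Real.log (qR D i.2 * cm x 1 M (qR D i.2) (w % qR D i.2)) ≤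
      1 / 4 * ∑ p ∈ D.primeFactors, alp lam eta D0 Er omx p := by
    refine le_trans (Finset.sum_le_sum fun i hi => ?_) (fam_sum hfo D.primeFactors _ hα)
    have hi' := hi
    rw [mem_fI] at hi'
    have hR : ∀ p ∈ i.2, p.Prime := fun p hp => hf _ hi'.1 p (hi'.2.1 hp)
    rw [qR_eq hD hR]
    exact mul_le_mul_of_nonneg_left (hdens _ (Finset.filter_subset _ _) _) (fc_nonneg hfo hi)
  have hB3 : ∑ p ∈ W with ¬ Nat.Coprime p D, omx p ≤
      1 / 2 * ∑ p ∈ D.primeFactors, alp lam eta D0 Er omx p := by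
    rw [Finset.mul_sum]
    refine le_trans (Finset.sum_le_sum_of_subset_of_nonneg hsub fun p _ _ => homx0 p)
      (Finset.sum_le_sum fun p hp => ?_)
    have h1 := Real.log_nonneg (hlamR p (Nat.prime_of_mem_primeFactors hp).one_lt.le)
    have h2 : 0 ≤ eta * Real.log (lam p) := by positivity
    have h4 := Real.exp_pos (-(3 / 16 * D0))
    unfold alp
    linarith
  have hErr : Err (PP f W c om lam eta D0 E1 Mm) M L OB (1 / ms x M S)
      (lam D / ((v + 1 - u : ℕ) : ℝ)) ≤ Er := by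
    refine le_trans (Err_le_Ers hok hM0 hpos huv ?_) hEr
    rw [h3]
    have h5 : Real.exp (-(D0 / 4)) ≤ Real.exp (D0 / 16) * (ms x M S * M) := by
      calc Real.exp (-(D0 / 4)) ≤ Real.exp (-(D0 / 4)) * ((v + 1 - u : ℕ) : ℝ) :=
            le_mul_of_one_le_right (Real.exp_pos _).le hV'
        _ ≤ D * (ms x M S * M) := hmS
        _ ≤ Real.exp (D0 / 16) * (ms x M S * M) :=
            mul_le_mul_of_nonneg_right hDe (by positivity)
    have h6 := mul_le_mul_of_nonneg_left h5 (Real.exp_pos (-(D0 / 16))).le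
    rw [← mul_assoc, ← Real.exp_add, ← Real.exp_add, neg_add_cancel, Real.exp_zero, one_mul] at h6
    exact le_trans (Real.exp_le_exp.2 (by linarith)) h6
  refine ⟨hpos, ?_⟩
  have hlog : Real.log (D * ms x M S * M / ((v + 1 - u : ℕ) : ℝ)) =
      Real.log D + Real.log (ms x M S) + Real.log M - Real.log ((v + 1 - u : ℕ) : ℝ) := by
    rw [Real.log_div (by positivity) (by positivity), Real.log_mul (by positivity) (by positivity),
      Real.log_mul (by positivity) hpos.ne']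
  rw [hlog]
  linarith

end Vale.Agent.P042.H599
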