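import Vale.Agent.P042.H599.ScF
import Vale.Agent.P042.H305.Cons
set_option autoImplicit false

/-!
P042 [D], power regime: density of the residue classes at the maximiser, with families.
-/

namespace Vale.Agent.P042.H599

open Finset Vale.Agent.P042.H945 Vale.Agent.P042.H305

variable {x y : ℕ → ℝ} {M : ℕ}

/-! ### Bernoulli weights -/

theorem sum_bwt_mem (t : ℕ → ℝ) (W : Finset ℕ) {p : ℕ} (hp : p ∈ W) :
    ∑ R ∈ W.powerset, bwt t W R * (if p ∈ R then 1 else 0) = t p := by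
  classical
  set s : ℕ → ℝ := fun q => if q = p then 0 else 1 - t q with hs
  have h1 : ∀ R ∈ W.powerset, bwt t W R * (if p ∈ R then 1 else 0) =
      (∏ q ∈ R, t q) * ∏ q ∈ W \ R, s q := by
    intro R hR
    by_cases h : p ∈ R
    · rw [if_pos h, mul_one]
      unfold bwt
      congr 1
      refine Finset.prod_congr rfl fun q hq => ?_
      rw [hs]
      beta_reduce
      rw [if_neg]
      rintro rfl
      exact (Finset.mem_sdiff.1 hq).2 h
    · rw [if_neg h, mul_zero]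
      rw [Finset.prod_eq_zero (i := p) (s := W \ R) (Finset.mem_sdiff.2 ⟨hp, h⟩), mul_zero]
      rw [hs]; simp
  rw [Finset.sum_congr rfl h1, ← Finset.prod_add]
  rw [← Finset.mul_prod_erase W (fun q => t q + s q) hp]
  have h2 : ∏ q ∈ W.erase p, (t q + s q) = 1 := by
    refine Finset.prod_eq_one fun q hq => ?_
    rw [hs]
    beta_reduce
    rw [if_neg (Finset.ne_of_mem_erase hq)]
    ring
  rw [h2, mul_one]
  rw [hs]; simp

/-- the weight of the MEI terms containing a given prime -/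
theorem fam_mass {κ : Type} {f : Fam κ} {Mm : ℕ} (h : FamOk f Mm) (p : ℕ) :
    ∑ i ∈ fI f, fc f i * (if p ∈ i.2 then 1 else 0) ≤ 1 / 4 := by
  classical
  have h1 := sum_fI f fun _ R => if p ∈ R then (1 : ℝ) else 0
  rw [h1]
  refine le_trans (Finset.sum_le_sum fun k hk => ?_) h.hω1
  have h2 : ∑ R ∈ (f.W k).powerset, bwt (f.t k) (f.W k) R *
      (if ∏ p ∈ R, p ≤ f.B k then (if p ∈ R then (1 : ℝ) else 0) else 0) ≤
      ∑ R ∈ (f.W k).powerset, bwt (f.t k) (f.W k) R * (if p ∈ R then 1 else 0) := by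
    refine Finset.sum_le_sum fun R hR => ?_
    have h3 := bwt_nonneg (h.ht0 k hk) (h.ht1 k hk) (Finset.mem_powerset.1 hR)
    refine mul_le_mul_of_nonneg_left ?_ h3
    split_ifs <;> norm_num
  have hω := h.hω k hk
  have hK0 : (0 : ℝ) ≤ f.K k := by positivity
  calc f.ω k * f.K k * ∑ R ∈ (f.W k).powerset, bwt (f.t k) (f.W k) R *
        (if ∏ p ∈ R, p ≤ f.B k then (if p ∈ R then (1 : ℝ) else 0) else 0)
      ≤ f.ω k * f.K k * ∑ R ∈ (f.W k).powerset,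
          bwt (f.t k) (f.W k) R * (if p ∈ R then 1 else 0) :=
        mul_le_mul_of_nonneg_left h2 (by positivity)
    _ ≤ f.ω k := by
        by_cases hp : p ∈ f.W k
        · rw [sum_bwt_mem _ _ hp]
          have := h.htK k hk p hp
          calc f.ω k * f.K k * f.t k p = f.ω k * (f.K k * f.t k p) := by ring
            _ ≤ f.ω k * 1 := mul_le_mul_of_nonneg_left this hω
            _ = f.ω k := mul_one _
        · rw [Finset.sum_eq_zero, mul_zero]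
          · exact hω
          · intro R hR
            rw [if_neg, mul_zero]
            exact fun h4 => hp (Finset.mem_powerset.1 hR h4)

/-- the families see each prime with total weight at most `1/4` -/
theorem fam_sum {κ : Type} {f : Fam κ} {Mm : ℕ} (h : FamOk f Mm) (T : Finset ℕ) (α : ℕ → ℝ)
    (hα : ∀ p ∈ T, 0 ≤ α p) :
    ∑ i ∈ fI f, fc f i * ∑ p ∈ T with p ∈ i.2, α p ≤ 1 / 4 * ∑ p ∈ T, α p := by
  classical
  have h1 : ∀ i ∈ fI f, fc f i * ∑ p ∈ T with p ∈ i.2, α p =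
      ∑ p ∈ T, α p * (fc f i * (if p ∈ i.2 then 1 else 0)) := by
    intro i _
    rw [Finset.sum_filter, Finset.mul_sum]
    refine Finset.sum_congr rfl fun p _ => ?_
    split_ifs <;> ring
  rw [Finset.sum_congr rfl h1, Finset.sum_comm, Finset.mul_sum]
  refine Finset.sum_le_sum fun p hp => ?_
  rw [← Finset.mul_sum, mul_comm (1 / 4 : ℝ)]
  exact mul_le_mul_of_nonneg_left (fam_mass h p) (hα p hp)

/-! ### classes and masses -/

theorem cm_eq_ms (D b : ℕ) : cm x 1 M D b = ms x M (fun n => n % D = b) := by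
  classical
  unfold cm ms SM
  refine Finset.sum_congr rfl fun i _ => ?_
  beta_reduce
  by_cases h : (1 + i) % D = b
  · rw [if_pos h, if_pos h]
  · rw [if_neg h, if_neg h]

theorem lam_prod {lam : ℕ → ℕ} (lam1 : lam 1 = 1)
    (lamm : ∀ d D, 1 ≤ d → 1 ≤ D → lam (d * D) = lam d * lam D) (T : Finset ℕ)
    (hT : ∀ p ∈ T, 1 ≤ p) : lam (∏ p ∈ T, p) = ∏ p ∈ T, lam p := by
  classical
  induction T using Finset.induction_on with
  | empty => simpa using lam1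
  | insert a s ha ih =>
    rw [Finset.prod_insert ha, Finset.prod_insert ha, lamm, ih]
    · exact fun p hp => hT p (Finset.mem_insert_of_mem hp)
    · exact hT a (Finset.mem_insert_self _ _)
    · exact Nat.succ_le_of_lt (Finset.prod_pos fun p hp => hT p (Finset.mem_insert_of_mem hp))

section dens

variable {κ : Type} {f : Fam κ} {W : Finset ℕ} {c : ℕ → ℝ} {om : ℕ → ℕ → Finset ℕ → ℝ}
  {lam : ℕ → ℕ} {eta D0 E1 : ℝ} {Mm : ℕ} {N d : ℕ} {A0 : Finset ℤ} {a : ℤ}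

/-- the difference of the support terms -/
theorem Om_sub (hm : Ok (PP f W c om lam eta D0 E1 Mm)) (hd : 1 ≤ d) {D : ℕ}
    (hsub : sp y M ⊆ sp x M) {omx : ℕ → ℝ} (homx : ∀ p ∈ W, ∀ S, om p d S ≤ omx p) :
    Om (PP f W c om lam eta D0 E1 Mm) d (sp x M) -
      Omc (PP f W c om lam eta D0 E1 Mm) d D M y ≤ ∑ p ∈ W with ¬ Nat.Coprime p D, omx p := by
  unfold Om Omc
  have h1 : ∑ p ∈ (PP f W c om lam eta D0 E1 Mm).W,
      (PP f W c om lam eta D0 E1 Mm).om p d (rs (sp x M) p) =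
      ∑ p ∈ W with Nat.Coprime p D, om p d (rs (sp x M) p) +
      ∑ p ∈ W with ¬ Nat.Coprime p D, om p d (rs (sp x M) p) :=
    (Finset.sum_filter_add_sum_filter_not W _ _).symm
  rw [h1]
  have h2 : ∑ p ∈ W with Nat.Coprime p D, om p d (rs (sp x M) p) ≤
      ∑ p ∈ (PP f W c om lam eta D0 E1 Mm).W with Nat.Coprime p D,
        (PP f W c om lam eta D0 E1 Mm).om p d (rs (sp y M) p) := by
    refine Finset.sum_le_sum fun p hp => ?_
    exact om_anti hm hd (Finset.mem_filter.1 hp).1 hsub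
  have h3 : ∑ p ∈ W with ¬ Nat.Coprime p D, om p d (rs (sp x M) p) ≤
      ∑ p ∈ W with ¬ Nat.Coprime p D, omx p :=
    Finset.sum_le_sum fun p hp => homx p (Finset.mem_filter.1 hp).1 _
  linarith

/-- **the master inequality for an event inside one cell, with families** -/
theorem eventF {L : ℝ} (hm : Mx (PP f W c om lam eta D0 E1 Mm) N A0 d a M x L) {D w u v : ℕ}
    (hD : 1 ≤ D) (hu : 1 ≤ u) (hv : v ≤ M) (huv : 2 * Mm * lam D ≤ v + 1 - u) {S : ℕ → Prop}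
    (hS : ∀ n, S n → Gd (PP f W c om lam eta D0 E1 Mm) M x n ∧ u ≤ n ∧ n ≤ v ∧ n % D = w)
    (hmS : Real.exp (-(D0 / 4)) * ((v + 1 - u : ℕ) : ℝ) ≤ D * (ms x M S * M))
    (hW : ∀ p ∈ W, p.Prime) (hf : ∀ k ∈ f.F, ∀ p ∈ f.W k, p.Prime)
    (hfo : FamOk f Mm) {OB : ℝ} (hOB : ∀ S, Om (PP f W c om lam eta D0 E1 Mm) d S ≤ OB)
    {omx : ℕ → ℝ} (homx : ∀ p ∈ W, ∀ S, om p d S ≤ omx p) :
    (1 - eta) * (Real.log M - Real.log ((v + 1 - u : ℕ) : ℝ)) + Real.log D -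
        eta * Real.log (lam D) + ∑ p ∈ W with Nat.Coprime p D, c p * klc (rst x M S) x M p ≤
      -Real.log (ms x M S) +
        ∑ p ∈ W with ¬ Nat.Coprime p D, c p * Real.log (p * cm x 1 M p (w % p)) +
        ∑ i ∈ fI f, fc f i * Real.log (qR D i.2 * cm x 1 M (qR D i.2) (w % qR D i.2)) +
        ∑ p ∈ W with ¬ Nat.Coprime p D, omx p +
        Err (PP f W c om lam eta D0 E1 Mm) M L OB (1 / ms x M S)
          (lam D / ((v + 1 - u : ℕ) : ℝ)) := by
  have hx := hm.mx.1.law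
  have hlam : 0 < lam D := hm.ok.lam0 D hD
  have hMm : 2 ≤ Mm := hm.ok.Mm1
  have hc := comp_rst (Q := PP f W c om lam eta D0 E1 Mm) hx hD hu hv huv hlam
    (le_trans (by norm_num) hMm) hS hmS
  have hV : 0 < v + 1 - u := by
    have : 0 < 2 * Mm * lam D := by positivity
    omega
  have hV' : (0 : ℝ) < ((v + 1 - u : ℕ) : ℝ) := by exact_mod_cast hV
  have hpos : 0 < ms x M S := by
    have h1 : 0 < (D : ℝ) * (ms x M S * M) := lt_of_lt_of_le (by positivity) hmS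
    have h2 : 0 ≤ ms x M S := ms_nonneg hx S
    rcases h2.eq_or_lt with h3 | h3
    · rw [← h3] at h1; simp at h1
    · exact h3
  have hle : ms x M S ≤ 1 := ms_le_one hx S
  have hxn := law_nonneg hm.mx.1
  have h1 := cellF hm hc hW hf (fun i hi => fc_nonneg hfo hi) (K := 1 / ms x M S)
    (by rw [le_div_iff₀ hpos]; linarith)
    (fun n => by
      by_cases h1 : S n
      · rw [rst_of h1, div_mul_eq_mul_div, one_mul]
      · rw [rst_not h1]
        have := hxn n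
        positivity) hOB
  rw [rst_kl2 hx hpos] at h1
  have hsub : sp (rst x M S) M ⊆ sp x M := by
    intro n hn
    unfold sp at hn ⊢
    obtain ⟨h3, h4⟩ := Finset.mem_filter.1 hn
    exact Finset.mem_filter.2 ⟨h3, (rst_ne h4).2⟩
  have h2 := Om_sub hm.ok hm.mx.1.hd (D := D) hsub homx
  linarith

end dens

theorem ms_Icc (S : ℕ → Prop) : ms x M S = ms x M (fun n => (1 ≤ n ∧ n ≤ M) ∧ S n) := by
  classical
  unfold ms SM
  refine Finset.sum_congr rfl fun i hi => ?_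
  rw [mem_range] at hi
  beta_reduce
  have h0 : 1 ≤ 1 + i ∧ 1 + i ≤ M := ⟨by omega, by omega⟩
  by_cases h : S (1 + i)
  · rw [if_pos h, if_pos ⟨h0, h⟩]
  · rw [if_neg h, if_neg fun h' => h h'.2]

theorem lam_le {lam : ℕ → ℕ} (lamm : ∀ d D, 1 ≤ d → 1 ≤ D → lam (d * D) = lam d * lam D)
    (lampos : ∀ d, 1 ≤ d → 0 < lam d) {T T' : Finset ℕ} (hT : ∀ p ∈ T, 1 ≤ p) (h : T' ⊆ T) :
    lam (∏ p ∈ T', p) ≤ lam (∏ p ∈ T, p) := by
  have h1 : 1 ≤ ∏ p ∈ T', p := Nat.succ_le_of_lt (Finset.prod_pos fun p hp => hT p (h hp))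
  have h2 : 1 ≤ ∏ p ∈ T \ T', p :=
    Nat.succ_le_of_lt (Finset.prod_pos fun p hp => hT p (Finset.mem_sdiff.1 hp).1)
  rw [← Finset.prod_sdiff h, lamm _ _ h2 h1]
  exact Nat.le_mul_of_pos_left _ (lampos _ h2)

theorem prod_le_of_subset {T T' : Finset ℕ} (hT : ∀ p ∈ T, 1 ≤ p) (h : T' ⊆ T) :
    ∏ p ∈ T', p ≤ ∏ p ∈ T, p := by
  rw [← Finset.prod_sdiff h]
  exact Nat.le_mul_of_pos_left _
    (Finset.prod_pos fun p hp => hT p (Finset.mem_sdiff.1 hp).1)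

theorem mem_of_not_coprime {T : Finset ℕ} (hT : ∀ p ∈ T, p.Prime) {p : ℕ} (hp : p.Prime)
    (h : ¬ Nat.Coprime p (∏ q ∈ T, q)) : p ∈ T := by
  have h1 : p ∣ ∏ q ∈ T, q := by
    have := (Nat.Prime.coprime_iff_not_dvd hp).not.1 h
    rwa [not_not] at this
  obtain ⟨q, hq, hpq⟩ := (hp.prime.dvd_finsetProd_iff _).1 h1
  rwa [(Nat.prime_dvd_prime_iff_eq hp (hT q hq)).1 hpq]

theorem not_coprime_of_mem {T : Finset ℕ} (hT : ∀ p ∈ T, p.Prime) {p : ℕ} (hp : p ∈ T) :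
    ¬ Nat.Coprime p (∏ q ∈ T, q) := by
  rw [Nat.Prime.coprime_iff_not_dvd (hT p hp), not_not]
  exact Finset.dvd_prod_of_mem _ hp

theorem qR_prod {T R : Finset ℕ} (hT : ∀ p ∈ T, p.Prime) (hR : ∀ p ∈ R, p.Prime) :
    qR (∏ q ∈ T, q) R = ∏ p ∈ T with p ∈ R, p := by
  unfold qR
  refine Finset.prod_congr ?_ fun _ _ => rfl
  ext p
  rw [Finset.mem_filter, Finset.mem_filter]
  constructor
  · rintro ⟨h1, h2⟩
    exact ⟨mem_of_not_coprime hT (hR p h1) h2, h1⟩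
  · rintro ⟨h1, h2⟩
    exact ⟨h2, not_coprime_of_mem hT h1⟩

section dens2

variable {κ : Type} {f : Fam κ} {W : Finset ℕ} {c : ℕ → ℝ} {om : ℕ → ℕ → Finset ℕ → ℝ}
  {lam : ℕ → ℕ} {eta D0 E1 : ℝ} {Mm : ℕ} {N d : ℕ} {A0 : Finset ℤ} {a : ℤ}

theorem log_le_of_exp {z t : ℝ} (hz : 0 ≤ z) (ht : 0 ≤ t) (h : z ≤ Real.exp t) :
    Real.log z ≤ t := by
  rcases hz.eq_or_lt with h0 | h0
  · rw [← h0, Real.log_zero]; exact ht
  · rwa [Real.log_le_iff_le_exp h0]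

/-- the EI part of the induction step -/
theorem dens_A1 (hx : Law x 1 M) (hW : ∀ p ∈ W, p.Prime) (hc0 : ∀ p ∈ W, 0 ≤ c p)
    (hc1 : ∀ p ∈ W, c p ≤ 1 / 4) {T : Finset ℕ} (hT : ∀ p ∈ T, p.Prime) {α : ℕ → ℝ}
    (hα : ∀ p ∈ T, 0 ≤ α p)
    (ih : ∀ T' ⊂ T, ∀ b, ((∏ p ∈ T', p : ℕ) : ℝ) * cm x 1 M (∏ p ∈ T', p) b ≤
      Real.exp (∑ p ∈ T', α p)) {b : ℕ} (hb : b < ∏ p ∈ T, p)
    (hs : ∑ p ∈ T, α p ≤
      Real.log (((∏ p ∈ T, p : ℕ) : ℝ) * cm x 1 M (∏ p ∈ T, p) b)) :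
    ∑ p ∈ W with ¬ Nat.Coprime p (∏ p ∈ T, p), c p * Real.log (p * cm x 1 M p (b % p)) ≤
      Real.log (((∏ p ∈ T, p : ℕ) : ℝ) * cm x 1 M (∏ p ∈ T, p) b) / 4 := by
  set s := Real.log (((∏ p ∈ T, p : ℕ) : ℝ) * cm x 1 M (∏ p ∈ T, p) b) with hsd
  have hs0 : 0 ≤ s := (Finset.sum_nonneg hα).trans hs
  have hsubT : W.filter (fun p => ¬ Nat.Coprime p (∏ p ∈ T, p)) ⊆ T := fun p hp => by
    obtain ⟨h1, h2⟩ := Finset.mem_filter.1 hp
    exact mem_of_not_coprime hT (hW p h1) h2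
  by_cases hsing : ∃ p0, T = {p0}
  · obtain ⟨p0, rfl⟩ := hsing
    rw [Finset.prod_singleton] at hb hsd hsubT ⊢
    have h1 : ∀ p ∈ W.filter (fun p => ¬ Nat.Coprime p p0),
        c p * Real.log (p * cm x 1 M p (b % p)) = c p0 * s := by
      intro p hp
      have : p = p0 := Finset.mem_singleton.1 (hsubT hp)
      subst this
      rw [Nat.mod_eq_of_lt hb, hsd]
    rw [Finset.sum_congr rfl h1, Finset.sum_const, nsmul_eq_mul]
    have h2 : (W.filter (fun p => ¬ Nat.Coprime p p0)).card ≤ 1 := by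
      refine (Finset.card_le_card hsubT).trans ?_
      rw [Finset.card_singleton]
    rcases Nat.le_one_iff_eq_zero_or_eq_one.1 h2 with h3 | h3
    · rw [h3]; simp only [Nat.cast_zero, zero_mul]; linarith
    · rw [h3, Nat.cast_one, one_mul]
      obtain ⟨q, hq⟩ := Finset.card_pos.1 (by rw [h3]; norm_num :
        0 < (W.filter (fun p => ¬ Nat.Coprime p p0)).card)
      have : q = p0 := Finset.mem_singleton.1 (hsubT hq)
      subst this
      have := hc1 q (Finset.mem_filter.1 hq).1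
      nlinarith
  · have h1 : ∀ p ∈ W.filter (fun p => ¬ Nat.Coprime p (∏ p ∈ T, p)),
        c p * Real.log (p * cm x 1 M p (b % p)) ≤ 1 / 4 * α p := by
      intro p hp
      have hpT := hsubT hp
      have hpW := (Finset.mem_filter.1 hp).1
      have hss : ({p} : Finset ℕ) ⊂ T := by
        refine Finset.ssubset_iff_subset_ne.2 ⟨Finset.singleton_subset_iff.2 hpT, ?_⟩
        intro h
        exact hsing ⟨p, h.symm⟩
      have h2 := ih {p} hss (b % p)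
      rw [Finset.prod_singleton, Finset.sum_singleton] at h2
      have h3 := log_le_of_exp
        (mul_nonneg (Nat.cast_nonneg p) (cm_nonneg hx.nonneg p (b % p))) (hα p hpT) h2
      have h4 : c p * Real.log (p * cm x 1 M p (b % p)) ≤ c p * α p :=
        mul_le_mul_of_nonneg_left h3 (hc0 p hpW)
      have h5 : c p * α p ≤ 1 / 4 * α p := mul_le_mul_of_nonneg_right (hc1 p hpW) (hα p hpT)
      linarith
    have h2 := Finset.sum_le_sum h1
    rw [← Finset.mul_sum] at h2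
    have h3 : ∑ p ∈ W with ¬ Nat.Coprime p (∏ p ∈ T, p), α p ≤ ∑ p ∈ T, α p :=
      Finset.sum_le_sum_of_subset_of_nonneg hsubT fun p hp _ => hα p hp
    linarith

/-- the MEI part of the induction step -/
theorem dens_A2 (hx : Law x 1 M) (hf : ∀ k ∈ f.F, ∀ p ∈ f.W k, p.Prime) (hfo : FamOk f Mm)
    {T : Finset ℕ} (hT : ∀ p ∈ T, p.Prime) (hT0 : T.Nonempty) {α : ℕ → ℝ}
    (hα : ∀ p ∈ T, 0 ≤ α p)
    (ih : ∀ T' ⊂ T, ∀ b, ((∏ p ∈ T', p : ℕ) : ℝ) * cm x 1 M (∏ p ∈ T', p) b ≤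
      Real.exp (∑ p ∈ T', α p)) {b : ℕ} (hb : b < ∏ p ∈ T, p)
    (hs : ∑ p ∈ T, α p ≤
      Real.log (((∏ p ∈ T, p : ℕ) : ℝ) * cm x 1 M (∏ p ∈ T, p) b)) :
    ∑ i ∈ fI f, fc f i * Real.log (qR (∏ p ∈ T, p) i.2 *
        cm x 1 M (qR (∏ p ∈ T, p) i.2) (b % qR (∏ p ∈ T, p) i.2)) ≤
      Real.log (((∏ p ∈ T, p : ℕ) : ℝ) * cm x 1 M (∏ p ∈ T, p) b) / 4 := by
  classical
  set s := Real.log (((∏ p ∈ T, p : ℕ) : ℝ) * cm x 1 M (∏ p ∈ T, p) b) with hsd
  obtain ⟨p0, hp0⟩ := hT0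
  have h1 : ∀ i ∈ fI f, fc f i * Real.log (qR (∏ p ∈ T, p) i.2 *
      cm x 1 M (qR (∏ p ∈ T, p) i.2) (b % qR (∏ p ∈ T, p) i.2)) ≤
      fc f i * (∑ p ∈ T with p ∈ i.2, α p) +
        (s - ∑ p ∈ T, α p) * (fc f i * (if p0 ∈ i.2 then 1 else 0)) := by
    intro i hi
    have hfc := fc_nonneg hfo hi
    have hi' := hi
    rw [mem_fI] at hi'
    have hR : ∀ p ∈ i.2, p.Prime := fun p hp => hf _ hi'.1 p (hi'.2.1 hp)
    rw [qR_prod hT hR]
    by_cases hTi : T.filter (fun p => p ∈ i.2) = T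
    · rw [hTi, Nat.mod_eq_of_lt hb, if_pos (Finset.mem_filter.1 (by rw [hTi]; exact hp0 :
        p0 ∈ T.filter (fun p => p ∈ i.2))).2, ← hsd]
      refine le_of_eq ?_
      ring
    · have hss : T.filter (fun p => p ∈ i.2) ⊂ T :=
        Finset.ssubset_iff_subset_ne.2 ⟨Finset.filter_subset _ _, hTi⟩
      have h2 := ih _ hss (b % ∏ p ∈ T with p ∈ i.2, p)
      have h3 := log_le_of_exp
        (mul_nonneg (Nat.cast_nonneg _) (cm_nonneg hx.nonneg _ _))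
        (Finset.sum_nonneg fun p hp => hα p (Finset.mem_filter.1 hp).1) h2
      have h4 : 0 ≤ (s - ∑ p ∈ T, α p) * (fc f i * (if p0 ∈ i.2 then 1 else 0)) := by
        refine mul_nonneg (by linarith) (mul_nonneg hfc ?_)
        split_ifs <;> norm_num
      have h5 := mul_le_mul_of_nonneg_left h3 hfc
      linarith
  have h2 := Finset.sum_le_sum h1
  rw [Finset.sum_add_distrib, ← Finset.mul_sum] at h2
  have h3 := fam_sum hfo T α hα
  have h4 : (s - ∑ p ∈ T, α p) * ∑ i ∈ fI f, fc f i * (if p0 ∈ i.2 then 1 else 0) ≤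
      (s - ∑ p ∈ T, α p) * (1 / 4) :=
    mul_le_mul_of_nonneg_left (fam_mass hfo p0) (by linarith)
  linarith

/-- the total error term -/
noncomputable def Ers (Q : Par (ℕ ⊕ (Σ _ : κ, Finset ℕ))) (M : ℕ) (L OB : ℝ) : ℝ :=
  Err Q M L OB (Real.exp Q.D0 * M) (1 / Q.Mm)

/-- the loss of one prime -/
noncomputable def alp (lam : ℕ → ℕ) (eta D0 Er : ℝ) (omx : ℕ → ℝ) (p : ℕ) : ℝ :=
  2 * (eta * Real.log (lam p) + omx p + Er + 2 * Real.exp (-(3 / 16 * D0)))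

theorem log_one_sub {δ : ℝ} (h0 : 0 ≤ δ) (h1 : δ ≤ 1 / 2) : -(2 * δ) ≤ Real.log (1 - δ) := by
  have h2 : 0 < 1 - δ := by linarith
  have h3 := Real.log_le_sub_one_of_pos (inv_pos.2 h2)
  rw [Real.log_inv] at h3
  have h4 : (1 - δ)⁻¹ ≤ 1 + 2 * δ := by
    rw [inv_le_comm₀ h2 (by linarith), inv_eq_one_div, div_le_iff₀ (by linarith)]
    nlinarith
  linarith

theorem exp_small {D0 : ℝ} (h : 16 ≤ D0) : Real.exp (-(3 / 16 * D0)) ≤ 1 / 2 := by
  have h1 : Real.exp (-(3 / 16 * D0)) ≤ Real.exp (-1) := Real.exp_le_exp.2 (by linarith)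
  refine h1.trans ?_
  rw [Real.exp_neg, ← one_div]
  exact one_div_le_one_div_of_le (by norm_num) (by linarith [Real.add_one_le_exp (1 : ℝ)])

/-- the good part of a class of density at least `1` has almost the same mass -/
theorem good_mass {ι : Type} {Q : Par ι} {L : ℝ} (hm : Mx Q N A0 d a M x L) {D b : ℕ} (hD1 : 1 ≤ D)
    (hDe : (D : ℝ) ≤ Real.exp (Q.D0 / 16)) (hD16 : 16 ≤ Q.D0) (hDc : 1 ≤ D * cm x 1 M D b) :
    0 < ms x M (fun n => (Gd Q M x n ∧ 1 ≤ n ∧ n ≤ M) ∧ n % D = b) ∧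
    1 / 2 ≤ D * ms x M (fun n => (Gd Q M x n ∧ 1 ≤ n ∧ n ≤ M) ∧ n % D = b) ∧
    Real.log (D * cm x 1 M D b) - 2 * Real.exp (-(3 / 16 * Q.D0)) ≤
      Real.log D + Real.log (ms x M (fun n => (Gd Q M x n ∧ 1 ≤ n ∧ n ≤ M) ∧ n % D = b)) := by
  have hx := hm.mx.1.law
  have hDR : (1 : ℝ) ≤ D := by exact_mod_cast hD1
  obtain ⟨m, hmdef⟩ : ∃ m : ℝ, m = ms x M (fun n => (Gd Q M x n ∧ 1 ≤ n ∧ n ≤ M) ∧ n % D = b) :=
    ⟨_, rfl⟩
  rw [← hmdef]
  have hcpos : 0 < cm x 1 M D b := by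
    rcases (cm_nonneg hx.nonneg D b (nu := x) (A := 1) (M := M)).eq_or_lt with h | h
    · rw [← h, mul_zero] at hDc; linarith
    · exact h
  have hm1 : cm x 1 M D b ≤ m + Real.exp (-(Q.D0 / 4)) := by
    rw [cm_eq_ms, ms_Icc, hmdef]
    have h1 := ms_or hx (S := fun n => (1 ≤ n ∧ n ≤ M) ∧ n % D = b)
      (T := fun n => (Gd Q M x n ∧ 1 ≤ n ∧ n ≤ M) ∧ n % D = b)
      (U := fun n => ¬ Gd Q M x n) (fun n hn => by
        by_cases h2 : Gd Q M x n
        · left; exact ⟨⟨h2, hn.1⟩, hn.2⟩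
        · exact Or.inr h2)
    have h2 := bad_small hm
    linarith
  have hδ := exp_small hD16
  have hδ0 : 0 < Real.exp (-(3 / 16 * Q.D0)) := Real.exp_pos _
  have hcge : Real.exp (-(Q.D0 / 16)) ≤ cm x 1 M D b := by
    rw [Real.exp_neg, inv_le_iff_one_le_mul₀ (Real.exp_pos _)]
    calc 1 ≤ D * cm x 1 M D b := hDc
      _ ≤ Real.exp (Q.D0 / 16) * cm x 1 M D b := mul_le_mul_of_nonneg_right hDe hcpos.le
      _ = _ := by ring
  have hm2 : cm x 1 M D b * (1 - Real.exp (-(3 / 16 * Q.D0))) ≤ m := by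
    have h1 : Real.exp (-(Q.D0 / 4)) = Real.exp (-(Q.D0 / 16)) * Real.exp (-(3 / 16 * Q.D0)) := by
      rw [← Real.exp_add]; congr 1; ring
    have h2 : Real.exp (-(Q.D0 / 16)) * Real.exp (-(3 / 16 * Q.D0)) ≤
        cm x 1 M D b * Real.exp (-(3 / 16 * Q.D0)) := mul_le_mul_of_nonneg_right hcge hδ0.le
    rw [← h1] at h2
    linarith
  have hm3 : cm x 1 M D b / 2 ≤ m := by nlinarith
  have hmpos : 0 < m := by linarith
  refine ⟨hmpos, by nlinarith, ?_⟩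
  have h1 : Real.log (cm x 1 M D b * (1 - Real.exp (-(3 / 16 * Q.D0)))) ≤ Real.log m :=
    Real.log_le_log (mul_pos hcpos (by linarith)) hm2
  rw [Real.log_mul hcpos.ne' (by linarith : (1 - Real.exp (-(3 / 16 * Q.D0))) ≠ 0)] at h1
  have h2 := log_one_sub hδ0.le hδ
  rw [Real.log_mul (by linarith) hcpos.ne']
  linarith

/-- the error term of an event which is not too thin -/
theorem Err_le_Ers {Q : Par (ℕ ⊕ (Σ _ : κ, Finset ℕ))} (hok : Ok Q) {L OB m : ℝ} (hM : 0 < M)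
    {D V : ℕ} (hmpos : 0 < m) (hV : 2 * Q.Mm * Q.lam D ≤ V)
    (h : Real.exp (-Q.D0) ≤ m * M) :
    Err Q M L OB (1 / m) (Q.lam D / (V : ℝ)) ≤ Ers Q M L OB := by
  have hM1 : (1 : ℝ) ≤ M := by exact_mod_cast hM
  have hMm := hok.Mm1
  unfold Ers
  refine Err_mono hok (by positivity) ?_ ?_
  · rw [div_le_iff₀ hmpos]
    have h2 := mul_le_mul_of_nonneg_left h (Real.exp_pos Q.D0).le
    rw [← Real.exp_add, add_neg_cancel, Real.exp_zero] at h2
    linarith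
  · rcases Nat.eq_zero_or_pos V with h0 | h0
    · rw [h0]; simp
    · have hMmR : (0 : ℝ) < Q.Mm := by
        have : (2 : ℝ) ≤ Q.Mm := by exact_mod_cast hMm
        linarith
      rw [div_le_div_iff₀ (by exact_mod_cast h0) hMmR, one_mul]
      have h9 : Q.lam D * Q.Mm ≤ V := by nlinarith
      exact_mod_cast h9

/-- the induction step, numbers -/
theorem dens_core {L : ℝ} (hm : Mx (PP f W c om lam eta D0 E1 Mm) N A0 d a M x L)
    (hW : ∀ p ∈ W, p.Prime) (hf : ∀ k ∈ f.F, ∀ p ∈ f.W k, p.Prime) (hfo : FamOk f Mm)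
    (hc0 : ∀ p ∈ W, 0 ≤ c p) {OB : ℝ}
    (hOB : ∀ S, Om (PP f W c om lam eta D0 E1 Mm) d S ≤ OB) {omx : ℕ → ℝ}
    (homx : ∀ p ∈ W, ∀ S, om p d S ≤ omx p) (homx0 : ∀ p, 0 ≤ omx p) (hD16 : 16 ≤ D0)
    {Er : ℝ} (hEr : Ers (PP f W c om lam eta D0 E1 Mm) M L OB ≤ Er) {T : Finset ℕ}
    (hT : ∀ p ∈ T, p.Prime) {D : ℕ} (hDdef : D = ∏ p ∈ T, p) (hD1 : 1 ≤ D)
    (hDe : (D : ℝ) ≤ Real.exp (D0 / 16))
    (hTM : 2 * Mm * lam D ≤ M) {b : ℕ} (hDc : 1 ≤ D * cm x 1 M D b)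
    (hA1 : ∑ p ∈ W with ¬ Nat.Coprime p D, c p * Real.log (p * cm x 1 M p (b % p)) ≤
      Real.log (D * cm x 1 M D b) / 4)
    (hA2 : ∑ i ∈ fI f, fc f i * Real.log (qR D i.2 * cm x 1 M (qR D i.2) (b % qR D i.2)) ≤
      Real.log (D * cm x 1 M D b) / 4) :
    Real.log (D * cm x 1 M D b) ≤ 2 * (eta * Real.log (lam D) + ∑ p ∈ T, omx p +
      (Er + 2 * Real.exp (-(3 / 16 * D0)))) := by
  have hok := hm.ok
  have hx := hm.mx.1.law
  have hM0 : 0 < M := hx.pos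
  have hM1 : (1 : ℝ) ≤ M := by exact_mod_cast hM0
  obtain ⟨hmpos, hDm, hlogm⟩ := good_mass hm hD1 hDe hD16 hDc
  have hD2 := hm.hD2
  have h3 : (PP f W c om lam eta D0 E1 Mm).D0 = D0 := rfl
  rw [h3] at hD2 hlogm
  have key := eventF hm (D := D) (w := b) (u := 1) (v := M) hD1 le_rfl le_rfl
    (by rw [show M + 1 - 1 = M by omega]; exact hTM)
    (S := fun n => (Gd (PP f W c om lam eta D0 E1 Mm) M x n ∧ 1 ≤ n ∧ n ≤ M) ∧ n % D = b)
    (fun n hn => ⟨hn.1.1, hn.1.2.1, hn.1.2.2, hn.2⟩)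
    (by
      rw [show M + 1 - 1 = M by omega]
      have h4 : Real.exp (-(D0 / 4)) ≤ D * ms x M (fun n =>
        (Gd (PP f W c om lam eta D0 E1 Mm) M x n ∧ 1 ≤ n ∧ n ≤ M) ∧ n % D = b) := by linarith
      have h5 := mul_le_mul_of_nonneg_right h4 (by linarith : (0 : ℝ) ≤ M)
      linarith) hW hf hfo hOB homx
  rw [show M + 1 - 1 = M by omega, sub_self, mul_zero, zero_add] at key
  have hA3 : ∑ p ∈ W with ¬ Nat.Coprime p D, omx p ≤ ∑ p ∈ T, omx p := by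
    refine Finset.sum_le_sum_of_subset_of_nonneg (fun p hp => ?_) fun p _ _ => homx0 p
    obtain ⟨h1, h2⟩ := Finset.mem_filter.1 hp
    rw [hDdef] at h2
    exact mem_of_not_coprime hT (hW p h1) h2
  obtain ⟨S, hSdef⟩ : ∃ S : ℕ → Prop, S = fun n =>
    (Gd (PP f W c om lam eta D0 E1 Mm) M x n ∧ 1 ≤ n ∧ n ≤ M) ∧ n % D = b := ⟨_, rfl⟩
  rw [← hSdef] at key hmpos hDm hlogm
  obtain ⟨m, hmdef⟩ : ∃ m : ℝ, m = ms x M S := ⟨_, rfl⟩
  have hErr : Err (PP f W c om lam eta D0 E1 Mm) M L OB (1 / ms x M S) (lam D / (M : ℝ)) ≤ Er := by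
    refine le_trans (Err_le_Ers hok hM0 hmpos hTM ?_) hEr
    rw [← hmdef] at hmpos hDm ⊢
    rw [h3]
    have h5 : (1 / 2 : ℝ) ≤ Real.exp (D0 / 16) * m :=
      hDm.trans (mul_le_mul_of_nonneg_right hDe hmpos.le)
    have h6 : Real.exp (-D0) ≤ Real.exp (-(D0 / 16)) * (1 / 2) := by
      have h7 : Real.exp (-D0) = Real.exp (-(D0 / 16)) * Real.exp (-(15 / 16 * D0)) := by
        rw [← Real.exp_add]; congr 1; ring
      have h8 : Real.exp (-(15 / 16 * D0)) ≤ 1 / 2 :=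
        le_trans (Real.exp_le_exp.2 (by linarith)) (exp_small hD16)
      rw [h7]
      exact mul_le_mul_of_nonneg_left h8 (Real.exp_pos _).le
    have h9 : Real.exp (-(D0 / 16)) * (1 / 2) ≤ m := by
      have h10 := mul_le_mul_of_nonneg_left h5 (Real.exp_pos (-(D0 / 16))).le
      rw [← mul_assoc, ← Real.exp_add, neg_add_cancel, Real.exp_zero, one_mul] at h10
      exact h10
    nlinarith
  have hklc : 0 ≤ ∑ p ∈ W with Nat.Coprime p D, c p * klc (rst x M S) x M p := by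
    refine Finset.sum_nonneg fun p hp => ?_
    have h1 := (Finset.mem_filter.1 hp).1
    refine mul_nonneg (hc0 p h1) (klc_nonneg (rst_law hx hmpos) hx
      (fun i _ h0 => ?_) (hW p h1).pos)
    by_contra h2
    exact (rst_ne h2).2 h0
  linarith

/-- **the density of the residue classes at the maximiser, squarefree moduli** -/
theorem dens {L : ℝ} (hm : Mx (PP f W c om lam eta D0 E1 Mm) N A0 d a M x L)
    (hW : ∀ p ∈ W, p.Prime) (hf : ∀ k ∈ f.F, ∀ p ∈ f.W k, p.Prime) (hfo : FamOk f Mm)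
    (hc0 : ∀ p ∈ W, 0 ≤ c p) (hc1 : ∀ p ∈ W, c p ≤ 1 / 4) {OB : ℝ}
    (hOB : ∀ S, Om (PP f W c om lam eta D0 E1 Mm) d S ≤ OB) {omx : ℕ → ℝ}
    (homx : ∀ p ∈ W, ∀ S, om p d S ≤ omx p) (homx0 : ∀ p, 0 ≤ omx p) (hD16 : 16 ≤ D0)
    {Er : ℝ} (hEr : Ers (PP f W c om lam eta D0 E1 Mm) M L OB ≤ Er) (T : Finset ℕ)
    (hT : ∀ p ∈ T, p.Prime) (hTe : ((∏ p ∈ T, p : ℕ) : ℝ) ≤ Real.exp (D0 / 16))
    (hTM : 2 * Mm * lam (∏ p ∈ T, p) ≤ M) (b : ℕ) :
    ((∏ p ∈ T, p : ℕ) : ℝ) * cm x 1 M (∏ p ∈ T, p) b ≤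
      Real.exp (∑ p ∈ T, alp lam eta D0 Er omx p) := by
  classical
  induction T using Finset.strongInduction generalizing b with
  | H T ih0 =>
  have hok := hm.ok
  have hx := hm.mx.1.law
  have hM0 : 0 < M := hx.pos
  have hM1 : (1 : ℝ) ≤ M := by exact_mod_cast hM0
  have hlampos : ∀ d, 1 ≤ d → 0 < lam d := hok.lam0
  have hlamm : ∀ d D, 1 ≤ d → 1 ≤ D → lam (d * D) = lam d * lam D := hok.lamm
  have heta : 0 < eta := hok.eta0
  have hT1 : ∀ p ∈ T, 1 ≤ p := fun p hp => (hT p hp).one_lt.le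
  have hlamR : ∀ d : ℕ, 1 ≤ d → (1 : ℝ) ≤ lam d := fun d hd => by exact_mod_cast hlampos d hd
  have hEr0 : 0 ≤ Er := by
    refine le_trans ?_ hEr
    unfold Ers
    refine Err_nonneg hok hM0 hm.L0 (OB_nonneg hm hOB) ?_ (by positivity)
    have : 1 ≤ Real.exp D0 := Real.one_le_exp (by linarith)
    show 1 ≤ Real.exp D0 * M
    nlinarith
  have hα : ∀ p ∈ T, 0 ≤ alp lam eta D0 Er omx p := fun p hp => by
    have h1 := Real.log_nonneg (hlamR p (hT1 p hp))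
    have h2 := homx0 p
    unfold alp
    positivity
  have ih : ∀ T' ⊂ T, ∀ b, ((∏ p ∈ T', p : ℕ) : ℝ) * cm x 1 M (∏ p ∈ T', p) b ≤
      Real.exp (∑ p ∈ T', alp lam eta D0 Er omx p) := by
    intro T' hT' b'
    have hsub := hT'.1
    refine ih0 T' hT' (fun p hp => hT p (hsub hp)) ?_ ?_ b'
    · refine le_trans ?_ hTe
      exact_mod_cast prod_le_of_subset hT1 hsub
    · exact le_trans (Nat.mul_le_mul_left _ (lam_le hlamm hlampos hT1 hsub)) hTM
  by_contra hcon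
  rw [not_le] at hcon
  obtain ⟨D, hDdef⟩ : ∃ D : ℕ, D = ∏ p ∈ T, p := ⟨_, rfl⟩
  have hσ0 : 0 ≤ ∑ p ∈ T, alp lam eta D0 Er omx p := Finset.sum_nonneg hα
  have hD1 : 1 ≤ D := by
    rw [hDdef]; exact Nat.succ_le_of_lt (Finset.prod_pos fun p hp => hT1 p hp)
  have hcon' : Real.exp (∑ p ∈ T, alp lam eta D0 Er omx p) < D * cm x 1 M D b := by
    rw [hDdef]; exact hcon
  have hDc : 1 < D * cm x 1 M D b := lt_of_le_of_lt (Real.one_le_exp hσ0) hcon'
  have hT0 : T.Nonempty := by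
    rw [Finset.nonempty_iff_ne_empty]
    rintro rfl
    have hcm1 : cm x 1 M D b ≤ 1 := cm_le_one' hx hD1 b
    rw [Finset.prod_empty] at hDdef
    rw [hDdef] at hDc hcm1
    push_cast at hDc
    linarith
  have hbD : b < D := by
    by_contra h
    have h1 : cm x 1 M D b = 0 := by
      unfold cm
      refine Finset.sum_eq_zero fun i _ => if_neg ?_
      have := Nat.mod_lt (1 + i) (show 0 < D from hD1)
      omega
    rw [h1, mul_zero] at hDc
    linarith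
  have hs : ∑ p ∈ T, alp lam eta D0 Er omx p < Real.log (D * cm x 1 M D b) := by
    rw [Real.lt_log_iff_exp_lt (by linarith)]
    exact hcon'
  have hA1 := dens_A1 hx hW hc0 hc1 hT hα ih (b := b) (by rw [← hDdef]; exact hbD)
    (by rw [← hDdef]; exact hs.le)
  have hA2 := dens_A2 hx hf hfo hT hT0 hα ih (b := b) (by rw [← hDdef]; exact hbD)
    (by rw [← hDdef]; exact hs.le)
  rw [← hDdef] at hA1 hA2
  have hcore := dens_core hm hW hf hfo hc0 hOB homx homx0 hD16 hEr hT hDdef hD1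
    (by rw [hDdef]; exact hTe) (by rw [hDdef]; exact hTM) hDc.le hA1 hA2
  have hlam1 : lam 1 = 1 := hok.lam1
  have hlamprod : Real.log (lam D) = ∑ p ∈ T, Real.log (lam p) := by
    rw [hDdef, lam_prod hlam1 hlamm T hT1]
    push_cast
    exact Real.log_prod fun p hp => by
      have := hlamR p (hT1 p hp)
      linarith
  have hcard : (1 : ℝ) ≤ T.card := by exact_mod_cast hT0.card_pos
  have hfin : ∑ p ∈ T, alp lam eta D0 Er omx p = 2 * (eta * Real.log (lam D) +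
      ∑ p ∈ T, omx p + T.card * (Er + 2 * Real.exp (-(3 / 16 * D0)))) := by
    unfold alp
    rw [hlamprod, ← Finset.mul_sum]
    simp only [Finset.sum_add_distrib, Finset.sum_const, nsmul_eq_mul, ← Finset.mul_sum]
    ring
  have hbig : (Er + 2 * Real.exp (-(3 / 16 * D0))) ≤
      T.card * (Er + 2 * Real.exp (-(3 / 16 * D0))) :=
    le_mul_of_one_le_left (by positivity) hcard
  linarith

end dens2

end Vale.Agent.P042.H599
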