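import Mathlib
set_option autoImplicit false

/-!
P042 [D]: truncated level-one inequality (helper945 #7122 (0)).  A law `nu` on an interval of
length `M` with density at most `e^D` has small total relative entropy on the residue classes
modulo the primes of `W`.
-/

namespace Vale.Agent.P042.H599

open Finset

/-- average of `F` over `0, ..., n-1` -/
noncomputable def av (F : ℕ → ℝ) (n : ℕ) : ℝ := (∑ j ∈ range n, F j) / n

theorem sum_shift {F : ℕ → ℝ} {D : ℕ} (hF : ∀ j, F (j + D) = F j) (A : ℕ) :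
    ∑ i ∈ range D, F (A + i) = ∑ i ∈ range D, F i := by
  induction A with
  | zero => simp
  | succ A ih =>
    rw [← ih]
    have h := Finset.sum_range_succ' (fun i => F (A + i)) D
    have h2 := Finset.sum_range_succ (fun i => F (A + i)) D
    have h3 : ∑ i ∈ range D, F (A + 1 + i) = ∑ i ∈ range D, F (A + (i + 1)) := by
      refine Finset.sum_congr rfl fun i _ => ?_
      congr 1; ring
    have h4 : F (A + D) = F A := hF A
    simp only [add_zero] at h
    rw [h3]; linarith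

theorem sum_mul_period {F : ℕ → ℝ} {D : ℕ} (hF : ∀ j, F (j + D) = F j) (q : ℕ) :
    ∑ i ∈ range (D * q), F i = q * ∑ i ∈ range D, F i := by
  induction q with
  | zero => simp
  | succ q ih =>
    rw [Nat.mul_succ, Finset.sum_range_add, ih, sum_shift hF]
    push_cast; ring

theorem period_mul {F : ℕ → ℝ} {D : ℕ} (hF : ∀ j, F (j + D) = F j) (q j : ℕ) :
    F (j + D * q) = F j := by
  induction q with
  | zero => simp
  | succ q ih => rw [Nat.mul_succ, ← add_assoc, hF, ih]

theorem av_mul {F : ℕ → ℝ} {D : ℕ} (hF : ∀ j, F (j + D) = F j) {q : ℕ} (hq : 0 < q) :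
    av F (D * q) = av F D := by
  unfold av
  rw [sum_mul_period hF]
  have hq' : (q : ℝ) ≠ 0 := by positivity
  rcases Nat.eq_zero_or_pos D with h | h
  · subst h; simp
  · have hD : (D : ℝ) ≠ 0 := by positivity
    push_cast
    field_simp

theorem approx {F : ℕ → ℝ} {D : ℕ} (hD : 0 < D) (hF : ∀ j, F (j + D) = F j) {B : ℝ}
    (hB : ∀ j, |F j| ≤ B) (A : ℕ) {M : ℕ} (hM : 0 < M) :
    |(∑ i ∈ range M, F (A + i)) / M - av F D| ≤ 2 * D * B / M := by
  have hG : ∀ j, (fun i => F (A + i)) (j + D) = (fun i => F (A + i)) j := by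
    intro j; simp only [← add_assoc]; exact hF _
  have hdm : D * (M / D) + M % D = M := Nat.div_add_mod M D
  have hB0 : 0 ≤ B := (abs_nonneg _).trans (hB 0)
  set S := ∑ i ∈ range D, F i with hS
  set R := ∑ i ∈ range (M % D), F (A + (D * (M / D) + i)) with hR
  have hsum : ∑ i ∈ range M, F (A + i) = (M / D : ℕ) * S + R := by
    conv_lhs => rw [← hdm]
    rw [Finset.sum_range_add, sum_mul_period hG, sum_shift hF]
  have hSa : |S| ≤ D * B := by
    refine (Finset.abs_sum_le_sum_abs _ _).trans ?_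
    refine (Finset.sum_le_card_nsmul _ _ B fun i _ => hB i).trans ?_
    simp
  have hRa : |R| ≤ (M % D : ℕ) * B := by
    refine (Finset.abs_sum_le_sum_abs _ _).trans ?_
    refine (Finset.sum_le_card_nsmul _ _ B fun i _ => hB _).trans ?_
    simp
  have hMR : (0 : ℝ) < M := by exact_mod_cast hM
  have hDR : (0 : ℝ) < D := by exact_mod_cast hD
  have hdm' : (D : ℝ) * (M / D : ℕ) + (M % D : ℕ) = M := by exact_mod_cast hdm
  set u : ℝ := ((M / D : ℕ) : ℝ) with hu
  set v : ℝ := ((M % D : ℕ) : ℝ) with hv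
  have hv0 : 0 ≤ v := by positivity
  have hvD : v ≤ D := by
    rw [hv]; exact_mod_cast (Nat.mod_lt _ hD).le
  have key : (u * S + R) / M - S / D = R / M - S * v / (D * M) := by
    field_simp
    rw [← hdm']; ring
  rw [hsum, av, key]
  calc |R / M - S * v / (D * M)| ≤ |R / M| + |S * v / (D * M)| := abs_sub _ _
    _ = |R| / M + |S| * v / (D * M) := by
        rw [abs_div, abs_div, abs_mul, abs_of_pos hMR, abs_of_nonneg hv0,
          abs_of_pos (mul_pos hDR hMR)]
    _ ≤ (v * B) / M + (D * B) * v / (D * M) := by gcongr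
    _ = 2 * v * B / M := by field_simp; ring
    _ ≤ 2 * D * B / M := by gcongr

/-- two coprime moduli -/
theorem sum_coprime {m n : ℕ} (hm : 0 < m) (hn : 0 < n) (h : m.Coprime n) (F G : ℕ → ℝ) :
    ∑ j ∈ range (m * n), F (j % m) * G (j % n) = (∑ a ∈ range m, F a) * ∑ b ∈ range n, G b := by
  rw [Finset.sum_mul_sum, ← Finset.sum_product']
  refine Finset.sum_nbij' (fun j => (j % m, j % n))
    (fun x => (Nat.chineseRemainder h x.1 x.2 : ℕ)) ?_ ?_ ?_ ?_ ?_
  · intro j _
    simp [Nat.mod_lt _ hm, Nat.mod_lt _ hn]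
  · intro x _
    simp only [mem_range]
    exact Nat.chineseRemainder_lt_mul h _ _ hm.ne' hn.ne'
  · intro j hj
    simp only
    have h1 := (Nat.chineseRemainder h (j % m) (j % n)).2
    have h2 := Nat.chineseRemainder_lt_mul h (j % m) (j % n) hm.ne' hn.ne'
    have h3 : (Nat.chineseRemainder h (j % m) (j % n) : ℕ) ≡ j [MOD m * n] := by
      rw [← Nat.modEq_and_modEq_iff_modEq_mul h]
      exact ⟨h1.1.trans (Nat.mod_modEq _ _), h1.2.trans (Nat.mod_modEq _ _)⟩
    exact Nat.ModEq.eq_of_lt_of_lt h3 h2 (mem_range.1 hj)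
  · intro x hx
    simp only [mem_product, mem_range] at hx
    have h1 := (Nat.chineseRemainder h x.1 x.2).2
    ext
    · simp only
      have := h1.1
      rw [Nat.ModEq, Nat.mod_eq_of_lt hx.1] at this
      exact this
    · simp only
      have := h1.2
      rw [Nat.ModEq, Nat.mod_eq_of_lt hx.2] at this
      exact this
  · intro j _; rfl

/-- independence of the residues modulo pairwise coprime moduli over a full period -/
theorem sum_crt (W : Finset ℕ) (hW : ∀ p ∈ W, 0 < p)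
    (hc : (W : Set ℕ).Pairwise Nat.Coprime) (f : ℕ → ℕ → ℝ) :
    ∑ j ∈ range (∏ p ∈ W, p), ∏ p ∈ W, f p (j % p) = ∏ p ∈ W, ∑ a ∈ range p, f p a := by
  classical
  induction W using Finset.induction_on with
  | empty => simp
  | insert q W hq ih =>
    have hW' : ∀ p ∈ W, 0 < p := fun p hp => hW p (mem_insert_of_mem hp)
    have hc' : (W : Set ℕ).Pairwise Nat.Coprime :=
      hc.mono (by simp)
    have hcop : q.Coprime (∏ p ∈ W, p) := by
      refine Nat.Coprime.prod_right fun p hp => ?_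
      exact hc (by simp) (by simp [hp]) (by rintro rfl; exact hq hp)
    rw [Finset.prod_insert hq, Finset.prod_insert hq, ← ih hW' hc']
    rw [← sum_coprime (hW q (mem_insert_self _ _)) (Finset.prod_pos hW') hcop
      (fun a => f q a) (fun b => ∏ p ∈ W, f p (b % p))]
    refine Finset.sum_congr rfl fun j _ => ?_
    rw [Finset.prod_insert hq]
    congr 1
    refine Finset.prod_congr rfl fun p hp => ?_
    rw [Nat.mod_mod_of_dvd _ (Finset.dvd_prod_of_mem _ hp)]

theorem av_crt (W : Finset ℕ) (hW : ∀ p ∈ W, 0 < p)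
    (hc : (W : Set ℕ).Pairwise Nat.Coprime) (f : ℕ → ℕ → ℝ) :
    av (fun j => ∏ p ∈ W, f p (j % p)) (∏ p ∈ W, p) = ∏ p ∈ W, av (f p) p := by
  unfold av
  rw [sum_crt W hW hc, Finset.prod_div_distrib]
  push_cast
  rfl

theorem av_mono {F G : ℕ → ℝ} (h : ∀ j, F j ≤ G j) (n : ℕ) : av F n ≤ av G n := by
  unfold av
  exact div_le_div_of_nonneg_right (Finset.sum_le_sum fun j _ => h j) (by positivity)

theorem av_add (F G : ℕ → ℝ) (n : ℕ) : av (fun j => F j + G j) n = av F n + av G n := by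
  unfold av
  rw [Finset.sum_add_distrib, add_div]

theorem av_mul_left (c : ℝ) (F : ℕ → ℝ) (n : ℕ) : av (fun j => c * F j) n = c * av F n := by
  unfold av
  rw [← Finset.mul_sum, mul_div_assoc]

/-- moment generating function of a centred function bounded by `8` -/
theorem mgf_one (c : ℕ → ℝ) (p : ℕ) (hp : 0 < p) (h0 : ∑ a ∈ range p, c a = 0)
    (h8 : ∀ a, |c a| ≤ 8) (s : ℝ) (hs : |s| ≤ 1 / 8) :
    av (fun a => Real.exp (s * c a)) p ≤ Real.exp (s ^ 2 * av (fun a => c a ^ 2) p) := by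
  have hpR : (0 : ℝ) < p := by exact_mod_cast hp
  have h1 : ∀ a, Real.exp (s * c a) ≤ 1 + (s * c a + s ^ 2 * c a ^ 2) := by
    intro a
    have h2 : |s * c a| ≤ 1 := by
      rw [abs_mul]
      calc |s| * |c a| ≤ (1 / 8) * 8 := by
            exact mul_le_mul hs (h8 a) (abs_nonneg _) (by norm_num)
        _ = 1 := by norm_num
    have h3 := Real.abs_exp_sub_one_sub_id_le h2
    have h4 := (abs_le.1 h3).2
    rw [mul_pow] at h4
    linarith
  have h2 : av (fun a => Real.exp (s * c a)) p ≤ 1 + s ^ 2 * av (fun a => c a ^ 2) p := by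
    refine (av_mono h1 p).trans (le_of_eq ?_)
    rw [av_add, av_add, av_mul_left, av_mul_left]
    have h3 : av (fun _ => (1 : ℝ)) p = 1 := by
      unfold av
      rw [Finset.sum_const, Finset.card_range, nsmul_eq_mul, mul_one, div_self hpR.ne']
    have h4 : av (fun a => c a) p = 0 := by unfold av; rw [h0]; simp
    rw [h3, h4]; ring
  refine h2.trans ?_
  have := Real.add_one_le_exp (s ^ 2 * av (fun a => c a ^ 2) p)
  linarith

theorem pow_le_exp (m : ℕ) {s : ℝ} (hs : 0 < s) (x : ℝ) :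
    x ^ (2 * m) ≤ ((2 * m).factorial : ℝ) / s ^ (2 * m) *
      (Real.exp (s * x) + Real.exp (-s * x)) := by
  have h1 : (s * |x|) ^ (2 * m) / ((2 * m).factorial : ℝ) ≤ Real.exp (s * |x|) :=
    Real.pow_div_factorial_le_exp _ (by positivity) _
  have h2 : Real.exp (s * |x|) ≤ Real.exp (s * x) + Real.exp (-s * x) := by
    rcases abs_cases x with ⟨h, -⟩ | ⟨h, -⟩
    · rw [h]; linarith [Real.exp_pos (-s * x)]
    · rw [h]
      have : s * -x = -s * x := by ring
      rw [this]; linarith [Real.exp_pos (s * x)]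
  have h3 : (s * |x|) ^ (2 * m) = s ^ (2 * m) * x ^ (2 * m) := by
    rw [mul_pow, pow_mul |x|, sq_abs, ← pow_mul]
  rw [h3] at h1
  have hf : (0 : ℝ) < ((2 * m).factorial : ℝ) := by positivity
  have hsm : 0 < s ^ (2 * m) := by positivity
  rw [div_le_iff₀ hf] at h1
  rw [div_mul_eq_mul_div, le_div_iff₀ hsm]
  calc x ^ (2 * m) * s ^ (2 * m) = s ^ (2 * m) * x ^ (2 * m) := by ring
    _ ≤ Real.exp (s * |x|) * ((2 * m).factorial : ℝ) := h1
    _ ≤ (Real.exp (s * x) + Real.exp (-s * x)) * ((2 * m).factorial : ℝ) := by gcongr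
    _ = _ := by ring

/-- moments of a sum of independent centred functions bounded by `8` -/
theorem moment (W : Finset ℕ) (hW : ∀ p ∈ W, 0 < p)
    (hc : (W : Set ℕ).Pairwise Nat.Coprime) (c : ℕ → ℕ → ℝ)
    (h0 : ∀ p ∈ W, ∑ a ∈ range p, c p a = 0) (h8 : ∀ p ∈ W, ∀ a, |c p a| ≤ 8) (m : ℕ) {s : ℝ}
    (hs : 0 < s) (hs8 : s ≤ 1 / 8) :
    av (fun j => (∑ p ∈ W, c p (j % p)) ^ (2 * m)) (∏ p ∈ W, p) ≤
      ((2 * m).factorial : ℝ) / s ^ (2 * m) *
        (2 * Real.exp (s ^ 2 * ∑ p ∈ W, av (fun a => c p a ^ 2) p)) := by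
  have hmgf : ∀ t : ℝ, |t| ≤ 1 / 8 → av (fun j => Real.exp (t * ∑ p ∈ W, c p (j % p)))
      (∏ p ∈ W, p) ≤ Real.exp (t ^ 2 * ∑ p ∈ W, av (fun a => c p a ^ 2) p) := by
    intro t ht
    have h1 : (fun j => Real.exp (t * ∑ p ∈ W, c p (j % p))) =
        fun j => ∏ p ∈ W, Real.exp (t * c p (j % p)) := by
      funext j
      rw [Finset.mul_sum, Real.exp_sum]
    rw [h1, av_crt W hW hc (fun p a => Real.exp (t * c p a)), Finset.mul_sum, Real.exp_sum]
    refine Finset.prod_le_prod (fun p _ => ?_) fun p hp => ?_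
    · unfold av; positivity
    · exact mgf_one (c p) p (hW p hp) (h0 p hp) (h8 p hp) t ht
  refine (av_mono (fun j => pow_le_exp m hs _) _).trans ?_
  rw [av_mul_left, av_add]
  refine mul_le_mul_of_nonneg_left ?_ (by positivity)
  have e1 := hmgf s (by rw [abs_of_pos hs]; exact hs8)
  have e2 := hmgf (-s) (by rw [abs_neg, abs_of_pos hs]; exact hs8)
  rw [neg_sq] at e2
  linarith

/-- transfer of the moment from the full period to an interval -/
theorem moment_interval (W : Finset ℕ) (hW : ∀ p ∈ W, 0 < p) (c : ℕ → ℕ → ℝ)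
    (h8 : ∀ p ∈ W, ∀ a, |c p a| ≤ 8) (Y : ℕ) (hY : ∀ p ∈ W, p ≤ Y) (hY1 : 1 ≤ Y) (r : ℕ)
    (A M : ℕ) (hM : 0 < M) :
    (∑ i ∈ range M, (∑ p ∈ W, c p ((A + i) % p)) ^ r) / M ≤
      av (fun j => (∑ p ∈ W, c p (j % p)) ^ r) (∏ p ∈ W, p) +
        2 * (8 * (W.card : ℝ) * Y) ^ r / M := by
  classical
  have hMR : (0 : ℝ) < M := by exact_mod_cast hM
  set T : Finset (Fin r → ℕ) := Fintype.piFinset (fun _ => W) with hT
  have hexp : ∀ j : ℕ, (∑ p ∈ W, c p (j % p)) ^ r = ∑ t ∈ T, ∏ i, c (t i) (j % t i) := by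
    intro j
    have h := Finset.prod_univ_sum (fun _ : Fin r => W) (fun (_ : Fin r) p => c p (j % p))
    rw [Finset.prod_const, Finset.card_univ, Fintype.card_fin] at h
    exact h
  have hterm : ∀ t ∈ T, (∑ i ∈ range M, ∏ l, c (t l) ((A + i) % t l)) / M ≤
      av (fun j => ∏ l, c (t l) (j % t l)) (∏ p ∈ W, p) + 2 * (Y : ℝ) ^ r * 8 ^ r / M := by
    intro t ht
    have htW : ∀ l, t l ∈ W := by simpa [hT, Fintype.mem_piFinset] using ht
    set I : Finset ℕ := Finset.univ.image t with hI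
    have hIW : I ⊆ W := by
      intro x hx
      rw [hI, Finset.mem_image] at hx
      obtain ⟨l, -, rfl⟩ := hx
      exact htW l
    set D := ∏ p ∈ I, p with hDdef
    have hD : 0 < D := Finset.prod_pos fun p hp => hW p (hIW hp)
    have hper : ∀ j, (fun j => ∏ l, c (t l) (j % t l)) (j + D) =
        (fun j => ∏ l, c (t l) (j % t l)) j := by
      intro j
      simp only
      refine Finset.prod_congr rfl fun l _ => ?_
      have : t l ∣ D := Finset.dvd_prod_of_mem _ (by
        rw [hI, Finset.mem_image]; exact ⟨l, Finset.mem_univ _, rfl⟩)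
      obtain ⟨q, hq⟩ := this
      rw [hq, Nat.add_mul_mod_self_left]
    have hbd : ∀ j, |(fun j => ∏ l, c (t l) (j % t l)) j| ≤ 8 ^ r := by
      intro j
      simp only
      rw [Finset.abs_prod]
      refine (Finset.prod_le_prod (fun _ _ => abs_nonneg _)
        (fun l _ => h8 (t l) (htW l) _)).trans ?_
      simp
    have hap := approx hD hper hbd A hM
    have hdiv : D ∣ ∏ p ∈ W, p := Finset.prod_dvd_prod_of_subset _ _ _ hIW
    obtain ⟨q, hq⟩ := hdiv
    have hq0 : 0 < q := by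
      have : 0 < ∏ p ∈ W, p := Finset.prod_pos hW
      rw [hq] at this
      exact Nat.pos_of_ne_zero (by rintro rfl; simp at this)
    rw [hq, av_mul hper hq0]
    have hDY : (D : ℝ) ≤ (Y : ℝ) ^ r := by
      have h1 : D ≤ Y ^ I.card := by
        rw [hDdef]
        exact Finset.prod_le_pow_card _ _ _ fun p hp => hY p (hIW hp)
      have h2 : I.card ≤ r := by
        refine Finset.card_image_le.trans ?_
        simp
      have h3 : Y ^ I.card ≤ Y ^ r := Nat.pow_le_pow_right hY1 h2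
      exact_mod_cast h1.trans h3
    have h5 := (abs_le.1 hap).2
    have h6 : 2 * (D : ℝ) * 8 ^ r / M ≤ 2 * (Y : ℝ) ^ r * 8 ^ r / M := by gcongr
    linarith
  have hL : (∑ i ∈ range M, (∑ p ∈ W, c p ((A + i) % p)) ^ r) / M =
      ∑ t ∈ T, (∑ i ∈ range M, ∏ l, c (t l) ((A + i) % t l)) / M := by
    rw [← Finset.sum_div, Finset.sum_comm]
    congr 1
    exact Finset.sum_congr rfl fun i _ => hexp _
  have hR : av (fun j => (∑ p ∈ W, c p (j % p)) ^ r) (∏ p ∈ W, p) =
      ∑ t ∈ T, av (fun j => ∏ l, c (t l) (j % t l)) (∏ p ∈ W, p) := by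
    unfold av
    rw [← Finset.sum_div, Finset.sum_comm]
    congr 1
    exact Finset.sum_congr rfl fun i _ => hexp _
  rw [hL, hR]
  refine (Finset.sum_le_sum hterm).trans (le_of_eq ?_)
  rw [Finset.sum_add_distrib, Finset.sum_const, hT, Fintype.card_piFinset]
  simp only [Finset.prod_const, Finset.card_univ, Fintype.card_fin, nsmul_eq_mul]
  push_cast
  congr 1
  rw [mul_pow, mul_pow]; ring

/-- mass of the residue class `a` modulo `p` -/
noncomputable def cm (nu : ℕ → ℝ) (A M p a : ℕ) : ℝ :=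
  ∑ i ∈ range M, if (A + i) % p = a then nu (A + i) else 0

/-- `p` times the mass, minus one, truncated at `7` -/
noncomputable def ps (nu : ℕ → ℝ) (A M p a : ℕ) : ℝ := min (p * cm nu A M p a - 1) 7

/-- the level one energy of `nu` over the moduli in `W` -/
noncomputable def lev (nu : ℕ → ℝ) (A M : ℕ) (W : Finset ℕ) : ℝ :=
  ∑ p ∈ W, av (fun a => (p * cm nu A M p a - 1) * ps nu A M p a) p

theorem cm_nonneg {nu : ℕ → ℝ} {A M : ℕ} (h0 : ∀ i < M, 0 ≤ nu (A + i)) (p a : ℕ) :
    0 ≤ cm nu A M p a := by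
  unfold cm
  refine Finset.sum_nonneg fun i hi => ?_
  split_ifs
  · exact h0 i (mem_range.1 hi)
  · exact le_rfl

theorem sum_cm_mul (nu : ℕ → ℝ) (A M : ℕ) {p : ℕ} (hp : 0 < p) (f : ℕ → ℝ) :
    ∑ a ∈ range p, cm nu A M p a * f a = ∑ i ∈ range M, nu (A + i) * f ((A + i) % p) := by
  unfold cm
  simp only [Finset.sum_mul]
  rw [Finset.sum_comm]
  refine Finset.sum_congr rfl fun i _ => ?_
  simp only [ite_mul, zero_mul]
  rw [Finset.sum_ite_eq]
  rw [if_pos (mem_range.2 (Nat.mod_lt _ hp))]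

theorem sum_cm {nu : ℕ → ℝ} {A M : ℕ} (h1 : ∑ i ∈ range M, nu (A + i) = 1) {p : ℕ} (hp : 0 < p) :
    ∑ a ∈ range p, cm nu A M p a = 1 := by
  have := sum_cm_mul nu A M hp (fun _ => 1)
  simpa [h1] using this

theorem ps_mem {nu : ℕ → ℝ} {A M : ℕ} (h0 : ∀ i < M, 0 ≤ nu (A + i)) (p a : ℕ) :
    -1 ≤ ps nu A M p a ∧ ps nu A M p a ≤ 7 := by
  unfold ps
  refine ⟨le_min ?_ (by norm_num), min_le_right _ _⟩
  have : 0 ≤ (p : ℝ) * cm nu A M p a := mul_nonneg (by positivity) (cm_nonneg h0 p a)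
  linarith

theorem ps_sq_le {nu : ℕ → ℝ} {A M : ℕ} (p a : ℕ) :
    ps nu A M p a ^ 2 ≤ (p * cm nu A M p a - 1) * ps nu A M p a := by
  unfold ps
  set y : ℝ := p * cm nu A M p a - 1
  rcases le_total y 7 with h | h
  · rw [min_eq_left h, sq]
  · rw [min_eq_right h]; nlinarith

theorem mainb {T s V : ℝ} {m : ℕ} (hm0 : (0 : ℝ) < m) (hTpos : 0 < T) (hspos : 0 < s)
    (hs2 : s ^ 2 = 2 * m / T) (hsV : s ^ 2 * V ≤ 2 * (m : ℝ)) :
    ((2 * m).factorial : ℝ) / s ^ (2 * m) * (2 * Real.exp (s ^ 2 * V)) ≤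
      2 * (2 * m * T * Real.exp 2) ^ m := by
  have hspow : s ^ (2 * m) = (2 * m / T) ^ m := by rw [pow_mul, hs2]
  have hfac : ((2 * m).factorial : ℝ) ≤ (2 * m) ^ (2 * m) := by
    exact_mod_cast Nat.factorial_le_pow (2 * m)
  have hE : Real.exp (s ^ 2 * V) ≤ Real.exp (2 * m) :=
    Real.exp_le_exp.2 hsV
  calc ((2 * m).factorial : ℝ) / s ^ (2 * m) * (2 * Real.exp (s ^ 2 * V))
      ≤ ((2 * m : ℝ) ^ (2 * m)) / s ^ (2 * m) * (2 * Real.exp (2 * m)) := by gcongr
    _ = 2 * (2 * m * T * Real.exp 2) ^ m := by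
        rw [hspow]
        have h5 : Real.exp (2 * m) = Real.exp 2 ^ m := by
          rw [← Real.exp_nat_mul]; ring_nf
        rw [h5, pow_mul (2 * (m : ℝ)) 2 m, div_pow, mul_pow (2 * (m : ℝ) * T), mul_pow (2 * (m : ℝ)) T]
        have h6 : ((2 * (m : ℝ)) ^ m) ≠ 0 := by positivity
        have h7 : T ^ m ≠ 0 := by positivity
        rw [← pow_mul, pow_mul' (2 * (m : ℝ)) 2 m]
        field_simp

theorem extract {T D : ℝ} {m : ℕ} (hm : 1 ≤ m) (hTpos : 0 < T)
    (hfin : T ^ (2 * m) ≤ Real.exp D * (3 * (2 * m * T * Real.exp 2) ^ m)) :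
    T ≤ 128 * m * Real.exp (D / m) := by
  have hmR : (1 : ℝ) ≤ m := by exact_mod_cast hm
  have hm0 : (0 : ℝ) < m := by linarith
  -- extract the root
  have hroot : T ^ m ≤ (3 * Real.exp (D / m) * (2 * m * Real.exp 2)) ^ m := by
    have h6 : T ^ m * T ^ m ≤ (Real.exp D * 3 * (2 * m * Real.exp 2) ^ m) * T ^ m := by
      calc T ^ m * T ^ m = T ^ (2 * m) := by rw [← pow_add, two_mul]
        _ ≤ _ := hfin
        _ = _ := by
          have : (2 * (m : ℝ) * T * Real.exp 2) ^ m = (2 * m * Real.exp 2) ^ m * T ^ m := by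
            rw [← mul_pow]; ring_nf
          rw [this]; ring
    have h7 : T ^ m ≤ Real.exp D * 3 * (2 * m * Real.exp 2) ^ m :=
      le_of_mul_le_mul_right h6 (by positivity)
    refine h7.trans ?_
    rw [mul_pow (3 * Real.exp (D / m)) (2 * m * Real.exp 2) m, mul_pow 3 (Real.exp (D / m)) m]
    have h8 : Real.exp (D / m) ^ m = Real.exp D := by
      rw [← Real.exp_nat_mul]; congr 1; field_simp
    rw [h8]
    have h9 : (3 : ℝ) ≤ 3 ^ m := by
      calc (3 : ℝ) = 3 ^ 1 := by norm_num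
        _ ≤ 3 ^ m := pow_le_pow_right₀ (by norm_num) hm
    have h10 : 0 ≤ Real.exp D * (2 * m * Real.exp 2) ^ m := by positivity
    nlinarith
  have hle : T ≤ 3 * Real.exp (D / m) * (2 * m * Real.exp 2) :=
    (pow_le_pow_iff_left₀ hTpos.le (by positivity) (by omega)).1 hroot
  refine hle.trans ?_
  have he2 : Real.exp 2 ≤ 8 := by
    have h11 := Real.exp_one_lt_d9
    have h12 : Real.exp 2 = Real.exp 1 * Real.exp 1 := by rw [← Real.exp_add]; norm_num
    rw [h12]
    have h13 : 0 < Real.exp 1 := Real.exp_pos 1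
    nlinarith
  calc 3 * Real.exp (D / m) * (2 * m * Real.exp 2)
      = (6 * Real.exp 2) * (m * Real.exp (D / m)) := by ring
    _ ≤ 128 * (m * Real.exp (D / m)) := by
        refine mul_le_mul_of_nonneg_right ?_ (by positivity)
        linarith
    _ = _ := by ring

/-- **Level one inequality**, truncated form. -/
theorem level1 (W : Finset ℕ) (hW : ∀ p ∈ W, 0 < p)
    (hc : (W : Set ℕ).Pairwise Nat.Coprime) (Y : ℕ) (hY1 : 1 ≤ Y) (hY : ∀ p ∈ W, p ≤ Y)
    (A M m : ℕ) (hM0 : 0 < M) (hm : 1 ≤ m) (D : ℝ) (hD : 0 ≤ D) (nu : ℕ → ℝ)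
    (h0 : ∀ i < M, 0 ≤ nu (A + i)) (h1 : ∑ i ∈ range M, nu (A + i) = 1)
    (hb : ∀ i < M, nu (A + i) ≤ Real.exp D / M)
    (hM : 2 * (8 * (W.card : ℝ) * Y) ^ (2 * m) ≤ M) :
    lev nu A M W ≤ 128 * m * Real.exp (D / m) := by
  have hMR : (0 : ℝ) < M := by exact_mod_cast hM0
  set T := lev nu A M W with hT
  -- centred functions
  set e : ℕ → ℝ := fun p => av (fun a => ps nu A M p a) p with he
  set c : ℕ → ℕ → ℝ := fun p a => ps nu A M p a - e p with hcdef
  have he1 : ∀ p ∈ W, -1 ≤ e p ∧ e p ≤ 7 := by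
    intro p hp
    have hpR : (0 : ℝ) < p := by exact_mod_cast hW p hp
    simp only [he, av]
    constructor
    · rw [le_div_iff₀ hpR]
      calc -1 * (p : ℝ) = ∑ a ∈ range p, (-1 : ℝ) := by simp
        _ ≤ _ := Finset.sum_le_sum fun a _ => (ps_mem h0 p a).1
    · rw [div_le_iff₀ hpR]
      calc ∑ a ∈ range p, ps nu A M p a ≤ ∑ a ∈ range p, (7 : ℝ) :=
            Finset.sum_le_sum fun a _ => (ps_mem h0 p a).2
        _ = 7 * (p : ℝ) := by simp [mul_comm]
  have hc0 : ∀ p ∈ W, ∑ a ∈ range p, c p a = 0 := by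
    intro p hp
    have hpR : (0 : ℝ) < p := by exact_mod_cast hW p hp
    simp only [hcdef, he, av]
    rw [Finset.sum_sub_distrib, Finset.sum_const, Finset.card_range, nsmul_eq_mul]
    field_simp
    ring
  have hc8 : ∀ p ∈ W, ∀ a, |c p a| ≤ 8 := by
    intro p hp a
    have h2 := ps_mem h0 p a
    have h3 := he1 p hp
    simp only [hcdef]
    rw [abs_le]
    constructor <;> linarith [h2.1, h2.2, h3.1, h3.2]
  -- T is the mean of Psi
  have hTmean : T = ∑ i ∈ range M, nu (A + i) * ∑ p ∈ W, c p ((A + i) % p) := by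
    have hp1 : ∀ p ∈ W, av (fun a => (p * cm nu A M p a - 1) * ps nu A M p a) p =
        ∑ i ∈ range M, nu (A + i) * c p ((A + i) % p) := by
      intro p hp
      have hpR : (0 : ℝ) < p := by exact_mod_cast hW p hp
      have h2 : ∑ a ∈ range p, (p * cm nu A M p a - 1) = 0 := by
        rw [Finset.sum_sub_distrib, ← Finset.mul_sum, sum_cm h1 (hW p hp)]
        simp
      have h3 : ∑ a ∈ range p, (p * cm nu A M p a - 1) * ps nu A M p a =
          ∑ a ∈ range p, (p * cm nu A M p a - 1) * c p a := by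
        have : ∑ a ∈ range p, (p * cm nu A M p a - 1) * c p a =
            ∑ a ∈ range p, (p * cm nu A M p a - 1) * ps nu A M p a -
              (∑ a ∈ range p, (p * cm nu A M p a - 1)) * e p := by
          rw [Finset.sum_mul, ← Finset.sum_sub_distrib]
          refine Finset.sum_congr rfl fun a _ => ?_
          simp only [hcdef]; ring
        rw [this, h2]; ring
      have h4 : ∑ a ∈ range p, (p * cm nu A M p a - 1) * c p a =
          p * ∑ a ∈ range p, cm nu A M p a * c p a := by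
        have : ∑ a ∈ range p, (p * cm nu A M p a - 1) * c p a =
            p * ∑ a ∈ range p, cm nu A M p a * c p a - ∑ a ∈ range p, c p a := by
          rw [Finset.mul_sum, ← Finset.sum_sub_distrib]
          refine Finset.sum_congr rfl fun a _ => ?_
          ring
        rw [this, hc0 p hp, sub_zero]
      rw [av, h3, h4, sum_cm_mul nu A M (hW p hp)]
      field_simp
    rw [hT, lev, Finset.sum_congr rfl hp1, Finset.sum_comm]
    refine Finset.sum_congr rfl fun i _ => ?_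
    rw [Finset.mul_sum]
  -- variance
  have hV : ∑ p ∈ W, av (fun a => c p a ^ 2) p ≤ T := by
    rw [hT, lev]
    refine Finset.sum_le_sum fun p hp => ?_
    have hpR : (0 : ℝ) < p := by exact_mod_cast hW p hp
    have h2 : av (fun a => c p a ^ 2) p ≤ av (fun a => ps nu A M p a ^ 2) p := by
      have h3 : ∑ a ∈ range p, c p a ^ 2 =
          ∑ a ∈ range p, ps nu A M p a ^ 2 - p * e p ^ 2 := by
        have h4 : ∑ a ∈ range p, ps nu A M p a = p * e p := by
          simp only [he, av]; field_simp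
        have h5 : ∑ a ∈ range p, c p a ^ 2 = ∑ a ∈ range p, ps nu A M p a ^ 2 -
            2 * e p * ∑ a ∈ range p, ps nu A M p a + ∑ a ∈ range p, e p ^ 2 := by
          rw [Finset.mul_sum, ← Finset.sum_sub_distrib, ← Finset.sum_add_distrib]
          refine Finset.sum_congr rfl fun a _ => ?_
          simp only [hcdef]; ring
        rw [h5, h4, Finset.sum_const, Finset.card_range, nsmul_eq_mul]; ring
      unfold av
      rw [h3]
      refine div_le_div_of_nonneg_right ?_ hpR.le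
      nlinarith [sq_nonneg (e p)]
    exact h2.trans (av_mono (fun a => ps_sq_le p a) p)
  have hT0 : 0 ≤ T := by
    refine le_trans ?_ hV
    refine Finset.sum_nonneg fun p _ => ?_
    unfold av; positivity
  -- Jensen and the density bound
  have hJ : T ^ (2 * m) ≤ Real.exp D *
      ((∑ i ∈ range M, (∑ p ∈ W, c p ((A + i) % p)) ^ (2 * m)) / M) := by
    have h2 := Real.pow_arith_mean_le_arith_mean_pow_of_even (range M)
      (fun i => nu (A + i)) (fun i => ∑ p ∈ W, c p ((A + i) % p))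
      (fun i hi => h0 i (mem_range.1 hi)) h1 (even_two_mul m)
    rw [← hTmean] at h2
    refine h2.trans ?_
    rw [mul_div_assoc', Finset.mul_sum, Finset.sum_div]
    refine Finset.sum_le_sum fun i hi => ?_
    have h3 : 0 ≤ (∑ p ∈ W, c p ((A + i) % p)) ^ (2 * m) := by
      rw [pow_mul]; positivity
    calc nu (A + i) * (∑ p ∈ W, c p ((A + i) % p)) ^ (2 * m)
        ≤ (Real.exp D / M) * (∑ p ∈ W, c p ((A + i) % p)) ^ (2 * m) :=
          mul_le_mul_of_nonneg_right (hb i (mem_range.1 hi)) h3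
      _ = _ := by ring
  have hmom := moment_interval W hW c hc8 Y hY hY1 (2 * m) A M hM0
  have herr : 2 * (8 * (W.card : ℝ) * Y) ^ (2 * m) / M ≤ 1 := by
    rw [div_le_one hMR]; exact hM
  have hmR : (1 : ℝ) ≤ m := by exact_mod_cast hm
  have hm0 : (0 : ℝ) < m := by linarith
  have hexp1 : 1 ≤ Real.exp (D / m) := Real.one_le_exp (by positivity)
  rcases le_or_gt T (128 * m) with hcase | hcase
  · calc T ≤ 128 * m * 1 := by linarith
      _ ≤ 128 * m * Real.exp (D / m) := by gcongr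
  -- the main case
  have hTpos : 0 < T := by linarith
  set s := Real.sqrt (2 * m / T) with hs
  have hs2 : s ^ 2 = 2 * m / T := Real.sq_sqrt (by positivity)
  have hspos : 0 < s := Real.sqrt_pos.2 (by positivity)
  have hs8 : s ≤ 1 / 8 := by
    rw [hs, Real.sqrt_le_left (by norm_num)]
    rw [div_le_iff₀ hTpos]
    nlinarith
  have hmo := moment W hW hc c hc0 hc8 m hspos hs8
  have hsV : s ^ 2 * (∑ p ∈ W, av (fun a => c p a ^ 2) p) ≤ 2 * (m : ℝ) := by
    calc s ^ 2 * (∑ p ∈ W, av (fun a => c p a ^ 2) p) ≤ s ^ 2 * T := by gcongr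
      _ = 2 * (m : ℝ) := by rw [hs2]; field_simp
  have hmain : av (fun j => (∑ p ∈ W, c p (j % p)) ^ (2 * m)) (∏ p ∈ W, p) ≤
      2 * (2 * m * T * Real.exp 2) ^ m := hmo.trans (mainb hm0 hTpos hspos hs2 hsV)
  have hone : (1 : ℝ) ≤ (2 * m * T * Real.exp 2) ^ m := by
    refine one_le_pow₀ ?_
    have h8 : 1 ≤ Real.exp 2 := Real.one_le_exp (by norm_num)
    have h9 : 1 ≤ 2 * (m : ℝ) * T := by nlinarith
    nlinarith
  have hfin : T ^ (2 * m) ≤ Real.exp D * (3 * (2 * m * T * Real.exp 2) ^ m) := by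
    refine hJ.trans ?_
    refine mul_le_mul_of_nonneg_left ?_ (Real.exp_pos D).le
    linarith
  exact extract hm hTpos hfin

/-- `y log y - y + 1` -/
noncomputable def phi (y : ℝ) : ℝ := y * Real.log y - y + 1

theorem phi_le {y Y : ℝ} (hy : 0 ≤ y) (hyY : y ≤ Y) (hY : 1 ≤ Y) :
    phi y ≤ (1 + Real.log Y) * ((y - 1) * min (y - 1) 7) := by
  have hlogY : 0 ≤ Real.log Y := Real.log_nonneg hY
  unfold phi
  rcases le_total (y - 1) 7 with h | h
  · rw [min_eq_left h]
    have h1 : y * Real.log y ≤ y * (y - 1) := by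
      rcases hy.eq_or_lt with h2 | h2
      · rw [← h2]; simp
      · exact mul_le_mul_of_nonneg_left (Real.log_le_sub_one_of_pos h2) hy
    nlinarith [mul_nonneg hlogY (mul_self_nonneg (y - 1))]
  · rw [min_eq_right h]
    have hy0 : 0 < y := by linarith
    have h1 : y * Real.log y ≤ y * Real.log Y :=
      mul_le_mul_of_nonneg_left (Real.log_le_log hy0 hyY) hy
    nlinarith [mul_nonneg hlogY hy, mul_nonneg hlogY (by linarith : (0:ℝ) ≤ 7 * (y - 1) - y)]

theorem cm_le_one {nu : ℕ → ℝ} {A M : ℕ} (h0 : ∀ i < M, 0 ≤ nu (A + i))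
    (h1 : ∑ i ∈ range M, nu (A + i) = 1) (p a : ℕ) : cm nu A M p a ≤ 1 := by
  rw [← h1]
  unfold cm
  refine Finset.sum_le_sum fun i hi => ?_
  split_ifs
  · exact le_rfl
  · exact h0 i (mem_range.1 hi)

/-- total relative entropy of the residue classes -/
theorem level1_kl (W : Finset ℕ) (hW : ∀ p ∈ W, 0 < p)
    (hc : (W : Set ℕ).Pairwise Nat.Coprime) (Y : ℕ) (hY1 : 1 ≤ Y) (hY : ∀ p ∈ W, p ≤ Y)
    (A M m : ℕ) (hM0 : 0 < M) (hm : 1 ≤ m) (D : ℝ) (hD : 0 ≤ D) (nu : ℕ → ℝ)
    (h0 : ∀ i < M, 0 ≤ nu (A + i)) (h1 : ∑ i ∈ range M, nu (A + i) = 1)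
    (hb : ∀ i < M, nu (A + i) ≤ Real.exp D / M)
    (hM : 2 * (8 * (W.card : ℝ) * Y) ^ (2 * m) ≤ M) :
    ∑ p ∈ W, av (fun a => phi (p * cm nu A M p a)) p ≤
      (1 + Real.log Y) * (128 * m * Real.exp (D / m)) := by
  have hYR : (1 : ℝ) ≤ Y := by exact_mod_cast hY1
  have h := level1 W hW hc Y hY1 hY A M m hM0 hm D hD nu h0 h1 hb hM
  refine le_trans ?_ (mul_le_mul_of_nonneg_left h
    (by have := Real.log_nonneg hYR; linarith))
  rw [lev, Finset.mul_sum]
  refine Finset.sum_le_sum fun p hp => ?_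
  rw [← av_mul_left]
  refine av_mono (fun a => ?_) p
  have hc0 : 0 ≤ cm nu A M p a := cm_nonneg h0 p a
  have hc1 : cm nu A M p a ≤ 1 := cm_le_one h0 h1 p a
  have hpY : (p : ℝ) ≤ Y := by exact_mod_cast hY p hp
  have hp0 : (0 : ℝ) ≤ p := by positivity
  refine phi_le (by positivity) ?_ hYR
  nlinarith

/-- total proportion of empty classes -/
theorem level1_zero (W : Finset ℕ) (hW : ∀ p ∈ W, 0 < p)
    (hc : (W : Set ℕ).Pairwise Nat.Coprime) (Y : ℕ) (hY1 : 1 ≤ Y) (hY : ∀ p ∈ W, p ≤ Y)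
    (A M m : ℕ) (hM0 : 0 < M) (hm : 1 ≤ m) (D : ℝ) (hD : 0 ≤ D) (nu : ℕ → ℝ)
    (h0 : ∀ i < M, 0 ≤ nu (A + i)) (h1 : ∑ i ∈ range M, nu (A + i) = 1)
    (hb : ∀ i < M, nu (A + i) ≤ Real.exp D / M)
    (hM : 2 * (8 * (W.card : ℝ) * Y) ^ (2 * m) ≤ M) :
    ∑ p ∈ W, (((range p).filter fun a => cm nu A M p a = 0).card : ℝ) / p ≤
      128 * m * Real.exp (D / m) := by
  refine le_trans ?_ (level1 W hW hc Y hY1 hY A M m hM0 hm D hD nu h0 h1 hb hM)
  rw [lev]
  refine Finset.sum_le_sum fun p _ => ?_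
  unfold av
  refine div_le_div_of_nonneg_right ?_ (by positivity)
  rw [Finset.card_filter]
  push_cast
  refine Finset.sum_le_sum fun a _ => ?_
  split_ifs with h
  · unfold ps; rw [h]; norm_num
  · exact (sq_nonneg _).trans (ps_sq_le p a)

end Vale.Agent.P042.H599
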