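import Vale.Agent.P042.H599.HBP
import Vale.Agent.P042.H945.State6
set_option autoImplicit false

/-!
P042 [D], power regime: the master inequality with families of MEI terms; cells.
-/

namespace Vale.Agent.P042.H599

open Finset Vale.Agent.P042.H945

variable {x y : ℕ → ℝ} {M : ℕ}

theorem cm_le_mod (hy : Law y 1 M) {m q : ℕ} (hd : q ∣ m) (c : ℕ) :
    cm y 1 M m c ≤ cm y 1 M q (c % q) := by
  unfold cm
  refine Finset.sum_le_sum fun i hi => ?_
  have h0 := hy.nonneg i (mem_range.1 hi)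
  by_cases h1 : (1 + i) % m = c
  · rw [if_pos h1, if_pos]
    rw [← h1, Nat.mod_mod_of_dvd _ hd]
  · rw [if_neg h1]
    split_ifs
    · exact h0
    · exact le_rfl

/-- passing to a multiple costs at most `log (m / m')` -/
theorem klu_le_add_log (hy : Law y 1 M) {m m' : ℕ} (hm : 0 < m) (hd : m' ∣ m) :
    klu y 1 M m ≤ klu y 1 M m' + Real.log ((m : ℝ) / m') := by
  have hm' : 0 < m' := Nat.pos_of_dvd_of_pos hd hm
  have hmR : (0 : ℝ) < m := by exact_mod_cast hm
  have hmR' : (0 : ℝ) < m' := by exact_mod_cast hm'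
  have h1 : klu y 1 M m' + Real.log ((m : ℝ) / m') =
      ∑ c ∈ range m, cm y 1 M m c *
        (Real.log (m' * cm y 1 M m' (c % m')) + Real.log ((m : ℝ) / m')) := by
    rw [klu_eq hy hm hd hm']
    simp only [mul_add]
    rw [Finset.sum_add_distrib, ← Finset.sum_mul, sum_cm hy.sum hm, one_mul]
  rw [h1]
  refine Finset.sum_le_sum fun c _ => ?_
  have h2 := cm_nonneg hy.nonneg m c (nu := y) (A := 1) (M := M)
  rcases h2.eq_or_lt with h3 | h3
  · rw [← h3]; simp
  · refine mul_le_mul_of_nonneg_left ?_ h2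
    have h4 := cm_le_mod hy hd c
    have h5 : 0 < cm y 1 M m' (c % m') := h3.trans_le h4
    rw [← Real.log_mul (by positivity) (by positivity)]
    refine Real.log_le_log (by positivity) ?_
    have h6 : m' * cm y 1 M m' (c % m') * ((m : ℝ) / m') = m * cm y 1 M m' (c % m') := by
      field_simp
    rw [h6]
    exact mul_le_mul_of_nonneg_left h4 hmR.le

theorem cm_sum_mod (hy : Law y 1 M) {m q a : ℕ} (hm : 0 < m) (hd : q ∣ m) (ha : a < q) :
    ∑ c ∈ (range m).filter (fun c => c % q = a), cm y 1 M m c = cm y 1 M q a := by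
  have h1 := sum_cm_mod hy hm hd (Nat.pos_of_dvd_of_pos hd hm)
    (fun b => if b = a then (1 : ℝ) else 0)
  simp only [mul_ite, mul_one, mul_zero] at h1
  rw [Finset.sum_filter, h1, Finset.sum_ite_eq']
  rw [if_pos (mem_range.2 ha)]

/-- data processing for the classes -/
theorem klc_mono (hx : Law x 1 M) (hy : Law y 1 M) (h : AC y x M) {m q : ℕ} (hm : 0 < m)
    (hd : q ∣ m) : klc y x M q ≤ klc y x M m := by
  have hq : 0 < q := Nat.pos_of_dvd_of_pos hd hm
  have h1 : klc y x M m = ∑ a ∈ range q, ∑ c ∈ (range m).filter (fun c => c % q = a),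
      cm y 1 M m c * (Real.log (cm y 1 M m c) - Real.log (cm x 1 M m c)) := by
    rw [Finset.sum_fiberwise_of_maps_to (g := fun c => c % q)
      (fun c _ => mem_range.2 (Nat.mod_lt _ hq))]
    rfl
  rw [h1]
  refine Finset.sum_le_sum fun a ha => ?_
  have h2 := log_sum ((range m).filter (fun c => c % q = a)) (fun c => cm y 1 M m c)
    (fun c => cm x 1 M m c) (fun c _ => cm_nonneg hy.nonneg _ _)
    (fun c _ => cm_nonneg hx.nonneg _ _) (fun c _ => cm_AC hx h)
  rw [cm_sum_mod hy hm hd (mem_range.1 ha), cm_sum_mod hx hm hd (mem_range.1 ha)] at h2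
  exact h2

/-- a law in one class -/
theorem cm_point (hy : Law y 1 M) {q b : ℕ} (hs : ∀ n, y n ≠ 0 → n % q = b) :
    cm y 1 M q b = 1 := by
  rw [← hy.sum]
  unfold cm
  refine Finset.sum_congr rfl fun i _ => ?_
  by_cases h : y (1 + i) = 0
  · rw [h]; simp
  · rw [if_pos (hs _ h)]

theorem cm_point' {q b a : ℕ} (hs : ∀ n, y n ≠ 0 → n % q = b) (hab : a ≠ b) :
    cm y 1 M q a = 0 := by
  unfold cm
  refine Finset.sum_eq_zero fun i _ => ?_
  by_cases h : y (1 + i) = 0
  · rw [h]; simp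
  · rw [if_neg]
    intro h1
    exact hab (h1.symm.trans (hs _ h))

theorem klc_point (hy : Law y 1 M) {q b : ℕ} (hq : b < q) (hs : ∀ n, y n ≠ 0 → n % q = b) :
    klc y x M q = -Real.log (cm x 1 M q b) := by
  unfold klc
  rw [Finset.sum_eq_single b]
  · rw [cm_point hy hs]; simp
  · intro a _ hab
    rw [cm_point' hs hab, zero_mul]
  · intro h
    exact absurd (mem_range.2 hq) h

/-- the two sums of the master inequality -/
theorem KC_SC_ge {ι : Type} {Q : Par ι} (hQ : Ok Q) (hx : Law x 1 M) (hy : Law y 1 M)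
    (h : AC y x M) (mp : ι → ℕ) (hmp : ∀ i ∈ Q.I, mp i ∣ Q.m i) :
    ∑ i ∈ Q.I, Q.c i * (klc y x M (Q.m i) - Real.log ((Q.m i : ℝ) / mp i)) ≤
      KC Q M x mp y - SC Q M x mp y := by
  unfold KC SC
  rw [← Finset.sum_sub_distrib]
  refine Finset.sum_le_sum fun i hi => ?_
  rw [← mul_sub]
  refine mul_le_mul_of_nonneg_left ?_ (hQ.hc i hi)
  have hm := hQ.hm i hi
  have hd := hmp i hi
  have hm' : 0 < mp i := Nat.pos_of_dvd_of_pos hd hm
  have e1 := klu_eq2 hx h hm
  have e2 := klu_eq2 hx h hm'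
  have e3 := klu_le_add_log hy hm hd
  have e4 : SM M (fun n => y n * (lc x M (Q.m i) n - lc x M (mp i) n)) =
      SM M (fun n => y n * Real.log (Q.m i * cm x 1 M (Q.m i) (n % Q.m i))) -
        SM M (fun n => y n * Real.log (mp i * cm x 1 M (mp i) (n % mp i))) := by
    rw [← SM_sub]
    refine SM_congr fun j _ => ?_
    unfold lc
    ring
  rw [e4]
  linarith

/-! ### families -/

/-- part of `∏ R` prime to `D` -/
def pR (D : ℕ) (R : Finset ℕ) : ℕ := ∏ p ∈ R.filter (fun p => Nat.Coprime p D), p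

/-- part of `∏ R` dividing `D` -/
def qR (D : ℕ) (R : Finset ℕ) : ℕ := ∏ p ∈ R.filter (fun p => ¬ Nat.Coprime p D), p

theorem pR_mul_qR (D : ℕ) (R : Finset ℕ) : pR D R * qR D R = ∏ p ∈ R, p :=
  Finset.prod_filter_mul_prod_filter_not R _ _

theorem pR_coprime (D : ℕ) (R : Finset ℕ) : Nat.Coprime (pR D R) D :=
  Nat.Coprime.prod_left fun _ hp => (Finset.mem_filter.1 hp).2

theorem qR_dvd {D : ℕ} {R : Finset ℕ} (hR : ∀ p ∈ R, p.Prime) : qR D R ∣ D := by
  unfold qR
  refine Finset.prod_primes_dvd D (fun p hp => (hR p (Finset.mem_filter.1 hp).1).prime)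
    (fun p hp => ?_)
  have h := Finset.mem_filter.1 hp
  have := (Nat.Prime.coprime_iff_not_dvd (hR p h.1)).not.1 h.2
  rwa [not_not] at this

theorem qR_pos {D : ℕ} {R : Finset ℕ} (hR : ∀ p ∈ R, p.Prime) : 0 < qR D R :=
  Finset.prod_pos fun p hp => (hR p (Finset.mem_filter.1 hp).1).pos

/-- the moduli of the cell inequality -/
def mpP {κ : Type} (D : ℕ) : ℕ ⊕ (Σ _ : κ, Finset ℕ) → ℕ :=
  Sum.elim (fun p => if Nat.Coprime p D then p else 1) (fun i => pR D i.2)

section cell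

variable {κ : Type} {f : Fam κ} {W : Finset ℕ} {c : ℕ → ℝ} {om : ℕ → ℕ → Finset ℕ → ℝ}
  {lam : ℕ → ℕ} {eta D0 E1 : ℝ} {Mm : ℕ} {N d : ℕ} {A0 : Finset ℤ} {a : ℤ}

theorem mpP_ok (hW : ∀ p ∈ W, p.Prime) (hf : ∀ k ∈ f.F, ∀ p ∈ f.W k, p.Prime) (D : ℕ) :
    ∀ i ∈ (PP f W c om lam eta D0 E1 Mm).I, 0 < mpP (κ := κ) D i ∧
      mpP (κ := κ) D i ∣ (PP f W c om lam eta D0 E1 Mm).m i ∧ Nat.Coprime (mpP (κ := κ) D i) D := by
  intro i hi
  rcases Finset.mem_disjSum.1 hi with ⟨p, hp, rfl⟩ | ⟨j, hj, rfl⟩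
  · show 0 < (if Nat.Coprime p D then p else 1) ∧ (if Nat.Coprime p D then p else 1) ∣ p ∧ _
    split_ifs with h
    · refine ⟨(hW p hp).pos, dvd_rfl, ?_⟩
      show Nat.Coprime (if Nat.Coprime p D then p else 1) D
      rwa [if_pos h]
    · refine ⟨one_pos, one_dvd _, ?_⟩
      show Nat.Coprime (if Nat.Coprime p D then p else 1) D
      rw [if_neg h]
      exact Nat.coprime_one_left D
  · rw [mem_fI] at hj
    have hR : ∀ p ∈ j.2, p.Prime := fun p hp => hf _ hj.1 p (hj.2.1 hp)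
    refine ⟨Finset.prod_pos fun p hp => (hR p (Finset.mem_filter.1 hp).1).pos, ?_, pR_coprime D j.2⟩
    show pR D j.2 ∣ ∏ p ∈ j.2, p
    rw [← pR_mul_qR D j.2]
    exact dvd_mul_right _ _

/-- **the cell inequality with families** -/
theorem cellF {L : ℝ} (hm : Mx (PP f W c om lam eta D0 E1 Mm) N A0 d a M x L) {D w u v : ℕ}
    (h : Comp (PP f W c om lam eta D0 E1 Mm) M x D w u v y) (hW : ∀ p ∈ W, p.Prime)
    (hf : ∀ k ∈ f.F, ∀ p ∈ f.W k, p.Prime) (hfc : ∀ i ∈ fI f, 0 ≤ fc f i)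
    {K : ℝ} (hK1 : 1 ≤ K) (hK : ∀ n, y n ≤ K * x n) {OB : ℝ}
    (hOB : ∀ S, Om (PP f W c om lam eta D0 E1 Mm) d S ≤ OB) :
    (1 - eta) * (Real.log M - Real.log ((v + 1 - u : ℕ) : ℝ)) + Real.log D -
        eta * Real.log (lam D) + ∑ p ∈ W with Nat.Coprime p D, c p * klc y x M p +
        Omc (PP f W c om lam eta D0 E1 Mm) d D M y ≤
      kl2 y x M + ∑ p ∈ W with ¬ Nat.Coprime p D, c p * Real.log (p * cm x 1 M p (w % p)) +
        ∑ i ∈ fI f, fc f i * Real.log (qR D i.2 * cm x 1 M (qR D i.2) (w % qR D i.2)) +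
        Om (PP f W c om lam eta D0 E1 Mm) d (sp x M) +
        Err (PP f W c om lam eta D0 E1 Mm) M L OB K (lam D / ((v + 1 - u : ℕ) : ℝ)) := by
  have hx := hm.mx.1.law
  have hy := h.law
  have hac := h.ac
  have key := master hm h hK1 hK hOB (mpP D) (mpP_ok hW hf D)
  have h1 := KC_SC_ge hm.ok hx hy hac (mpP D) (fun i hi => (mpP_ok hW hf D i hi).2.1)
  have hcls : ∀ q, q ∣ D → ∀ n, y n ≠ 0 → n % q = w % q := fun q hq n hn => by
    rw [← (h.supp n hn).2.2.2, Nat.mod_mod_of_dvd _ hq]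
  -- lower bound of the sum
  have h2 : ∑ p ∈ W with Nat.Coprime p D, c p * klc y x M p -
      ∑ p ∈ W with ¬ Nat.Coprime p D, c p * Real.log (p * cm x 1 M p (w % p)) -
      ∑ i ∈ fI f, fc f i * Real.log (qR D i.2 * cm x 1 M (qR D i.2) (w % qR D i.2)) ≤
      ∑ i ∈ (PP f W c om lam eta D0 E1 Mm).I, (PP f W c om lam eta D0 E1 Mm).c i *
        (klc y x M ((PP f W c om lam eta D0 E1 Mm).m i) -
          Real.log (((PP f W c om lam eta D0 E1 Mm).m i : ℝ) / mpP (κ := κ) D i)) := by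
    rw [sum_PP]
    have e1 : ∑ p ∈ W with Nat.Coprime p D, c p * klc y x M p -
        ∑ p ∈ W with ¬ Nat.Coprime p D, c p * Real.log (p * cm x 1 M p (w % p)) ≤
        ∑ p ∈ W, c p * (klc y x M ((PP f W c om lam eta D0 E1 Mm).m (Sum.inl p)) -
          Real.log (((PP f W c om lam eta D0 E1 Mm).m (Sum.inl p) : ℝ) /
            mpP (κ := κ) D (Sum.inl p))) := by
      rw [← Finset.sum_filter_add_sum_filter_not W (fun p => Nat.Coprime p D) (fun p =>
        c p * (klc y x M ((PP f W c om lam eta D0 E1 Mm).m (Sum.inl p)) -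
          Real.log (((PP f W c om lam eta D0 E1 Mm).m (Sum.inl p) : ℝ) /
            mpP (κ := κ) D (Sum.inl p)))), sub_eq_add_neg, ← Finset.sum_neg_distrib]
      refine add_le_add (Finset.sum_le_sum fun p hp => ?_) (Finset.sum_le_sum fun p hp => ?_)
      · have h3 := Finset.mem_filter.1 hp
        have hpR : (p : ℝ) ≠ 0 := by exact_mod_cast (hW p h3.1).ne_zero
        show c p * klc y x M p ≤ c p * (klc y x M p -
          Real.log ((p : ℝ) / ((if Nat.Coprime p D then p else 1 : ℕ) : ℝ)))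
        rw [if_pos h3.2, div_self hpR, Real.log_one, sub_zero]
      · have h3 := Finset.mem_filter.1 hp
        have hpD : p ∣ D := by
          have := (Nat.Prime.coprime_iff_not_dvd (hW p h3.1)).not.1 h3.2
          rwa [not_not] at this
        have hpR : (p : ℝ) ≠ 0 := by exact_mod_cast (hW p h3.1).ne_zero
        have h4 := klc_point (x := x) hy (Nat.mod_lt w (hW p h3.1).pos) (hcls p hpD)
        have h5 : cm x 1 M p (w % p) ≠ 0 := fun h6 => by
          have h7 := cm_AC (m := p) hx hac h6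
          rw [cm_point hy (hcls p hpD)] at h7
          exact one_ne_zero h7
        show -(c p * Real.log (p * cm x 1 M p (w % p))) ≤ c p * (klc y x M p -
          Real.log ((p : ℝ) / ((if Nat.Coprime p D then p else 1 : ℕ) : ℝ)))
        rw [if_neg h3.2, h4, Real.log_mul hpR h5]
        refine le_of_eq ?_
        push_cast
        rw [div_one]
        ring
    have e2 : -∑ i ∈ fI f, fc f i *
          Real.log (qR D i.2 * cm x 1 M (qR D i.2) (w % qR D i.2)) ≤
        ∑ i ∈ fI f, fc f i * (klc y x M ((PP f W c om lam eta D0 E1 Mm).m (Sum.inr i)) -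
          Real.log (((PP f W c om lam eta D0 E1 Mm).m (Sum.inr i) : ℝ) /
            mpP (κ := κ) D (Sum.inr i))) := by
      rw [← Finset.sum_neg_distrib]
      refine Finset.sum_le_sum fun i hi => ?_
      rw [← mul_neg]
      refine mul_le_mul_of_nonneg_left ?_ (hfc i hi)
      rw [mem_fI] at hi
      have hR : ∀ p ∈ i.2, p.Prime := fun p hp => hf _ hi.1 p (hi.2.1 hp)
      have hq0 := qR_pos (D := D) hR
      have hqR : ((qR D i.2 : ℕ) : ℝ) ≠ 0 := by exact_mod_cast hq0.ne'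
      have hp0 : 0 < pR D i.2 :=
        Finset.prod_pos fun p hp => (hR p (Finset.mem_filter.1 hp).1).pos
      have hpR : ((pR D i.2 : ℕ) : ℝ) ≠ 0 := by exact_mod_cast hp0.ne'
      have hqD := qR_dvd (D := D) hR
      have h4 := klc_point (x := x) hy (Nat.mod_lt w hq0) (hcls _ hqD)
      have h5 : cm x 1 M (qR D i.2) (w % qR D i.2) ≠ 0 := fun h6 => by
        have h7 := cm_AC (m := qR D i.2) hx hac h6
        rw [cm_point hy (hcls _ hqD)] at h7
        exact one_ne_zero h7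
      have h8 : klc y x M (qR D i.2) ≤ klc y x M (∏ p ∈ i.2, p) := by
        refine klc_mono hx hy hac (Finset.prod_pos fun p hp => (hR p hp).pos) ?_
        rw [← pR_mul_qR D i.2]
        exact dvd_mul_left _ _
      show -Real.log (qR D i.2 * cm x 1 M (qR D i.2) (w % qR D i.2)) ≤
        klc y x M (∏ p ∈ i.2, p) - Real.log (((∏ p ∈ i.2, p : ℕ) : ℝ) / (pR D i.2 : ℕ))
      have h9 : ((∏ p ∈ i.2, p : ℕ) : ℝ) / (pR D i.2 : ℕ) = (qR D i.2 : ℕ) := by
        rw [← pR_mul_qR D i.2, Nat.cast_mul, mul_div_cancel_left₀ _ hpR]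
      rw [h9, Real.log_mul hqR h5]
      linarith
    linarith
  have h3 : (PP f W c om lam eta D0 E1 Mm).eta = eta := rfl
  have h4 : (PP f W c om lam eta D0 E1 Mm).lam = lam := rfl
  rw [h3, h4] at key
  linarith

/-- **the MEI inequalities at the maximiser**: `y` any competitor (`D = 1`) -/
theorem mei_max {L : ℝ} (hm : Mx (PP f W c om lam eta D0 E1 Mm) N A0 d a M x L)
    (h : Comp (PP f W c om lam eta D0 E1 Mm) M x 1 0 1 M y)
    {K : ℝ} (hK1 : 1 ≤ K) (hK : ∀ n, y n ≤ K * x n) {OB : ℝ}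
    (hOB : ∀ S, Om (PP f W c om lam eta D0 E1 Mm) d S ≤ OB) :
    ∑ p ∈ W, c p * klc y x M p +
      ∑ k ∈ f.F, f.ω k * f.K k * ∑ R ∈ (f.W k).powerset, bwt (f.t k) (f.W k) R *
        (if ∏ p ∈ R, p ≤ f.B k then klc y x M (∏ p ∈ R, p) else 0) ≤
      kl2 y x M + Err (PP f W c om lam eta D0 E1 Mm) M L OB K (1 / M) := by
  have hx := hm.mx.1.law
  have key := master hm h hK1 hK hOB (PP f W c om lam eta D0 E1 Mm).m
    (fun i hi => ⟨hm.ok.hm i hi, dvd_rfl, Nat.coprime_one_right _⟩)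
  have h1 : SC (PP f W c om lam eta D0 E1 Mm) M x (PP f W c om lam eta D0 E1 Mm).m y = 0 := by
    unfold SC
    refine Finset.sum_eq_zero fun i _ => ?_
    have : SM M (fun n => y n * (lc x M ((PP f W c om lam eta D0 E1 Mm).m i) n -
        lc x M ((PP f W c om lam eta D0 E1 Mm).m i) n)) = 0 := by
      unfold SM
      refine Finset.sum_eq_zero fun j _ => ?_
      ring
    rw [this, mul_zero]
  have h2 : Om (PP f W c om lam eta D0 E1 Mm) d (sp x M) ≤
      Omc (PP f W c om lam eta D0 E1 Mm) d 1 M y := by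
    have h3 : sp y M ⊆ sp x M := by
      intro n hn
      unfold sp at hn ⊢
      rw [Finset.mem_filter] at hn ⊢
      exact ⟨hn.1, (h.supp n hn.2).1⟩
    refine (Om_anti hm.ok hm.mx.1.hd h3).trans (le_of_eq ?_)
    unfold Om Omc
    refine (Finset.sum_congr ?_ fun _ _ => rfl).symm
    ext p
    simp
  have h3 : (PP f W c om lam eta D0 E1 Mm).lam 1 = 1 := hm.ok.lam1
  have h4 : KC (PP f W c om lam eta D0 E1 Mm) M x (PP f W c om lam eta D0 E1 Mm).m y =
      ∑ p ∈ W, c p * klc y x M p +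
      ∑ k ∈ f.F, f.ω k * f.K k * ∑ R ∈ (f.W k).powerset, bwt (f.t k) (f.W k) R *
        (if ∏ p ∈ R, p ≤ f.B k then klc y x M (∏ p ∈ R, p) else 0) := by
    unfold KC
    rw [sum_PP f W c om lam eta D0 E1 Mm
      (fun i => klc y x M ((PP f W c om lam eta D0 E1 Mm).m i)),
      ← sum_fI f fun _ R => klc y x M (∏ p ∈ R, p)]
    rfl
  rw [h1, h3, h4, show M + 1 - 1 = M by omega, Nat.cast_one, Real.log_one] at key
  linarith

end cell

end Vale.Agent.P042.H599
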