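import Vale.Agent.P042.H599.HBS
import Vale.Agent.P042.H945.State6
set_option autoImplicit false

/-!
P042 [S]: (Q) for the thin cells, in the vocabulary of 945's state.
-/

namespace Vale.Agent.P042.H599

open Finset Vale.Agent.P042.H945

variable {x y : ℕ → ℝ} {M : ℕ}

theorem klc_eq_log_div (hy : Law y 1 M) {m : ℝ}
    (hle : ∀ n, y n ≤ x n / m) (p : ℕ) :
    klc y x M p =
      ∑ a ∈ range p, cm y 1 M p a * Real.log (cm y 1 M p a / cm x 1 M p a) := by
  unfold klc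
  refine Finset.sum_congr rfl fun a _ => ?_
  by_cases h0 : cm y 1 M p a = 0
  · rw [h0]; simp
  · have h1 : cm y 1 M p a ≤ cm x 1 M p a / m := by
      unfold cm
      rw [Finset.sum_div]
      refine Finset.sum_le_sum fun i _ => ?_
      split_ifs
      · exact hle _
      · simp
    have h2 : cm x 1 M p a ≠ 0 := by
      intro h3
      rw [h3, zero_div] at h1
      exact h0 (le_antisymm h1 (cm_nonneg hy.nonneg p a))
    rw [Real.log_div h0 h2]

/-- thin cells: class `b` modulo `D`, interval `[u, v]` -/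
theorem thin_klc (hx : Law x 1 M) (hy : Law y 1 M) {D b u v : ℕ} (hD : 1 ≤ D) (hb : b < D)
    (hu : 1 ≤ u) (supp : ∀ n, y n ≠ 0 → u ≤ n ∧ n ≤ v ∧ n % D = b)
    {l D1 s m κ : ℝ} (hl : 1 ≤ l) (hD1 : 1 ≤ D1) (hs0 : 0 ≤ s) (hm : 0 < m)
    (hle : ∀ n, y n ≤ x n / m)
    (hVm : Real.exp (-s) * ((v + 1 - u : ℕ) : ℝ) ≤ D * M * m)
    (cap : ∀ i < M, x (1 + i) ≤ Real.exp D1 / M)
    (hM : Real.exp (20 * l * (D1 + 2) + 1) ≤ M)
    (hVl : D * Real.exp (20 * l * (D1 + s + 3) + 2) ≤ ((v + 1 - u : ℕ) : ℝ))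
    (W : Finset ℕ) (hW : ∀ p ∈ W, 0 < p) (hc : (W : Set ℕ).Pairwise Nat.Coprime)
    (hY : ∀ p ∈ W, (p : ℝ) ≤ Real.exp (2 * l)) (hκ : 0 < κ) (hκ1 : κ ≤ 1)
    (hg : ∀ p ∈ W, ∀ a < p, cm x 1 M p a = 0 ∨ κ / p ≤ cm x 1 M p a) :
    ∑ p ∈ W with Nat.Coprime p D, klc y x M p ≤
      (12 + 7 * Real.log (1 / κ)) * (3200 * l * (2 * D1 + (s + 1))) := by
  have hDR : (1 : ℝ) ≤ D := by exact_mod_cast hD
  have hE : 1 ≤ Real.exp (20 * l * (D1 + s + 3) + 1) := Real.one_le_exp (by positivity)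
  have he2 : (2 : ℝ) ≤ Real.exp 1 := by linarith [Real.add_one_le_exp (1 : ℝ)]
  have hE2 : 2 * Real.exp (20 * l * (D1 + s + 3) + 1) ≤
      Real.exp (20 * l * (D1 + s + 3) + 2) := by
    calc 2 * Real.exp (20 * l * (D1 + s + 3) + 1)
        ≤ Real.exp 1 * Real.exp (20 * l * (D1 + s + 3) + 1) :=
          mul_le_mul_of_nonneg_right he2 (Real.exp_pos _).le
      _ = Real.exp (20 * l * (D1 + s + 3) + 2) := by rw [← Real.exp_add]; congr 1; ring
  have huv : u ≤ v + 1 := by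
    by_contra h
    have : v + 1 - u = 0 := by omega
    rw [this] at hVl
    have : 0 < D * Real.exp (20 * l * (D1 + s + 3) + 2) := by positivity
    push_cast at hVl
    linarith
  have hlow := cn_lower (Λ := D) (by omega : 0 < D) hb hu huv
  have hup := cn_upper (Λ := D) (by omega : 0 < D) hb hu huv
  set V := cn D b u v with hV
  have hlow' : ((v + 1 - u : ℕ) : ℝ) < (V + 1) * D := by exact_mod_cast hlow
  have hup' : (V : ℝ) * D < ((v + 1 - u : ℕ) : ℝ) + D := by exact_mod_cast hup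
  have hV1 : Real.exp (20 * l * (D1 + s + 3) + 1) ≤ V := by
    have h1 : D * Real.exp (20 * l * (D1 + s + 3) + 2) < D * ((V : ℝ) + 1) := by
      rw [mul_comm (D : ℝ) ((V : ℝ) + 1)]; linarith
    have h2 := lt_of_mul_lt_mul_left h1 (by linarith)
    linarith
  have hV0 : 0 < V := by
    have : (0 : ℝ) < V := lt_of_lt_of_le (Real.exp_pos _) hV1
    exact_mod_cast this
  have hDV : (D : ℝ) ≤ ((v + 1 - u : ℕ) : ℝ) := by
    refine le_trans ?_ hVl
    have : 1 ≤ Real.exp (20 * l * (D1 + s + 3) + 2) := by linarith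
    nlinarith
  have hVm' : Real.exp (-(s + 1)) * V ≤ M * m := by
    have h1 : Real.exp (-(s + 1)) * 2 ≤ Real.exp (-s) := by
      rw [neg_add, Real.exp_add, Real.exp_neg 1, mul_assoc]
      refine mul_le_of_le_one_right (Real.exp_pos _).le ?_
      rw [inv_mul_le_iff₀ (Real.exp_pos _)]
      linarith
    have h2 : (V : ℝ) * D ≤ 2 * ((v + 1 - u : ℕ) : ℝ) := by linarith
    have h3 : Real.exp (-(s + 1)) * V * D ≤ M * m * D := by
      calc Real.exp (-(s + 1)) * V * D = Real.exp (-(s + 1)) * (V * D) := by ring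
        _ ≤ Real.exp (-(s + 1)) * (2 * ((v + 1 - u : ℕ) : ℝ)) := by gcongr
        _ = Real.exp (-(s + 1)) * 2 * ((v + 1 - u : ℕ) : ℝ) := by ring
        _ ≤ Real.exp (-s) * ((v + 1 - u : ℕ) : ℝ) := by gcongr
        _ ≤ D * M * m := hVm
        _ = M * m * D := by ring
    exact le_of_mul_le_mul_right h3 (by linarith)
  have key := thin_cell hx hy (n0 := b + D * k0 D b u) (D := D) (V := V) (by omega) hV0
    (fun i _ hi => by
      obtain ⟨h1, h2, h3⟩ := supp _ hi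
      obtain ⟨j, hj, hj2⟩ := el_surj (Λ := D) (by omega) hb h1 h2 h3 hu
      refine ⟨j, hj, ?_⟩
      rw [← hj2, el_succ]
      ring)
    hl hD1 (by linarith : (0 : ℝ) ≤ s + 1) hm (fun i _ => hle _) hVm' cap hM
    (by rw [show D1 + (s + 1) + 2 = D1 + s + 3 by ring]; exact hV1)
    (W.filter fun p => Nat.Coprime p D) (fun p hp => hW p (Finset.mem_filter.1 hp).1)
    (fun p hp => (Finset.mem_filter.1 hp).2)
    (hc.mono (by intro p hp; exact (Finset.mem_filter.1 hp).1))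
    (fun p hp => hY p (Finset.mem_filter.1 hp).1) hκ hκ1
    (fun p hp => hg p (Finset.mem_filter.1 hp).1)
  refine le_trans (le_of_eq ?_) key
  exact Finset.sum_congr rfl fun p _ => klc_eq_log_div hy hle p

/-- **(Q) for thin cells, safe regime**: `s = log (V / (D M m)) ≥ 20 L`, `V = v + 1 - u` -/
theorem thin_Q (hx : Law x 1 M) (hy : Law y 1 M) {D b u v : ℕ} (hD : 1 ≤ D) (hb : b < D)
    (hu : 1 ≤ u) (supp : ∀ n, y n ≠ 0 → u ≤ n ∧ n ≤ v ∧ n % D = b)
    {l L lam0 xi m s : ℝ} (hl : 1 ≤ l) (hL : 1 ≤ L) (hlam : 0 ≤ lam0) (hxi : 0 < xi) (hxi4 : xi ≤ 4)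
    (hlx : lam0 * (12 + 7 * Real.log (4 / xi)) ≤ 1 / 20000) (hm : 0 < m)
    (hle : ∀ n, y n ≤ x n / m) (hs : s = Real.log (((v + 1 - u : ℕ) : ℝ) / (D * M * m)))
    (hthin : 20 * L ≤ s)
    (cap : ∀ i < M, x (1 + i) ≤ Real.exp (50 * L + 1) / M)
    (hM : Real.exp (20 * l * (50 * L + 3) + 1) ≤ M)
    (hVl : D * Real.exp (20 * l * (50 * L + s + 4) + 2) ≤ ((v + 1 - u : ℕ) : ℝ))
    (W : Finset ℕ) (hW : ∀ p ∈ W, 0 < p) (hc : (W : Set ℕ).Pairwise Nat.Coprime)
    (hY : ∀ p ∈ W, (p : ℝ) ≤ Real.exp (2 * l))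
    (hg : ∀ p ∈ W, ∀ a < p, cm x 1 M p a = 0 ∨ xi / 4 / p ≤ cm x 1 M p a) :
    lam0 / l * ∑ p ∈ W with Nat.Coprime p D, klc y x M p +
      Real.log (D * m * M / ((v + 1 - u : ℕ) : ℝ)) ≤ 0 := by
  have hDR : (1 : ℝ) ≤ D := by exact_mod_cast hD
  have hMR : (0 : ℝ) < M := by exact_mod_cast hx.pos
  have hV0 : (0 : ℝ) < ((v + 1 - u : ℕ) : ℝ) :=
    lt_of_lt_of_le (by positivity) hVl
  have hs0 : 0 ≤ s := by linarith
  have hexps : Real.exp (-s) * ((v + 1 - u : ℕ) : ℝ) = D * M * m := by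
    rw [hs, ← Real.log_inv, Real.exp_log (by positivity), inv_div]
    field_simp
  have h1 := thin_klc hx hy hD hb hu supp hl (by linarith : (1 : ℝ) ≤ 50 * L + 1) hs0 hm hle
    hexps.le cap (by rw [show 50 * L + 1 + 2 = 50 * L + 3 by ring]; exact hM)
    (by rw [show 50 * L + 1 + s + 3 = 50 * L + s + 4 by ring]; exact hVl) W hW hc hY
    (by positivity : 0 < xi / 4) (by linarith) hg
  have h2 : Real.log (D * m * M / ((v + 1 - u : ℕ) : ℝ)) = -s := by
    rw [hs, ← Real.log_inv, inv_div]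
    congr 1
    ring
  rw [h2]
  have h3 : 1 / (xi / 4) = 4 / xi := by field_simp
  rw [h3] at h1
  have hL4 : 0 ≤ Real.log (4 / xi) := Real.log_nonneg (by rw [le_div_iff₀ hxi]; linarith)
  have h4 : lam0 / l * ((12 + 7 * Real.log (4 / xi)) * (3200 * l * (2 * (50 * L + 1) + (s + 1)))) =
      lam0 * (12 + 7 * Real.log (4 / xi)) * (3200 * (2 * (50 * L + 1) + (s + 1))) := by
    field_simp
  have h5 : lam0 / l * ∑ p ∈ W with Nat.Coprime p D, klc y x M p ≤
      lam0 * (12 + 7 * Real.log (4 / xi)) * (3200 * (2 * (50 * L + 1) + (s + 1))) := by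
    rw [← h4]
    exact mul_le_mul_of_nonneg_left h1 (by positivity)
  have h6 : 3200 * (2 * (50 * L + 1) + (s + 1)) ≤ 20000 * s := by nlinarith
  have h7 : lam0 * (12 + 7 * Real.log (4 / xi)) * (3200 * (2 * (50 * L + 1) + (s + 1))) ≤
      1 / 20000 * (20000 * s) := by
    refine mul_le_mul hlx h6 (by positivity) (by norm_num)
  linarith

end Vale.Agent.P042.H599
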