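import Vale.Agent.P042.H599.HBP
import Vale.Agent.P042.H599.Thin
set_option autoImplicit false

/-!
P042 [D], power regime: (Q) for the thin cells.
-/

namespace Vale.Agent.P042.H599

open Finset Vale.Agent.P042.H945

variable {x y : ℕ → ℝ} {M : ℕ}

/-- a law in a progression, pulled back, has small density -/
theorem apl_cap {D b u v : ℕ} (hD : 1 ≤ D) (hb : b < D)
    (hu : 1 ≤ u) (hx : Law x 1 M) (hy : Law y 1 M)
    (supp : ∀ n, y n ≠ 0 → u ≤ n ∧ n ≤ v ∧ n % D = b) {D1 s m X : ℝ} (hX : 1 ≤ X)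
    (hm : 0 < m) (hle : ∀ n, y n ≤ x n / m)
    (hVm : Real.exp (-s) * ((v + 1 - u : ℕ) : ℝ) ≤ D * M * m)
    (cap : ∀ i < M, x (1 + i) ≤ Real.exp D1 / M) (hV : D * (2 * X) ≤ ((v + 1 - u : ℕ) : ℝ)) :
    ∃ n0 V : ℕ, X ≤ V ∧ Law (apl y 1 M n0 D) 0 V ∧
      (∀ i < V, apl y 1 M n0 D (0 + i) ≤ Real.exp (D1 + s + 1) / V) ∧
      ∀ p, 0 < p → p.Coprime D → klu (apl y 1 M n0 D) 0 V p = klu y 1 M p := by
  have hDR : (1 : ℝ) ≤ D := by exact_mod_cast hD
  have hMR : (0 : ℝ) < M := by exact_mod_cast hx.pos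
  have huv : u ≤ v + 1 := by
    by_contra h
    have : v + 1 - u = 0 := by omega
    rw [this] at hV
    push_cast at hV
    nlinarith
  have hlow := cn_lower (Λ := D) (by omega : 0 < D) hb hu huv
  have hup := cn_upper (Λ := D) (by omega : 0 < D) hb hu huv
  obtain ⟨V, hVd⟩ : ∃ V, V = cn D b u v := ⟨_, rfl⟩
  rw [← hVd] at hlow hup
  have hlow' : ((v + 1 - u : ℕ) : ℝ) < (V + 1) * D := by exact_mod_cast hlow
  have hup' : (V : ℝ) * D < ((v + 1 - u : ℕ) : ℝ) + D := by exact_mod_cast hup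
  have hVX : X ≤ V := by
    have h1 : D * (2 * X) < D * ((V : ℝ) + 1) := by
      rw [mul_comm (D : ℝ) ((V : ℝ) + 1)]; linarith
    have h2 := lt_of_mul_lt_mul_left h1 (by linarith)
    linarith
  have hV0 : 0 < V := by
    have : (0 : ℝ) < V := by linarith
    exact_mod_cast this
  have hVR : (0 : ℝ) < V := by linarith
  have hs : ∀ i < M, y (1 + i) ≠ 0 → ∃ j < V, 1 + i = b + D * k0 D b u + D * j := by
    intro i _ hi
    obtain ⟨h1, h2, h3⟩ := supp _ hi
    obtain ⟨j, hj, hj2⟩ := el_surj (Λ := D) (by omega) hb h1 h2 h3 hu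
    refine ⟨j, by rw [hVd]; exact hj, ?_⟩
    rw [← hj2, el_succ]
    ring
  refine ⟨b + D * k0 D b u, V, hVX, law_apl hy (by omega) hV0 hs, ?_,
    fun p hp hpD => klu_apl (by omega) hp hpD hs⟩
  -- the cap
  have hy1 : ∀ i < M, y (1 + i) ≤ Real.exp (D1 + s + 1) / V := by
    intro i hi
    refine (hle _).trans ?_
    rw [div_le_iff₀ hm]
    refine (cap i hi).trans ?_
    rw [div_le_iff₀ hMR]
    have h2 : (V : ℝ) * D ≤ 2 * ((v + 1 - u : ℕ) : ℝ) := by nlinarith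
    have he2 : (2 : ℝ) ≤ Real.exp 1 := by linarith [Real.add_one_le_exp (1 : ℝ)]
    have h3 : (V : ℝ) * D * Real.exp (-s) ≤ Real.exp 1 * (D * M * m) := by
      calc (V : ℝ) * D * Real.exp (-s) ≤ 2 * ((v + 1 - u : ℕ) : ℝ) * Real.exp (-s) :=
            mul_le_mul_of_nonneg_right h2 (Real.exp_pos _).le
        _ = 2 * (Real.exp (-s) * ((v + 1 - u : ℕ) : ℝ)) := by ring
        _ ≤ 2 * (D * M * m) := by linarith
        _ ≤ Real.exp 1 * (D * M * m) := mul_le_mul_of_nonneg_right he2 (by positivity)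
    have h4 : (V : ℝ) * Real.exp (-s) ≤ Real.exp 1 * (M * m) := by
      have h5 : D * ((V : ℝ) * Real.exp (-s)) ≤ D * (Real.exp 1 * (M * m)) := by linarith
      exact le_of_mul_le_mul_left h5 (by linarith)
    have h6 : (V : ℝ) ≤ Real.exp s * (Real.exp 1 * (M * m)) := by
      have h7 := mul_le_mul_of_nonneg_left h4 (Real.exp_pos s).le
      have h8 : Real.exp s * ((V : ℝ) * Real.exp (-s)) = V := by
        rw [mul_left_comm, ← Real.exp_add, add_neg_cancel, Real.exp_zero, mul_one]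
      linarith
    have h9 : 1 ≤ Real.exp s * (Real.exp 1 * (M * m)) / V := by
      rwa [le_div_iff₀ hVR, one_mul]
    calc Real.exp D1 = Real.exp D1 * 1 := (mul_one _).symm
      _ ≤ Real.exp D1 * (Real.exp s * (Real.exp 1 * (M * m)) / V) :=
          mul_le_mul_of_nonneg_left h9 (Real.exp_pos _).le
      _ = Real.exp (D1 + s + 1) / V * m * M := by
          rw [Real.exp_add, Real.exp_add]; ring
  intro i _
  rw [zero_add]
  unfold apl
  split_ifs with h1
  · obtain ⟨k, hk⟩ := Nat.exists_eq_add_of_le h1.1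
    rw [hk]
    exact hy1 k (by omega)
  · positivity

/-- **thin cells, power regime** (`l = log P`) -/
theorem thin_P {g1 C1 C : ℝ} (hg : 0 < g1) (hg1 : g1 ≤ 1) (hC1 : 1 ≤ C1) (hC : 0 ≤ C) :
    ∃ l0 : ℝ, ∀ l ≥ l0, ∀ (x y : ℕ → ℝ) (M : ℕ), Law x 1 M → Law y 1 M →
      ∀ D b u v : ℕ, 1 ≤ D → b < D → 1 ≤ u →
      (∀ n, y n ≠ 0 → u ≤ n ∧ n ≤ v ∧ n % D = b) →
      ∀ D1 s m : ℝ, 0 ≤ D1 → 0 ≤ s → 0 < m → (∀ n, y n ≤ x n / m) →
      Real.exp (-s) * ((v + 1 - u : ℕ) : ℝ) ≤ D * M * m →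
      (∀ i < M, x (1 + i) ≤ Real.exp D1 / M) →
      D1 + s + 1 ≤ g1 / (1280 * C1) * Real.exp l → Real.exp (Real.exp l / 4) ≤ M →
      D * (2 * Real.exp (Real.exp l / 4)) ≤ ((v + 1 - u : ℕ) : ℝ) →
      ∀ (W : Finset ℕ) (c κ : ℕ → ℝ), (∀ p ∈ W, 0 < p) → (W : Set ℕ).Pairwise Nat.Coprime →
      (∀ p ∈ W, (p : ℝ) ≤ Real.exp (C1 * l)) → (∀ p ∈ W, 0 ≤ c p) → (∀ p ∈ W, 0 < κ p) →
      (∀ p ∈ W, κ p ≤ 1) →
      (∀ p ∈ W, c p * (12 + 7 * Real.log (1 / κ p)) ≤ C * Real.exp (-(g1 * Real.log p))) →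
      (∀ p ∈ W, ∀ a < p, cm x 1 M p a = 0 ∨ κ p / p ≤ cm x 1 M p a) →
      ∑ p ∈ W with Nat.Coprime p D, c p * klc y x M p ≤ 2 * Real.exp ((1 - g1 / 5) * l) := by
  obtain ⟨l0, hl0⟩ := HBd_ei_power hg hg1 hC1 hC
  refine ⟨l0, fun l hl x y M hx hy D b u v hD hb hu supp D1 s m hD1 hs hm hle hVm cap hcapD hM hV
    W c κ hW hc hY hc0 hκ0 hκ1 hcκ hg => ?_⟩
  have hX : 1 ≤ Real.exp (Real.exp l / 4) := Real.one_le_exp (by positivity)
  obtain ⟨n0, V, hVX, hlaw, hcap, hklu⟩ :=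
    apl_cap hD hb hu hx hy supp hX hm hle hVm cap hV
  obtain ⟨W', hW'⟩ : ∃ W', W' = W.filter (fun p => Nat.Coprime p D) := ⟨_, rfl⟩
  have hsub : W' ⊆ W := by rw [hW']; exact Finset.filter_subset _ _
  have hL : ∀ p ∈ W, 0 ≤ 12 + 7 * Real.log (1 / κ p) := fun p hp => by
    have : 0 ≤ Real.log (1 / κ p) :=
      Real.log_nonneg (by rw [le_div_iff₀ (hκ0 p hp)]; linarith [hκ1 p hp])
    linarith
  have e1 := hl0 l hl W' (fun p => c p * (12 + 7 * Real.log (1 / κ p))) V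
    (fun p hp => hW p (hsub hp)) (hc.mono (by intro p hp; exact hsub hp))
    (fun p hp => hY p (hsub hp)) (fun p hp => mul_nonneg (hc0 p (hsub hp)) (hL p (hsub hp)))
    (fun p hp => hcκ p (hsub hp)) hVX ((D1 + s + 1) / 2) (by positivity)
    (by
      have h1 : g1 / (2560 * C1) * Real.exp l = g1 / (1280 * C1) * Real.exp l / 2 := by
        have : C1 ≠ 0 := by linarith
        field_simp
        norm_num
      rw [h1]; linarith)
    _ _ V hlaw le_rfl (by
      rw [show 2 * ((D1 + s + 1) / 2) = D1 + s + 1 by ring]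
      exact hcap)
  have e2 := hl0 l hl W' (fun p => c p * (12 + 7 * Real.log (1 / κ p))) M
    (fun p hp => hW p (hsub hp)) (hc.mono (by intro p hp; exact hsub hp))
    (fun p hp => hY p (hsub hp)) (fun p hp => mul_nonneg (hc0 p (hsub hp)) (hL p (hsub hp)))
    (fun p hp => hcκ p (hsub hp)) hM (D1 / 2) (by positivity)
    (by
      have h1 : g1 / (2560 * C1) * Real.exp l = g1 / (1280 * C1) * Real.exp l / 2 := by
        have : C1 ≠ 0 := by linarith
        field_simp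
        norm_num
      rw [h1]; linarith)
    _ _ M hx le_rfl (by
      rw [show 2 * (D1 / 2) = D1 by ring]
      exact cap)
  simp only [zero_mul, zero_add] at e1 e2
  have e3 : ∑ p ∈ W', c p * (12 + 7 * Real.log (1 / κ p)) * klu (apl y 1 M n0 D) 0 V p =
      ∑ p ∈ W', c p * (12 + 7 * Real.log (1 / κ p)) * klu y 1 M p := by
    refine Finset.sum_congr rfl fun p hp => ?_
    have hp' := hp
    rw [hW', Finset.mem_filter] at hp'
    rw [hklu p (hW p hp'.1) hp'.2]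
  rw [e3] at e1
  have e4 : ∀ p ∈ W', c p * klc y x M p ≤
      c p * (12 + 7 * Real.log (1 / κ p)) * klu y 1 M p +
        c p * (12 + 7 * Real.log (1 / κ p)) * klu x 1 M p := by
    intro p hp
    have hpW := hsub hp
    have h1 : klc y x M p ≤ (12 + 7 * Real.log (1 / κ p)) * (klu y 1 M p + klu x 1 M p) := by
      rw [klc_eq_log_div hy hle p]
      refine kl_cell hx hy (hW p hpW) (hκ0 p hpW) (hκ1 p hpW) fun a ha => ?_
      rcases hg p hpW a ha with h0 | h0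
      · refine Or.inl ⟨h0, le_antisymm ?_ (cm_nonneg hy.nonneg p a)⟩
        have h1 : cm y 1 M p a ≤ cm x 1 M p a / m := by
          unfold cm
          rw [Finset.sum_div]
          refine Finset.sum_le_sum fun i _ => ?_
          split_ifs
          · exact hle _
          · simp
        rw [h0, zero_div] at h1
        exact h1
      · exact Or.inr h0
    have h2 := mul_le_mul_of_nonneg_left h1 (hc0 p hpW)
    linarith
  have e5 := Finset.sum_le_sum e4
  rw [Finset.sum_add_distrib] at e5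
  rw [← hW']
  linarith

end Vale.Agent.P042.H599
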